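import Vale.Agent.P166.Hopf.CutBase

/-!
# P166: the cut costs `O(N / L²)` at every strength

At the middle system, where the negative potentials are cut and the positive ones are quadratic,
the fourth powers of the fields sum to `O(N)`: a negative pattern by the correlation inequality
against its cavity, the positive ones of one species by invariance under mixing two of them.
-/

open MeasureTheory ProbabilityTheory Real Finset
open Vale.Agent.P150 (gauss dot)
open Vale.Agent.P157.Lim (xv wt)
open Vale.Agent.P157.Par (pats)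
open Vale.Agent.P166.Pattern.Multi (Ks can cnt_can)

noncomputable section

namespace Vale.Agent.P166.Hopf

open Par (qf fL fL_eq fL_sign fL_abs_le continuous_fL continuous_qf dot_sq_unit sat hasDerivAt_sat kk_mem)

variable {N M : ℕ}

/-- the mean fourth power of a field -/
def four (f : Fin M → ℝ → ℝ) (N : ℕ) (a : Fin M) : ℝ :=
  ∫ g, gav f g (fun σ => fld g σ a ^ 4) ∂pats N M

lemma fL_antitone {c L : ℝ} (hc : c ≤ 0) {x y : ℝ} (h : |x| ≤ |y|) : fL c L y ≤ fL c L x := by
  have hm : Monotone sat := monotone_of_hasDerivAt_nonneg hasDerivAt_sat fun v => (kk_mem (v - 1)).1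
  refine mul_le_mul_of_nonpos_left (hm ?_)
    (mul_nonpos_of_nonpos_of_nonneg (by linarith) (sq_nonneg L))
  exact div_le_div_of_nonneg_right (sq_le_sq.2 h) (sq_nonneg L)

/-- a pattern with a potential decreasing in the absolute field has a fourth power below the Gaussian one -/
theorem cavity_four [NeZero N] {f : Fin M → ℝ → ℝ} (hf : ∀ b, Continuous (f b)) (a : Fin M)
    (ha : ∀ x y : ℝ, |x| ≤ |y| → f a y ≤ f a x) : four f N a ≤ 3 := by
  set f' := Function.update f a fun _ => (0:ℝ)
  have hf' : ∀ b, Continuous (f' b) := fun b => by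
    by_cases hb : b = a
    · subst hb; simp only [f', Function.update_self]; exact continuous_const
    · simp only [f', Function.update_of_ne hb]; exact hf b
  have hsp : ∀ (g : Fin M → Fin N → ℝ) σ, hW f g σ = hW f' g σ + f a (fld g σ a) := fun g σ => by
    simp only [hW]
    rw [← add_sum_erase _ _ (mem_univ a),
      ← add_sum_erase _ (fun b => f' b (fld g σ b)) (mem_univ a)]
    simp only [f', Function.update_self, zero_add]
    rw [add_comm]
    congr 1
    exact sum_congr rfl fun b hb => by rw [Function.update_of_ne (ne_of_mem_erase hb)]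
  have cheb : ∀ g : Fin M → Fin N → ℝ,
      gav f g (fun σ => fld g σ a ^ 4) ≤ gav f' g fun σ => fld g σ a ^ 4 := fun g => by
    set p := fun σ => wt N σ * exp (hW f' g σ)
    set x := fun σ => fld g σ a ^ 4
    set y := fun σ => exp (f a (fld g σ a))
    have hy : ∀ σ, wt N σ * exp (hW f g σ) = p σ * y σ := fun σ => by
      simp only [p, y, hsp, exp_add, mul_assoc]
    have hxy : ∀ σ τ, (x σ - x τ) * (y σ - y τ) ≤ 0 := fun σ τ => by
      have h4 : ∀ {u v : ℝ}, |u| ≤ |v| → u ^ 4 ≤ v ^ 4 := fun {u v} h => by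
        rw [← (show Even 4 by decide).pow_abs u, ← (show Even 4 by decide).pow_abs v]
        exact pow_le_pow_left₀ (abs_nonneg u) h 4
      rcases le_total |fld g σ a| |fld g τ a| with h | h
      · exact mul_nonpos_of_nonpos_of_nonneg (sub_nonpos.2 (h4 h))
          (sub_nonneg.2 (exp_le_exp.2 (ha _ _ h)))
      · exact mul_nonpos_of_nonneg_of_nonpos (sub_nonneg.2 (h4 h))
          (sub_nonpos.2 (exp_le_exp.2 (ha _ _ h)))
    have hp : ∀ σ, 0 < p σ := fun σ => mul_pos (wt_pos' σ) (exp_pos _)
    have hsum : ∑ σ, ∑ τ, p σ * p τ * ((x σ - x τ) * (y σ - y τ)) ≤ 0 :=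
      sum_nonpos fun σ _ => sum_nonpos fun τ _ =>
        mul_nonpos_of_nonneg_of_nonpos (mul_pos (hp σ) (hp τ)).le (hxy σ τ)
    have e : ∑ σ, ∑ τ, p σ * p τ * ((x σ - x τ) * (y σ - y τ)) =
        2 * ((∑ σ, p σ * y σ * x σ) * ∑ σ, p σ) - 2 * ((∑ σ, p σ * x σ) * ∑ σ, p σ * y σ) := by
      calc ∑ σ, ∑ τ, p σ * p τ * ((x σ - x τ) * (y σ - y τ))
          = ∑ σ, ∑ τ, ((p σ * y σ * x σ) * p τ + p σ * (p τ * y τ * x τ) -
              ((p σ * x σ) * (p τ * y τ) + (p σ * y σ) * (p τ * x τ))) :=
            sum_congr rfl fun σ _ => sum_congr rfl fun τ _ => by ring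
        _ = _ := by simp only [sum_sub_distrib, sum_add_distrib, ← mul_sum, ← sum_mul]; ring
    simp only [gav, hy]
    rw [div_le_div_iff₀ (sum_pos (fun σ _ => mul_pos (hp σ) (exp_pos _)) univ_nonempty)
      (sum_pos (fun σ _ => hp σ) univ_nonempty)]
    show (∑ σ, p σ * y σ * x σ) * ∑ σ, p σ ≤ (∑ σ, p σ * x σ) * ∑ σ, p σ * y σ
    linarith
  have hX : ∀ σ : Fin N → Bool, Continuous fun g : Fin M → Fin N → ℝ => fld g σ a ^ 4 :=
    fun σ => (continuous_fld σ a).pow 4
  have hX0 : ∀ (g : Fin M → Fin N → ℝ) σ, 0 ≤ fld g σ a ^ 4 := fun g σ => by positivity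
  have i1 := integrable_gav hf hX hX0 fun σ => integrable_fld integrable_four σ a
  have i2 := integrable_gav hf' hX hX0 fun σ => integrable_fld integrable_four σ a
  refine (integral_mono i1 i2 cheb).trans (le_of_eq ?_)
  have hmp : MeasurePreserving (fun p : (Fin M → Fin N → ℝ) × (Fin N → ℝ) => Function.update p.1 a p.2)
      ((pats N M).prod (gauss (Fin N))) (pats N M) := Pattern.mp_update a
  conv_lhs => rw [← hmp.map_eq, integral_map hmp.measurable.aemeasurable
    (continuous_gav hf' hX).aestronglyMeasurable]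
  have hint : Integrable (fun p : (Fin M → Fin N → ℝ) × (Fin N → ℝ) => gav f' (Function.update p.1 a p.2)
      fun σ => fld (Function.update p.1 a p.2) σ a ^ 4) ((pats N M).prod (gauss (Fin N))) :=
    hmp.integrable_comp_of_integrable i2
  rw [integral_prod _ hint]
  have hin : ∀ g : Fin M → Fin N → ℝ, ∫ y, gav f' (Function.update g a y)
      (fun σ => fld (Function.update g a y) σ a ^ 4) ∂gauss (Fin N) = 3 := fun g => by
    have eH : ∀ (y : Fin N → ℝ) σ, hW f' (Function.update g a y) σ = hW f' g σ := fun y σ =>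
      sum_congr rfl fun b _ => by
        by_cases hb : b = a
        · subst hb; simp [f']
        · simp only [fld, Function.update_of_ne hb]
    simp only [gav, eH]
    simp only [fld, Function.update_self]
    have hm : ∀ σ, Integrable (fun y => dot (xv N σ) y ^ 4) (gauss (Fin N)) ∧
        ∫ y, dot (xv N σ) y ^ 4 ∂gauss (Fin N) = 3 := fun σ =>
      ⟨Par.integrable_field (dot_sq_unit σ) integrable_four,
        (Pattern.integral_linear (xv N σ) (Par.unit_sq (dot_sq_unit σ)) (F := fun t => t ^ 4)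
          (by fun_prop)).trans Vale.Agent.P150.moment_even.2.1⟩
    rw [integral_div, integral_finsetSum _ fun σ _ => (hm σ).1.const_mul _]
    simp only [integral_const_mul, fun σ => (hm σ).2]
    rw [← sum_mul, mul_div_cancel_left₀ _ (den_pos f' g).ne']
  simp only [hin, integral_const, probReal_univ, one_smul]

/-- two patterns of one quadratic potential -/
theorem pair_four [NeZero N] {f : Fin M → ℝ → ℝ} (hf : ∀ m, Continuous (f m)) {a b : Fin M}
    (hab : a ≠ b) {c : ℝ} (ha : f a = qf c) (hb : f b = qf c) :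
    6 * ∫ g, gav f g (fun σ => fld g σ a ^ 2 * fld g σ b ^ 2) ∂pats N M = four f N a + four f N b := by
  set X := fun (g : Fin M → Fin N → ℝ) σ => fld g σ a ^ 4 + fld g σ b ^ 4
  set F := fun g : Fin M → Fin N → ℝ => gav f g (X g)
  have hF : Continuous F :=
    continuous_gav hf fun σ => ((continuous_fld σ a).pow 4).add ((continuous_fld σ b).pow 4)
  have i4 : ∀ m, Integrable (fun g => gav f g fun σ => fld g σ m ^ 4) (pats N M) := fun m =>
    integrable_gav hf (fun σ => (continuous_fld σ m).pow 4) (fun g σ => by positivity)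
      fun σ => integrable_fld integrable_four σ m
  have i22 : Integrable (fun g => gav f g fun σ => fld g σ a ^ 2 * fld g σ b ^ 2) (pats N M) := by
    refine integrable_gav hf (fun σ => ((continuous_fld σ a).pow 2).mul ((continuous_fld σ b).pow 2))
      (fun g σ => by positivity) fun σ => ?_
    refine ((integrable_fld integrable_four σ a).add (integrable_fld integrable_four σ b)).mono'
      (((continuous_fld σ a).pow 2).mul ((continuous_fld σ b).pow 2)).aestronglyMeasurable
      (.of_forall fun g => ?_)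
    rw [Real.norm_eq_abs, abs_of_nonneg (by positivity), Pi.add_apply]
    nlinarith [sq_nonneg (fld g σ a ^ 2 - fld g σ b ^ 2)]
  have eT : ∀ d : ℝ, (3 / 5 : ℝ) ^ 2 + d ^ 2 = 1 → ∀ g, F (mix2 a b (3 / 5) d g) =
      gav f g fun σ => (3 / 5 * fld g σ a + d * fld g σ b) ^ 4 + (d * fld g σ a - 3 / 5 * fld g σ b) ^ 4 := by
    intro d hd g
    have eH : ∀ σ, hW f (mix2 a b (3 / 5) d g) σ = hW f g σ := fun σ => by
      obtain ⟨e1, e2, e3⟩ := fld_mix2 hab (3 / 5) d g σ
      rw [← sub_eq_zero, hW, hW, ← sum_sub_distrib,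
        Fintype.sum_eq_add a b hab fun m hm => by rw [e3 m hm.1 hm.2, sub_self]]
      rw [ha, hb, e1, e2]
      simp only [qf]
      linear_combination (c / 2 * (fld g σ a ^ 2 + fld g σ b ^ 2)) * hd
    have eX : X (mix2 a b (3 / 5) d g) = fun σ =>
        (3 / 5 * fld g σ a + d * fld g σ b) ^ 4 + (d * fld g σ a - 3 / 5 * fld g σ b) ^ 4 := funext fun σ => by
      obtain ⟨e1, e2, -⟩ := fld_mix2 hab (3 / 5) d g σ
      simp only [X, e1, e2]
    simp only [F, gav, eH, eX]
  have h1 : (3 / 5 : ℝ) ^ 2 + (4 / 5) ^ 2 = 1 := by norm_num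
  have h2 : (3 / 5 : ℝ) ^ 2 + (-(4 / 5)) ^ 2 = 1 := by norm_num
  have key : ∀ g, F (mix2 a b (3 / 5) (4 / 5) g) + F (mix2 a b (3 / 5) (-(4 / 5)) g) =
      674 / 625 * F g + 3456 / 625 * gav f g (fun σ => fld g σ a ^ 2 * fld g σ b ^ 2) := fun g => by
    rw [eT _ h1, eT _ h2, ← gav_add]
    simp only [F, X, ← gav_const_mul, ← gav_add]
    congr 1
    funext σ
    ring
  have iF : Integrable F (pats N M) := by
    simp only [F, X, gav_add]; exact (i4 a).add (i4 b)
  have imix : ∀ d : ℝ, (3 / 5 : ℝ) ^ 2 + d ^ 2 = 1 →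
      Integrable (fun g => F (mix2 a b (3 / 5) d g)) (pats N M) := by
    intro d hd
    refine ((iF.const_mul 16).add (i22.const_mul 0)).mono' ?_ (.of_forall fun g => ?_)
    · refine (hF.comp ?_).aestronglyMeasurable
      unfold mix2
      fun_prop
    rw [Real.norm_eq_abs, Pi.add_apply, zero_mul, add_zero, eT d hd g,
      abs_of_nonneg (gav_le_sum f g fun σ => by positivity).1]
    simp only [F, X, ← gav_const_mul]
    refine gav_mono f g fun σ => ?_
    have hd1 : d ^ 2 ≤ 1 := by nlinarith
    have p4 : ∀ u v : ℝ, (u + v) ^ 4 ≤ 8 * (u ^ 4 + v ^ 4) := fun u v => by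
      nlinarith [sq_nonneg (u - v), sq_nonneg (u + v), mul_self_nonneg (u ^ 2 - v ^ 2),
        mul_nonneg (sq_nonneg (u - v)) (sq_nonneg (u + v))]
    have m4 : ∀ k u : ℝ, k ^ 2 ≤ 1 → (k * u) ^ 4 ≤ u ^ 4 := fun k u hk => by
      rw [mul_pow]
      exact mul_le_of_le_one_left (by positivity) (by nlinarith [sq_nonneg k])
    have q1 := p4 (3 / 5 * fld g σ a) (d * fld g σ b)
    have q2 := p4 (d * fld g σ a) (-(3 / 5 * fld g σ b))
    rw [← sub_eq_add_neg, (show Even 4 by decide).neg_pow] at q2
    linarith [m4 (3 / 5) (fld g σ a) (by norm_num), m4 (3 / 5) (fld g σ b) (by norm_num),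
      m4 d (fld g σ a) hd1, m4 d (fld g σ b) hd1]
  have hI := integral_congr_ae (μ := pats N M) (.of_forall key)
  rw [integral_add (imix _ h1) (imix _ h2), integral_mix2 hab h1 hF, integral_mix2 hab h2 hF,
    integral_add (iF.const_mul _) (i22.const_mul _), integral_const_mul, integral_const_mul] at hI
  have e4 : ∫ g, F g ∂pats N M = four f N a + four f N b := by
    simp only [F, X, gav_add]; exact integral_add (i4 a) (i4 b)
  rw [e4] at hI
  linarith

/-- a square is below an exponential -/
lemma sq_le_exp_shift {z m : ℝ} (hz : 0 ≤ z) (hm : 0 ≤ m) : z ^ 2 ≤ 2 * m ^ 2 + 4 * exp (z - m) := by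
  rcases le_total z m with h | h
  · nlinarith [exp_pos (z - m), sq_nonneg m]
  · nlinarith [quadratic_le_exp_of_nonneg (sub_nonneg.2 h), sq_nonneg (z - 2 * m)]

/-- **the fourth powers of a species of quadratic patterns** -/
theorem block_four [NeZero N] {f : Fin M → ℝ → ℝ} (hf : ∀ m, Continuous (f m)) {c : ℝ}
    (S : Finset (Fin M)) (hS : ∀ a ∈ S, f a = qf c) :
    ((S.card : ℝ) + 2) * ∑ a ∈ S, four f N a ≤ 3 * (32 * ((N:ℝ) + S.card) ^ 2 + 64) := by
  set Q := fun (g : Fin M → Fin N → ℝ) σ => ∑ a ∈ S, fld g σ a ^ 2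
  have i4 : ∀ (σ : Fin N → Bool) a, Integrable (fun g : Fin M → Fin N → ℝ => fld g σ a ^ 4) (pats N M) :=
    fun σ a => integrable_fld integrable_four σ a
  have i22 : ∀ a b, Integrable (fun g => gav f g fun σ => fld g σ a ^ 2 * fld g σ b ^ 2) (pats N M) := by
    intro a b
    refine integrable_gav hf (fun σ => ((continuous_fld σ a).pow 2).mul ((continuous_fld σ b).pow 2))
      (fun g σ => by positivity) fun σ => ?_
    refine ((i4 σ a).add (i4 σ b)).mono'
      (((continuous_fld σ a).pow 2).mul ((continuous_fld σ b).pow 2)).aestronglyMeasurable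
      (.of_forall fun g => ?_)
    rw [Real.norm_eq_abs, abs_of_nonneg (by positivity), Pi.add_apply]
    nlinarith [sq_nonneg (fld g σ a ^ 2 - fld g σ b ^ 2)]
  have hQ : ∀ g, gav f g (fun σ => Q g σ ^ 2) =
      ∑ a ∈ S, ∑ b ∈ S, gav f g fun σ => fld g σ a ^ 2 * fld g σ b ^ 2 := fun g => by
    simp only [Q, sq (∑ a ∈ S, _), sum_mul_sum, gav_sum]
  have hiQ : Integrable (fun g => gav f g fun σ => Q g σ ^ 2) (pats N M) := by
    simp only [hQ]
    exact integrable_finsetSum _ fun a _ => integrable_finsetSum _ fun b _ => i22 a b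
  have hEQ : 3 * ∫ g, gav f g (fun σ => Q g σ ^ 2) ∂pats N M =
      ((S.card : ℝ) + 2) * ∑ a ∈ S, four f N a := by
    simp only [hQ]
    rw [integral_finsetSum _ fun a _ => integrable_finsetSum _ fun b _ => i22 a b,
      sum_congr rfl fun a _ => integral_finsetSum _ fun b _ => i22 a b, mul_sum]
    have e : ∀ a ∈ S, ∀ b ∈ S, 3 * ∫ g, gav f g (fun σ => fld g σ a ^ 2 * fld g σ b ^ 2) ∂pats N M =
        1 / 2 * four f N a + 1 / 2 * four f N b + if a = b then 2 * four f N a else 0 := by
      intro a ha b hb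
      by_cases h : a = b
      · subst h
        rw [if_pos rfl, four]
        simp only [← pow_add]
        ring
      · rw [if_neg h]
        linarith [pair_four (N := N) hf h (hS a ha) (hS b hb)]
    simp only [mul_sum]
    calc ∑ a ∈ S, ∑ b ∈ S, 3 * ∫ g, gav f g (fun σ => fld g σ a ^ 2 * fld g σ b ^ 2) ∂pats N M
        = ∑ a ∈ S, ∑ b ∈ S,
            (1 / 2 * four f N a + 1 / 2 * four f N b + if a = b then 2 * four f N a else 0) :=
          sum_congr rfl fun a ha => sum_congr rfl fun b hb => e a ha b hb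
      _ = _ := by
          simp only [sum_add_distrib, sum_const, nsmul_eq_mul, sum_ite_eq, sum_ite_mem, inter_self,
            ← mul_sum]
          ring
  rw [← hEQ]
  refine mul_le_mul_of_nonneg_left ?_ (by norm_num)
  set m : ℝ := (N:ℝ) + S.card
  have hm : 0 ≤ m := by positivity
  have hpt : ∀ g, gav f g (fun σ => Q g σ ^ 2) ≤ 32 * m ^ 2 + 64 * exp (-m) * ∑ σ, exp (Q g σ / 4) := fun g => by
    refine (gav_mono f g fun σ => ?_).trans_eq (gav_const f g _)
    have h := sq_le_exp_shift (z := Q g σ / 4) (by positivity) hm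
    have h1 : exp (Q g σ / 4 - m) ≤ exp (-m) * ∑ τ, exp (Q g τ / 4) := by
      rw [sub_eq_neg_add, exp_add]
      exact mul_le_mul_of_nonneg_left
        (single_le_sum (fun τ _ => (exp_pos (Q g τ / 4)).le) (mem_univ σ)) (exp_pos _).le
    linarith
  have hexp : ∀ σ : Fin N → Bool, Integrable (fun g => exp (Q g σ / 4)) (pats N M) ∧
      ∫ g, exp (Q g σ / 4) ∂pats N M ≤ exp (S.card : ℝ) := fun σ => by
    set φ : Fin M → (Fin N → ℝ) → ℝ :=
      fun a y => if a ∈ S then exp (1 / 4 * dot (xv N σ) y ^ 2) else 1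
    have e : (fun g => exp (Q g σ / 4)) = fun g : Fin M → Fin N → ℝ => ∏ a, φ a (g a) := funext fun g => by
      simp only [Q, φ, sum_div, exp_sum, prod_ite_mem, univ_inter, fld]
      exact prod_congr rfl fun a _ => by congr 1; ring
    obtain ⟨hi, hv⟩ := Vale.Agent.P150.integral_exp_mul_sq (s := 1 / 4) (by norm_num)
    have hy : Integrable (fun y => exp (1 / 4 * dot (xv N σ) y ^ 2)) (gauss (Fin N)) ∧
        ∫ y, exp (1 / 4 * dot (xv N σ) y ^ 2) ∂gauss (Fin N) ≤ exp 1 := by
      refine ⟨Par.integrable_field (dot_sq_unit σ) hi, le_of_eq_of_le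
        ((Pattern.integral_linear (xv N σ) (Par.unit_sq (dot_sq_unit σ))
          (F := fun t => exp (1 / 4 * t ^ 2)) (by fun_prop)).trans hv)
        (le_trans ?_ (show (2:ℝ) ≤ exp 1 by linarith [add_one_le_exp (1:ℝ)]))⟩
      rw [inv_le_comm₀ (sqrt_pos.2 (by norm_num)) (by norm_num), le_sqrt (by norm_num) (by norm_num)]
      norm_num
    have hφ : ∀ a, Integrable (φ a) (gauss (Fin N)) := fun a => by
      by_cases h : a ∈ S <;> simp only [φ, h, if_true, if_false]
      · exact hy.1
      · exact integrable_const _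
    rw [e]
    refine ⟨Integrable.fintype_prod hφ, ?_⟩
    rw [show pats N M = Measure.pi fun _ : Fin M => gauss (Fin N) from rfl,
      integral_fintype_prod_eq_prod φ]
    calc ∏ a, ∫ y, φ a y ∂gauss (Fin N) ≤ ∏ a, (if a ∈ S then exp 1 else (1:ℝ)) := by
          refine prod_le_prod (fun a _ => integral_nonneg fun y => ?_) fun a _ => ?_
          · simp only [φ]; split_ifs <;> positivity
          · by_cases h : a ∈ S <;> simp only [φ, h, if_true, if_false]
            · exact hy.2
            · simp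
      _ = _ := by rw [prod_ite_mem, univ_inter, prod_const, ← exp_nat_mul, mul_one]
  have hsum := integrable_finsetSum univ fun σ (_ : σ ∈ (univ : Finset (Fin N → Bool))) => (hexp σ).1
  refine (integral_mono hiQ ((integrable_const _).add (hsum.const_mul _)) hpt).trans ?_
  simp only [Pi.add_apply]
  rw [integral_add (integrable_const _) (hsum.const_mul _), integral_const, probReal_univ, one_smul,
    integral_const_mul, integral_finsetSum _ fun σ _ => (hexp σ).1]
  have hS2 : ∑ σ : Fin N → Bool, ∫ g, exp (Q g σ / 4) ∂pats N M ≤ exp m := by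
    refine (sum_le_sum fun σ _ => (hexp σ).2).trans ?_
    rw [sum_const, card_univ, Fintype.card_fun, Fintype.card_fin, Fintype.card_bool, nsmul_eq_mul,
      show exp m = exp (N:ℝ) * exp (S.card : ℝ) from exp_add _ _]
    push_cast
    refine mul_le_mul_of_nonneg_right ?_ (exp_pos _).le
    rw [← exp_one_pow]
    exact pow_le_pow_left₀ (by norm_num) (by linarith [add_one_le_exp (1:ℝ)]) N
  have h64 : 64 * exp (-m) * ∑ σ : Fin N → Bool, ∫ g, exp (Q g σ / 4) ∂pats N M ≤ 64 * exp (-m) * exp m :=
    mul_le_mul_of_nonneg_left hS2 (by positivity)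
  rw [show 64 * exp (-m) * exp m = (64:ℝ) by rw [mul_assoc, ← exp_add, neg_add_cancel, exp_zero, mul_one]] at h64
  linarith

/-! ### the cut at given counts -/

variable {s : ℕ}

/-- potentials of the patterns at given counts -/
def qPot (c : Fin s → ℝ) (K : Fin s → ℕ) : Fin (∑ j, K j) → ℝ → ℝ := fun a => qf (c (can K a))

/-- their cuts -/
def cPot (c : Fin s → ℝ) (L : ℝ) (K : Fin s → ℕ) : Fin (∑ j, K j) → ℝ → ℝ :=
  fun a => fL (c (can K a)) L

/-- the constant of the cut -/
def cutC (α c : Fin s → ℝ) : ℝ :=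
  ∑ j, |c j| / 2 * (96 * (1 / α j + 1) * (1 + α j) + 96 + 3 * α j)

lemma cutC_nonneg {α : Fin s → ℝ} (hα : ∀ j, 0 < α j) (c : Fin s → ℝ) : 0 ≤ cutC α c :=
  sum_nonneg fun j _ => by have := hα j; positivity

lemma pot_integrable [NeZero N] (c : Fin s → ℝ) {L : ℝ} (hL : 0 < L) (K : Fin s → ℕ) :
    Integrable (fun g => logW (qPot c K) g) (pats N (∑ j, K j)) ∧
      Integrable (fun g => logW (cPot c L K) g) (pats N (∑ j, K j)) := by
  have hq : ∀ j x, |qf (c j) x| ≤ (∑ i, |c i|) * (1 + x ^ 2) := fun j x => by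
    rw [qf, abs_div, abs_mul, abs_two, abs_of_nonneg (sq_nonneg x)]
    have h := single_le_sum (f := fun i => |c i|) (fun i _ => abs_nonneg _) (mem_univ j)
    nlinarith [mul_nonneg (abs_nonneg (c j)) (sq_nonneg x),
      mul_le_mul_of_nonneg_right h (sq_nonneg x), sum_nonneg fun i (_ : i ∈ univ) => abs_nonneg (c i)]
  exact ⟨integrable_logW (fun a => continuous_qf _) fun a => hq _,
    integrable_logW (fun a => continuous_fL _ _) fun a x => (fL_abs_le hL x).1.trans (hq _ x)⟩

/-- **the cut at given counts, in mean absolute value** -/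
theorem cut_abs [NeZero N] {α : Fin s → ℝ} (hα : ∀ j, 0 < α j) (c : Fin s → ℝ) {L : ℝ} (hL : 0 < L) :
    ∫ g, |logW (qPot c (Ks α N)) g - logW (cPot c L (Ks α N)) g| ∂pats N (∑ j, Ks α N j) ≤
      cutC α c * N / L ^ 2 := by
  set K := Ks α N
  set q := qPot c K
  set l := cPot c L K
  set f := fun a => if c (can K a) < 0 then l a else q a
  have hf : ∀ a, Continuous (f a) := fun a => by
    simp only [f]; split_ifs
    · exact continuous_fL _ _
    · exact continuous_qf _
  have hpot : ∀ a x, q a x ≤ f a x ∧ l a x ≤ f a x ∧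
      |q a x - l a x| ≤ |c (can K a)| / (2 * L ^ 2) * x ^ 4 := fun a x => by
    obtain ⟨hp, hn⟩ := fL_sign (c := c (can K a)) hL x
    have h3 : |q a x - l a x| ≤ |c (can K a)| / (2 * L ^ 2) * x ^ 4 := by
      by_cases hx : |x| ≤ L
      · simp only [q, l, qPot, cPot, fL_eq hL hx, sub_self, abs_zero]; positivity
      have h2 : L ^ 2 ≤ x ^ 2 := sq_le_sq.2 (by rw [abs_of_pos hL]; exact (lt_of_not_ge hx).le)
      have hd : |q a x - l a x| ≤ |qf (c (can K a)) x| := by
        rcases le_total 0 (c (can K a)) with h | h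
        · obtain ⟨u1, u2⟩ := hp h
          simp only [q, l, qPot, cPot]
          rw [abs_of_nonneg (sub_nonneg.2 u2), abs_of_nonneg (u1.trans u2)]
          linarith
        · obtain ⟨u1, u2⟩ := hn h
          simp only [q, l, qPot, cPot]
          rw [abs_of_nonpos (sub_nonpos.2 u2), abs_of_nonpos (u2.trans u1)]
          linarith
      refine hd.trans ?_
      rw [qf, abs_div, abs_mul, abs_two, abs_of_nonneg (sq_nonneg x), div_mul_eq_mul_div,
        div_le_div_iff₀ two_pos (by positivity)]
      nlinarith [mul_le_mul_of_nonneg_left h2 (mul_nonneg (abs_nonneg (c (can K a))) (sq_nonneg x))]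
    simp only [f]
    split_ifs with h
    · exact ⟨(hn h.le).2, le_rfl, h3⟩
    · exact ⟨le_rfl, (hp (not_lt.1 h)).2, h3⟩
  have hpt : ∀ g : Fin (∑ j, K j) → Fin N → ℝ, |logW q g - logW l g| ≤
      ∑ a, |c (can K a)| / (2 * L ^ 2) * gav f g (fun σ => fld g σ a ^ 4) := fun g => by
    simp only [← gav_const_mul, ← gav_sum]
    have low : ∀ p : Fin (∑ j, K j) → ℝ → ℝ, (∀ a x, p a x ≤ f a x) → logW p g ≤ logW f g :=
      fun p hp => log_le_log (den_pos p g) (sum_le_sum fun σ _ => mul_le_mul_of_nonneg_left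
        (exp_le_exp.2 (sum_le_sum fun a _ => hp a _)) (wt_pos' σ).le)
    have hq : logW f g - logW q g ≤ gav f g fun σ =>
        ∑ a, |c (can K a)| / (2 * L ^ 2) * fld g σ a ^ 4 := by
      refine (logW_sub_le f q g).trans (gav_mono f g fun σ => ?_)
      rw [hW, hW, ← sum_sub_distrib]
      refine sum_le_sum fun a _ => le_trans ?_ (hpot a _).2.2
      simp only [f]; split_ifs
      · exact (le_abs_self _).trans_eq (abs_sub_comm _ _)
      · simp
    have hl : logW f g - logW l g ≤ gav f g fun σ =>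
        ∑ a, |c (can K a)| / (2 * L ^ 2) * fld g σ a ^ 4 := by
      refine (logW_sub_le f l g).trans (gav_mono f g fun σ => ?_)
      rw [hW, hW, ← sum_sub_distrib]
      refine sum_le_sum fun a _ => le_trans ?_ (hpot a _).2.2
      simp only [f]; split_ifs
      · simp
      · exact le_abs_self _
    rw [abs_le]
    constructor <;> linarith [low q fun a x => (hpot a x).1, low l fun a x => (hpot a x).2.1]
  obtain ⟨iq, il⟩ := pot_integrable (N := N) c hL K
  have i4 : ∀ a, Integrable (fun g => |c (can K a)| / (2 * L ^ 2) *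
      gav f g fun σ => fld g σ a ^ 4) (pats N (∑ j, K j)) := fun a =>
    (integrable_gav hf (fun σ => (continuous_fld σ a).pow 4) (fun g σ => (show Even 4 by decide).pow_nonneg _)
      fun σ => integrable_fld integrable_four σ a).const_mul _
  refine (integral_mono (iq.sub il).abs (integrable_finsetSum _ fun a _ => i4 a) hpt).trans ?_
  rw [integral_finsetSum _ fun a _ => i4 a]
  simp only [integral_const_mul]
  show ∑ a, |c (can K a)| / (2 * L ^ 2) * four f N a ≤ _
  set S : Fin s → Finset (Fin (∑ j, K j)) := fun j => univ.filter fun a => can K a = j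
  have hcard : ∀ j, ((S j).card : ℝ) = K j := fun j => by exact_mod_cast cnt_can K j
  have hsp : ∀ j, ∑ a ∈ S j, four f N a ≤ (96 * (1 / α j + 1) * (1 + α j) + 96 + 3 * α j) * N := fun j => by
    have hN : (1:ℝ) ≤ N := by exact_mod_cast NeZero.one_le
    have ha := hα j
    have k1 : (K j : ℝ) ≤ α j * N := Nat.floor_le (by positivity)
    have k2 : α j * N < K j + 1 := Nat.lt_floor_add_one _
    have h0 : 0 ≤ (96 * (1 / α j + 1) * (1 + α j) + 96) * N := by positivity
    by_cases hc : c j < 0
    · have h : ∀ a ∈ S j, four f N a ≤ 3 := fun a hmem => by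
        refine cavity_four hf a fun x y hxy => ?_
        simp only [f, S, mem_filter] at hmem ⊢
        rw [hmem.2, if_pos hc]
        simp only [l, cPot, hmem.2]
        exact fL_antitone hc.le hxy
      refine (sum_le_sum h).trans ?_
      rw [sum_const, nsmul_eq_mul, hcard]
      nlinarith
    · have h := block_four (N := N) hf (c := c j) (S j) fun a hmem => by
        simp only [f, S, mem_filter] at hmem ⊢
        rw [hmem.2, if_neg hc]
        simp only [q, qPot, hmem.2]
      rw [hcard] at h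
      set k : ℝ := (K j : ℝ)
      have hk : 0 ≤ k := Nat.cast_nonneg _
      have r1 : (N:ℝ) + k ≤ (1 / α j + 1) * (k + 2) := by
        have e : (1 / α j + 1) * (k + 2) = (k + 2) / α j + (k + 2) := by ring
        rw [e]
        have : (N:ℝ) ≤ (k + 2) / α j := (le_div_iff₀ ha).2 (by linarith)
        linarith
      have r2 : ((N:ℝ) + k) ^ 2 ≤ (1 / α j + 1) * (1 + α j) * N * (k + 2) := by
        refine (sq ((N:ℝ) + k)).trans_le ((mul_le_mul r1 (show (N:ℝ) + k ≤ (1 + α j) * N by linarith)
          (by positivity) (by positivity)).trans_eq ?_)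
        ring
      have r3 : 192 ≤ 96 * (N:ℝ) * (k + 2) := by
        nlinarith [mul_nonneg (Nat.cast_nonneg N (α := ℝ)) hk]
      refine le_of_mul_le_mul_left ?_ (show (0:ℝ) < k + 2 by linarith)
      nlinarith [mul_nonneg (mul_nonneg ha.le (Nat.cast_nonneg N (α := ℝ))) (show (0:ℝ) ≤ k + 2 by linarith)]
  rw [← sum_fiberwise univ (can K), cutC, sum_mul, sum_div]
  refine sum_le_sum fun j _ => ?_
  rw [sum_congr rfl (g := fun a => |c j| / (2 * L ^ 2) * four f N a) fun a ha => by
    rw [(mem_filter.1 ha).2], ← mul_sum]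
  refine (mul_le_mul_of_nonneg_left (hsp j) (by positivity)).trans_eq ?_
  field_simp

end Vale.Agent.P166.Hopf
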