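import Vale.Agent.P166.Hopf.Defs
import Vale.Agent.P166.Hopf.CutBound

/-!
# P166: the pressure at given counts against the cut family with random labels, at every strength
-/

open MeasureTheory ProbabilityTheory Real Finset Filter
open scoped Topology
open Vale.Agent.P150 (gauss dot)
open Vale.Agent.P157.Lim (xv wt)
open Vale.Agent.P157.Par (pats)
open Vale.Agent.P166.Pattern (cnt)
open Vale.Agent.P166.Pattern.Signed (fC)
open Vale.Agent.P166.Pattern.Multi (Ks can cnt_can)

noncomputable section

namespace Vale.Agent.P166.Hopf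

open Par (qf fL continuous_fL fL_abs_le)
open Par.Multi (Fam Wts pressBar pressV lavg)

variable {s N : ℕ}

lemma sLw_eq {M : ℕ} (b : Fin M → ℝ) (g : Fin M → Fin N → ℝ) :
    Pattern.Signed.sLw b (Pattern.w0 (Fin N)) (fun _ => Pattern.unif (Fin N)) g =
      logW (fun a => qf (b a)) g := by
  refine congrArg log (sum_congr rfl fun σ _ => ?_)
  congr 1
  · simp [Pattern.w0, Vale.Agent.P157.Lim.wt]
  · refine congrArg exp (sum_congr rfl fun a _ => ?_)
    have hX : Pattern.X (Pattern.unif (Fin N)) (g a) σ = dot (xv N σ) (g a) := by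
      simp only [Pattern.X, Pattern.lin, dot]
      refine sum_congr rfl fun i _ => ?_
      simp only [Pattern.co, Pattern.unif, Fintype.card_fin, Vale.Agent.P157.Lim.xv, Real.sqrt_inv,
        Pattern.sg, Vale.Agent.P157.Lim.sgn]
      ring
    rw [hX]
    simp only [qf, fld]
    ring

lemma fC_eq (c : Fin s → ℝ) (N : ℕ) (K : Fin s → ℕ) :
    fC c N K = ∫ g, logW (qPot c K) g ∂pats N (∑ j, K j) := by
  simp only [fC, Pattern.Signed.fT, Pattern.Signed.sFw, sLw_eq]
  rfl

/-- the mean log partition function of labelled bounded potentials -/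
def meanV (F : Fin s → ℝ → ℝ) (N : ℕ) {M : ℕ} (t : Fin M → Fin s) : ℝ :=
  ∫ g, logW (fun a => F (t a)) g ∂pats N M

/-- forgetting patterns costs at most `B` each -/
lemma meanV_emb [NeZero N] {F : Fin s → ℝ → ℝ} (hc : ∀ j, Continuous (F j)) {B : ℝ}
    (hB : ∀ j x, |F j x| ≤ B) {M M' : ℕ} (t : Fin M → Fin s) (t' : Fin M' → Fin s)
    (h : ∀ j, cnt t j ≤ cnt t' j) : |meanV F N t' - meanV F N t| ≤ B * ((M' : ℝ) - M) := by
  classical
  have he : ∀ j, Nonempty ({i // t i = j} ↪ {i // t' i = j}) := fun j =>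
    Function.Embedding.nonempty_of_card_le (by simp only [Fintype.card_subtype]; exact h j)
  set e : Fin M → Fin M' := fun i => ((he (t i)).some ⟨i, rfl⟩).1
  have ht : ∀ i, t' (e i) = t i := fun i => ((he (t i)).some ⟨i, rfl⟩).2
  have heq : ∀ (i : Fin M) (j : Fin s) (hj : t i = j), e i = ((he j).some ⟨i, hj⟩).1 := by
    intro i j hj; subst hj; rfl
  have hinj : Function.Injective e := fun i i' hii => by
    have hj : t i' = t i := by rw [← ht i', ← ht i, hii]
    rw [heq i' (t i) hj] at hii
    exact congrArg Subtype.val ((he (t i)).some.injective (Subtype.ext hii))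
  have hmp : MeasurePreserving (fun g : Fin M' → Fin N → ℝ => fun j i => g (e j) i)
      (pats N M') (pats N M) := Pattern.mp_restrict hinj (fun _ _ h => h)
  have hb : ∀ j x, |F j x| ≤ B * (1 + x ^ 2) := fun j x =>
    (hB j x).trans (le_mul_of_one_le_right ((abs_nonneg _).trans (hB j x)) (by nlinarith))
  have i1 := integrable_logW (N := N) (f := fun a => F (t' a)) (fun a => hc _) fun a => hb _
  have i2 := integrable_logW (N := N) (f := fun a => F (t a)) (fun a => hc _) fun a => hb _
  have i2' := hmp.integrable_comp_of_integrable i2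
  simp only [Function.comp_def] at i2'
  have e2 : meanV F N t = ∫ g, logW (fun a => F (t a)) (fun j i => g (e j) i) ∂pats N M' := by
    rw [meanV, ← hmp.map_eq, integral_map hmp.measurable.aemeasurable
      (continuous_logW fun a => hc _).aestronglyMeasurable]
  rw [e2, meanV, ← integral_sub i1 i2']
  refine abs_integral_le_integral_abs.trans
    ((integral_mono (i1.sub i2').abs (integrable_const (B * ((M':ℝ) - M))) fun g => ?_).trans_eq (by simp))
  set d := B * ((M':ℝ) - M)
  have hH : ∀ σ, |hW (fun a => F (t' a)) g σ - hW (fun a => F (t a)) (fun j i => g (e j) i) σ| ≤ d := fun σ => by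
    have hS : hW (fun a => F (t a)) (fun j i => g (e j) i) σ =
        ∑ a ∈ univ.image e, F (t' a) (fld g σ a) := by
      rw [sum_image fun i _ j _ hij => hinj hij]
      exact sum_congr rfl fun i _ => by rw [ht]; rfl
    rw [hS, hW, ← sum_sdiff (subset_univ (univ.image e)), add_sub_cancel_right]
    refine (abs_sum_le_sum_abs _ _).trans ((sum_le_sum fun a _ => hB _ _).trans_eq ?_)
    rw [sum_const, card_sdiff_of_subset (subset_univ _), card_univ, Fintype.card_fin,
      card_image_of_injective _ hinj, card_univ, Fintype.card_fin, nsmul_eq_mul,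
      Nat.cast_sub (by simpa using Fintype.card_le_of_injective e hinj)]
    ring
  have cmp : ∀ (H H' : (Fin N → Bool) → ℝ), (∀ σ, H σ ≤ H' σ + d) →
      log (∑ σ, wt N σ * exp (H σ)) ≤ log (∑ σ, wt N σ * exp (H' σ)) + d := fun H H' hle => by
    have hp : ∀ G : (Fin N → Bool) → ℝ, 0 < ∑ σ, wt N σ * exp (G σ) := fun G =>
      sum_pos (fun σ _ => mul_pos (wt_pos' σ) (exp_pos _)) univ_nonempty
    rw [← log_exp d, ← log_mul (hp H').ne' (exp_pos d).ne', sum_mul]
    refine log_le_log (hp H) (sum_le_sum fun σ _ => ?_)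
    rw [mul_assoc, ← exp_add]
    exact mul_le_mul_of_nonneg_left (exp_le_exp.2 (hle σ)) (wt_pos' σ).le
  simp only [Pi.sub_apply, logW]
  rw [abs_le]
  constructor
  · linarith [cmp (hW (fun a => F (t a)) fun j i => g (e j) i) (hW (fun a => F (t' a)) g)
      fun σ => by linarith [(abs_le.1 (hH σ)).1]]
  · linarith [cmp (hW (fun a => F (t' a)) g) (hW (fun a => F (t a)) fun j i => g (e j) i)
      fun σ => by linarith [(abs_le.1 (hH σ)).2]]

/-- Lipschitz dependence on the counts -/
lemma meanV_lip [NeZero N] {F : Fin s → ℝ → ℝ} (hc : ∀ j, Continuous (F j)) {B : ℝ}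
    (hB : ∀ j x, |F j x| ≤ B) {M M' : ℕ} (t : Fin M → Fin s) (t' : Fin M' → Fin s) :
    |meanV F N t - meanV F N t'| ≤ B * ∑ j, |(cnt t j : ℝ) - cnt t' j| := by
  set K : Fin s → ℕ := fun j => max (cnt t j) (cnt t' j)
  have h1 := meanV_emb (N := N) hc hB t (can K) fun j => (le_max_left _ _).trans_eq (cnt_can K j).symm
  have h2 := meanV_emb (N := N) hc hB t' (can K) fun j => (le_max_right _ _).trans_eq (cnt_can K j).symm
  have hM : ∀ {M : ℕ} (t : Fin M → Fin s), (M:ℝ) = ∑ j, (cnt t j : ℝ) := fun {M} t => by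
    have := card_eq_sum_card_fiberwise (f := t) (s := univ) (t := univ) fun a _ => mem_univ _
    rw [card_univ, Fintype.card_fin] at this
    exact_mod_cast this
  have hmax : ∀ j, (K j : ℝ) - cnt t j + ((K j : ℝ) - cnt t' j) = |(cnt t j : ℝ) - cnt t' j| := fun j => by
    simp only [K, Nat.cast_max]
    rcases le_total (cnt t j : ℝ) (cnt t' j) with h | h
    · rw [max_eq_right h, abs_of_nonpos (sub_nonpos.2 h)]; ring
    · rw [max_eq_left h, abs_of_nonneg (sub_nonneg.2 h)]; ring
  refine (abs_sub_le _ (meanV F N (can K)) _).trans ?_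
  rw [abs_sub_comm] at h1
  refine (add_le_add h1 h2).trans_eq ?_
  rw [hM t, hM t', ← sum_congr rfl fun j _ => hmax j, Nat.cast_sum]
  simp only [sum_add_distrib, sum_sub_distrib]
  ring

lemma cutF_abs (c : Fin s → ℝ) {L : ℝ} (hL : 1 ≤ L) (j : Fin s) (x : ℝ) :
    |fL (c j) L x| ≤ (cutF c L hL).B :=
  (fL_abs_le (by linarith : (0:ℝ) < L) x).2.trans (mul_le_mul_of_nonneg_right
    (single_le_sum (f := fun i => |c i|) (fun i _ => abs_nonneg _) (mem_univ j)) (sq_nonneg L))

/-- **T3: the quadratic pressure at given counts is close to the one of the cut family** -/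
theorem stmt_cut : StmtCut := by
  intro s α c hα A hA ε hε
  have hCc := cutC_nonneg hα c
  have hT : Tendsto (fun L : ℝ => cutC α c / L ^ 2) atTop (𝓝 0) :=
    tendsto_const_nhds.div_atTop (tendsto_pow_atTop two_ne_zero)
  filter_upwards [hT.eventually (eventually_lt_nhds (half_pos hε))] with L hLε hL
  set B := (cutF c L hL).B
  have hA0 : 0 ≤ A := hA ▸ sum_nonneg fun j _ => (hα j).le
  have hT2 : Tendsto (fun N : ℕ => B * (s * (√A * (√(N:ℝ))⁻¹ + 2 / N))) atTop (𝓝 0) := by
    have h1 : Tendsto (fun N : ℕ => (√(N:ℝ))⁻¹) atTop (𝓝 0) :=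
      tendsto_inv_atTop_zero.comp (Real.tendsto_sqrt_atTop.comp tendsto_natCast_atTop_atTop)
    simpa using (((h1.const_mul √A).add (tendsto_const_div_atTop_nhds_zero_nat 2)).const_mul (s:ℝ)).const_mul B
  filter_upwards [eventually_gt_atTop 0, hT2.eventually (eventually_lt_nhds (half_pos hε))] with N hN hNε
  have : NeZero N := ⟨hN.ne'⟩
  have hN0 : (0:ℝ) < N := Nat.cast_pos.2 hN
  set K := Ks α N
  set M := ⌊A * (N:ℝ)⌋₊
  set F : Fin s → ℝ → ℝ := fun j => fL (c j) L
  set p : Fin s → ℝ := fun j => α j / A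
  have hlab : |lavg (M := M) p (fun k => meanV F N k) - meanV F N (can K)| ≤ B * (s * (√(A * N) + 2)) := by
    rcases Nat.eq_zero_or_pos s with hs | hs
    · subst hs
      have hM : M = 0 := by simp [M, hA]
      have hK : ∑ j, K j = 0 := by simp
      have e1 : ∀ {m : ℕ} (t : Fin m → Fin 0), meanV F N t = meanV F N (can K) := fun {m} t => by
        have h := meanV_lip (N := N) (F := F) (fun j => continuous_fL _ _) (fun j => cutF_abs c hL j) t (can K)
        simpa [sub_eq_zero] using h
      have e2 : lavg (M := M) p (fun k => meanV F N k) = meanV F N (can K) := by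
        simp only [e1]
        rw [lavg, ← sum_mul, ← Fintype.prod_sum (fun (_ : Fin M) j => p j)]
        have : IsEmpty (Fin M) := by rw [hM]; infer_instance
        simp
      simp [e2]
    have : Nonempty (Fin s) := ⟨⟨0, hs⟩⟩
    have hA1 : 0 < A := hA ▸ sum_pos (fun j _ => hα j) univ_nonempty
    have hp : Wts p := ⟨fun j => div_nonneg (hα j).le hA0, by
      simp only [p, ← sum_div, ← hA, div_self hA1.ne']⟩
    have hB0 : 0 ≤ B := (abs_nonneg _).trans (cutF_abs c hL ⟨0, hs⟩ 0)
    rw [show meanV F N (can K) = lavg (M := M) p (fun _ => meanV F N (can K)) from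
      (Par.Multi.lavg_const hp _).symm, ← Par.Multi.lavg_sub]
    have hx : 0 ≤ A * (N:ℝ) := mul_nonneg hA0 hN0.le
    have hd : ∀ j, |p j * M - (K j : ℝ)| ≤ 2 := fun j => by
      have hp1 : p j ≤ 1 := hp.one ▸ single_le_sum (fun i _ => hp.nn i) (mem_univ j)
      have e : α j = p j * A := (div_mul_cancel₀ _ hA1.ne').symm
      have a1 : (M:ℝ) ≤ A * N := Nat.floor_le hx
      have a2 : A * N < M + 1 := Nat.lt_floor_add_one _
      have b1 : (K j : ℝ) ≤ α j * N := Nat.floor_le (by have := hα j; positivity)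
      have b2 : α j * N < K j + 1 := Nat.lt_floor_add_one _
      have m1 := mul_le_mul_of_nonneg_left a1 (hp.nn j)
      have m2 := mul_le_mul_of_nonneg_left a2.le (hp.nn j)
      rw [e] at b1 b2
      rw [abs_le]
      constructor <;> nlinarith
    have hk : ∀ k : Fin M → Fin s, |meanV F N k - meanV F N (can K)| ≤
        B * ∑ j, (|(cnt k j : ℝ) - p j * M| + 2) := fun k => by
      refine (meanV_lip (fun j => continuous_fL _ _) (fun j => cutF_abs c hL j) k (can K)).trans
        (mul_le_mul_of_nonneg_left (sum_le_sum fun j _ => ?_) hB0)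
      rw [cnt_can]
      exact (abs_sub_le _ (p j * (M:ℝ)) _).trans (add_le_add le_rfl (hd j))
    have hb : lavg (M := M) p (fun k => B * ∑ j, (|(cnt k j : ℝ) - p j * M| + 2)) ≤
        B * (s * (√(A * N) + 2)) := by
      rw [Par.Multi.lavg_const_mul, Par.Multi.lavg_sum]
      refine mul_le_mul_of_nonneg_left ((sum_le_sum (g := fun _ => √(A * N) + 2) fun j _ => ?_).trans_eq
        (by rw [sum_const, card_univ, Fintype.card_fin, nsmul_eq_mul])) hB0
      rw [Par.Multi.lavg_add, Par.Multi.lavg_const hp]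
      exact add_le_add ((Par.Multi.lavg_cnt hp j).trans (Real.sqrt_le_sqrt (Nat.floor_le hx))) le_rfl
    rw [abs_le]
    constructor
    · refine (neg_le_neg hb).trans ?_
      rw [neg_eq_neg_one_mul, ← Par.Multi.lavg_const_mul]
      exact Par.Multi.lavg_mono hp fun k => by linarith [(abs_le.1 (hk k)).1]
    · exact (Par.Multi.lavg_mono hp fun k => (abs_le.1 (hk k)).2).trans hb
  have hcut : |meanV F N (can K) - fC c N K| ≤ cutC α c * N / L ^ 2 := by
    obtain ⟨iq, il⟩ := pot_integrable (N := N) c (by linarith : (0:ℝ) < L) K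
    rw [abs_sub_comm, fC_eq, show meanV F N (can K) = ∫ g, logW (cPot c L K) g ∂pats N (∑ j, K j) from rfl,
      ← integral_sub iq il]
    exact abs_integral_le_integral_abs.trans (cut_abs hα c (by linarith))
  have e : pressBar (cutF c L hL) p N M = lavg (M := M) p (fun k => meanV F N k) / N := by
    simp only [pressBar, lavg, sum_div, mul_div_assoc]
    rfl
  show |pressBar (cutF c L hL) p N M - fC c N K / N| ≤ ε
  rw [e, ← sub_div, abs_div, Nat.abs_cast]
  refine (div_le_div_of_nonneg_right ((abs_sub_le _ (meanV F N (can K)) _).trans (add_le_add hlab hcut))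
    hN0.le).trans ?_
  rw [add_div, mul_div_assoc B, mul_div_assoc (s:ℝ), add_div, Real.sqrt_mul hA0,
    mul_div_assoc √A, Real.sqrt_div_self, div_right_comm, mul_div_assoc, div_self hN0.ne', mul_one]
  linarith

end Vale.Agent.P166.Hopf
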