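import Vale.Agent.P157.Full.Conc
import Vale.Agent.P166.Hopf.Cut

/-!
# P166: concentration of the pressure at given counts, at every strength
-/

open MeasureTheory ProbabilityTheory Real Finset Filter
open scoped Topology
open Vale.Agent.P150 (gauss dot)
open Vale.Agent.P157.Lim (xv wt)
open Vale.Agent.P157.Par (pats)
open Vale.Agent.P166.Pattern.Multi (Ks can)

noncomputable section

namespace Vale.Agent.P166.Hopf

open Par (qf fL continuous_fL dot_sq_unit)

variable {N M : ℕ}

/-- Lipschitz potentials give a Lipschitz log partition function -/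
lemma logW_lip [NeZero N] {f : Fin M → ℝ → ℝ} {D : ℝ} (hD : 0 ≤ D)
    (hf : ∀ a x y, |f a x - f a y| ≤ D * |x - y|) (g g' : Fin M → Fin N → ℝ) :
    |logW f g - logW f g'| ≤ D * √(M:ℝ) * √(∑ a, ∑ i, (g a i - g' a i) ^ 2) := by
  set T := ∑ a, ∑ i, (g a i - g' a i) ^ 2
  have hfl : ∀ σ a, |fld g σ a - fld g' σ a| ≤ √(∑ i, (g a i - g' a i) ^ 2) := fun σ a => by
    refine abs_le_sqrt ?_
    have h := sum_mul_sq_le_sq_mul_sq univ (xv N σ) fun i => g a i - g' a i
    rw [Par.unit_sq (dot_sq_unit σ), one_mul] at h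
    refine le_trans (le_of_eq ?_) h
    simp only [fld, dot, mul_sub, sum_sub_distrib]
  have hH : ∀ σ, |hW f g σ - hW f g' σ| ≤ D * √(M:ℝ) * √T := fun σ => by
    rw [hW, hW, ← sum_sub_distrib]
    refine (abs_sum_le_sum_abs _ _).trans ((sum_le_sum fun a _ => (hf a _ _).trans
      (mul_le_mul_of_nonneg_left (hfl σ a) hD)).trans ?_)
    rw [← mul_sum, mul_assoc]
    refine mul_le_mul_of_nonneg_left ?_ hD
    rw [← Real.sqrt_mul (Nat.cast_nonneg M)]
    refine le_sqrt_of_sq_le ((sq_sum_le_card_mul_sum_sq (s := univ)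
      (f := fun a => √(∑ i, (g a i - g' a i) ^ 2))).trans_eq ?_)
    rw [card_univ, Fintype.card_fin]
    simp only [T, Real.sq_sqrt (sum_nonneg fun i _ => sq_nonneg _)]
  set d := D * √(M:ℝ) * √T
  have cmp : ∀ g g' : Fin M → Fin N → ℝ, (∀ σ, hW f g σ ≤ hW f g' σ + d) → logW f g ≤ logW f g' + d :=
    fun g g' hle => by
      rw [logW, logW, ← log_exp d, ← log_mul (den_pos f g').ne' (exp_pos d).ne', sum_mul]
      refine log_le_log (den_pos f g) (sum_le_sum fun σ _ => ?_)
      rw [mul_assoc, ← exp_add]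
      exact mul_le_mul_of_nonneg_left (exp_le_exp.2 (hle σ)) (wt_pos' σ).le
  rw [abs_le]
  constructor
  · linarith [cmp g' g fun σ => by linarith [(abs_le.1 (hH σ)).1]]
  · linarith [cmp g g' fun σ => by linarith [(abs_le.1 (hH σ)).2]]

/-- deviation of the log partition function of Lipschitz potentials -/
lemma logW_dev [NeZero N] {f : Fin M → ℝ → ℝ} (hc : ∀ a, Continuous (f a)) {D : ℝ} (hD : 0 ≤ D)
    (hf : ∀ a x y, |f a x - f a y| ≤ D * |x - y|) :
    ∫ g, |logW f g - ∫ g', logW f g' ∂pats N M| ∂pats N M ≤ 3 * (D * √(M:ℝ)) := by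
  set G : (Fin M × Fin N → ℝ) → ℝ := fun x => logW f fun a i => x (a, i)
  have hmp := Vale.Agent.P157.Full.preserving_uncurry N M
  obtain ⟨-, hb⟩ := Vale.Agent.P157.Full.gauss_dev (F := G) (L := D * √(M:ℝ))
    (mul_nonneg hD (Real.sqrt_nonneg _)) fun x y => by
      refine (logW_lip hD hf _ _).trans_eq ?_
      rw [Fintype.sum_prod_type]
  have hG : Continuous G := (continuous_logW hc).comp (by fun_prop)
  rw [← hmp.map_eq, integral_map hmp.measurable.aemeasurable hG.aestronglyMeasurable] at hb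
  set m := ∫ g', logW f g' ∂pats N M
  rw [integral_map (f := fun x => |G x - m|) hmp.measurable.aemeasurable
    (hG.sub continuous_const).abs.aestronglyMeasurable] at hb
  exact hb

/-- **T3: the pressure at given counts concentrates** -/
theorem stmt_conc : StmtConc := by
  intro s α c hα
  set A := ∑ j, α j
  have hA0 : 0 ≤ A := sum_nonneg fun j _ => (hα j).le
  have hnn : ∀ N : ℕ, 0 ≤ (∫ g, |Pattern.Signed.sLw (fun k => c (can (Ks α N) k)) (Pattern.w0 (Fin N))
      (fun _ => Pattern.unif (Fin N)) g - Pattern.Signed.fC c N (Ks α N)|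
        ∂Pattern.pats (Fin N) (∑ j, Ks α N j)) / N := fun N =>
    div_nonneg (integral_nonneg fun g => abs_nonneg _) (Nat.cast_nonneg N)
  refine Metric.tendsto_nhds.2 fun ε hε => ?_
  have hT : Tendsto (fun L : ℝ => 2 * cutC α c / L ^ 2) atTop (𝓝 0) :=
    tendsto_const_nhds.div_atTop (tendsto_pow_atTop two_ne_zero)
  obtain ⟨L, hLε, hL⟩ := ((hT.eventually (eventually_lt_nhds (half_pos hε))).and
    (eventually_ge_atTop 1)).exists
  set D := Par.cutD (∑ i, |c i|) L
  have hT2 : Tendsto (fun N : ℕ => 3 * D * √A * (√(N:ℝ))⁻¹) atTop (𝓝 0) := by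
    simpa using (tendsto_inv_atTop_zero.comp
      (Real.tendsto_sqrt_atTop.comp tendsto_natCast_atTop_atTop)).const_mul (3 * D * √A)
  filter_upwards [eventually_gt_atTop 0, hT2.eventually (eventually_lt_nhds (half_pos hε))] with N hN hNε
  have : NeZero N := ⟨hN.ne'⟩
  have hN0 : (0:ℝ) < N := Nat.cast_pos.2 hN
  rw [Real.dist_eq, sub_zero, abs_of_nonneg (hnn N), div_lt_iff₀ hN0]
  set K := Ks α N
  have hD0 : 0 ≤ D := by simp only [D, Par.cutD]; positivity
  have hlip : ∀ a x y, |cPot c L K a x - cPot c L K a y| ≤ D * |x - y| := fun a x y => by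
    have h := (cutF c L hL).sm (can K a)
    have h2 := Convex.norm_image_sub_le_of_norm_hasDerivWithin_le (s := Set.univ)
      (fun z _ => (h.d0 z).hasDerivWithinAt) (fun z _ => (Real.norm_eq_abs _).trans_le (h.b1 z))
      convex_univ (Set.mem_univ y) (Set.mem_univ x)
    simpa only [Real.norm_eq_abs, cutF, cPot] using h2
  obtain ⟨iq, il⟩ := pot_integrable (N := N) c (by linarith : (0:ℝ) < L) K
  have hcut := cut_abs (N := N) hα c (by linarith : (0:ℝ) < L)
  have hdev := logW_dev (N := N) (f := cPot c L K) (fun a => continuous_fL _ _) hD0 hlip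
  have hmean : |(∫ g, logW (cPot c L K) g ∂pats N (∑ j, K j)) -
      ∫ g, logW (qPot c K) g ∂pats N (∑ j, K j)| ≤ cutC α c * N / L ^ 2 := by
    rw [abs_sub_comm, ← integral_sub iq il]
    exact abs_integral_le_integral_abs.trans hcut
  have key : ∫ g, |logW (qPot c K) g - ∫ g', logW (qPot c K) g' ∂pats N (∑ j, K j)| ∂pats N (∑ j, K j) ≤
      2 * (cutC α c * N / L ^ 2) + 3 * (D * √(((∑ j, K j : ℕ) : ℝ))) := by
    set mq := ∫ g', logW (qPot c K) g' ∂pats N (∑ j, K j)
    set ml := ∫ g', logW (cPot c L K) g' ∂pats N (∑ j, K j)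
    have j1 : Integrable (fun g => |logW (qPot c K) g - logW (cPot c L K) g|) (pats N (∑ j, K j)) :=
      (iq.sub il).abs
    have j2 : Integrable (fun g => |logW (cPot c L K) g - ml|) (pats N (∑ j, K j)) :=
      (il.sub (integrable_const _)).abs
    have j3 : Integrable (fun g => |logW (qPot c K) g - logW (cPot c L K) g| +
      |logW (cPot c L K) g - ml|) (pats N (∑ j, K j)) := j1.add j2
    refine (integral_mono (iq.sub (integrable_const _)).abs (j3.add (integrable_const |ml - mq|))
      fun g => ?_).trans ?_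
    · simp only [Pi.sub_apply, Pi.add_apply]
      exact (abs_sub_le _ ml _).trans (add_le_add (abs_sub_le _ _ _) le_rfl)
    simp only [Pi.add_apply]
    rw [integral_add j3 (integrable_const _), integral_add j1 j2, integral_const, probReal_univ, one_smul]
    linarith
  have hsq : √(((∑ j, K j : ℕ) : ℝ)) ≤ √A * √(N:ℝ) := by
    rw [← Real.sqrt_mul hA0]
    refine Real.sqrt_le_sqrt ?_
    push_cast
    rw [sum_mul]
    exact sum_le_sum fun j _ => Nat.floor_le (by have := hα j; positivity)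
  simp only [sLw_eq, fC_eq]
  refine lt_of_le_of_lt key ?_
  have e1 : 2 * (cutC α c * N / L ^ 2) = 2 * cutC α c / L ^ 2 * N := by ring
  have e2 : 3 * (D * (√A * √(N:ℝ))) = 3 * D * √A * (√(N:ℝ))⁻¹ * N := by
    field_simp
    rw [Real.sq_sqrt hN0.le]
  nlinarith [mul_le_mul_of_nonneg_left hsq hD0, mul_lt_mul_of_pos_right hLε hN0,
    mul_lt_mul_of_pos_right hNε hN0]

end Vale.Agent.P166.Hopf
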