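import Vale.Agent.P166.Par.Multi.Quad
import Vale.Agent.P166.Pattern.Efron
import Vale.Agent.P150.RSStrict

/-!
# P166: log partition functions of patterns with one potential each, and their Gibbs averages
-/

open MeasureTheory ProbabilityTheory Real Finset
open Vale.Agent.P150 (gauss dot)
open Vale.Agent.P157.Lim (xv wt)
open Vale.Agent.P157.Par (pats)

noncomputable section

namespace Vale.Agent.P166.Hopf

open Par (qf fL fL_eq fL_sign fL_abs_le continuous_fL continuous_qf dot_sq_unit integrable_field)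

variable {N M : ℕ}

/-- the field of pattern `a` -/
def fld (g : Fin M → Fin N → ℝ) (σ : Fin N → Bool) (a : Fin M) : ℝ := dot (xv N σ) (g a)

/-- energy -/
def hW (f : Fin M → ℝ → ℝ) (g : Fin M → Fin N → ℝ) (σ : Fin N → Bool) : ℝ := ∑ a, f a (fld g σ a)

/-- log partition function, one potential per pattern -/
def logW (f : Fin M → ℝ → ℝ) (g : Fin M → Fin N → ℝ) : ℝ := log (∑ σ, wt N σ * exp (hW f g σ))

/-- Gibbs average -/
def gav (f : Fin M → ℝ → ℝ) (g : Fin M → Fin N → ℝ) (X : (Fin N → Bool) → ℝ) : ℝ :=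
  (∑ σ, wt N σ * exp (hW f g σ) * X σ) / ∑ σ, wt N σ * exp (hW f g σ)

lemma wt_pos' (σ : Fin N → Bool) : 0 < wt N σ := by unfold Vale.Agent.P157.Lim.wt; positivity

lemma den_pos (f : Fin M → ℝ → ℝ) (g : Fin M → Fin N → ℝ) :
    0 < ∑ σ, wt N σ * exp (hW f g σ) :=
  sum_pos (fun σ _ => mul_pos (wt_pos' σ) (exp_pos _)) univ_nonempty

lemma gav_mono (f : Fin M → ℝ → ℝ) (g : Fin M → Fin N → ℝ) {X Y : (Fin N → Bool) → ℝ}
    (h : ∀ σ, X σ ≤ Y σ) : gav f g X ≤ gav f g Y :=
  div_le_div_of_nonneg_right
    (sum_le_sum fun σ _ => mul_le_mul_of_nonneg_left (h σ) (mul_pos (wt_pos' σ) (exp_pos _)).le)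
    (den_pos f g).le

lemma gav_const (f : Fin M → ℝ → ℝ) (g : Fin M → Fin N → ℝ) (x : ℝ) : gav f g (fun _ => x) = x := by
  rw [gav, ← sum_mul, mul_div_cancel_left₀ _ (den_pos f g).ne']

lemma gav_sum {ι : Type*} (S : Finset ι) (f : Fin M → ℝ → ℝ) (g : Fin M → Fin N → ℝ)
    (X : ι → (Fin N → Bool) → ℝ) :
    gav f g (fun σ => ∑ i ∈ S, X i σ) = ∑ i ∈ S, gav f g (X i) := by
  simp only [gav, mul_sum, ← sum_div]
  rw [sum_comm]

lemma gav_const_mul (f : Fin M → ℝ → ℝ) (g : Fin M → Fin N → ℝ) (x : ℝ) (X : (Fin N → Bool) → ℝ) :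
    gav f g (fun σ => x * X σ) = x * gav f g X := by
  simp only [gav, ← mul_div_assoc, mul_sum]
  congr 1
  exact sum_congr rfl fun σ _ => by ring

lemma gav_add (f : Fin M → ℝ → ℝ) (g : Fin M → Fin N → ℝ) (X Y : (Fin N → Bool) → ℝ) :
    gav f g (fun σ => X σ + Y σ) = gav f g X + gav f g Y := by
  simp only [gav, mul_add, sum_add_distrib, add_div]

lemma gav_le_sum (f : Fin M → ℝ → ℝ) (g : Fin M → Fin N → ℝ) {X : (Fin N → Bool) → ℝ}
    (h : ∀ σ, 0 ≤ X σ) : 0 ≤ gav f g X ∧ gav f g X ≤ ∑ σ, X σ := by
  constructor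
  · exact (gav_const f g 0).symm.trans_le (gav_mono f g h)
  · exact (gav_mono f g fun σ => single_le_sum (fun τ _ => h τ) (mem_univ σ)).trans_eq (gav_const f g _)

/-- the log partition function lies above its tangent -/
lemma logW_sub_le (f f' : Fin M → ℝ → ℝ) (g : Fin M → Fin N → ℝ) :
    logW f g - logW f' g ≤ gav f g fun σ => hW f g σ - hW f' g σ := by
  set p := fun σ => wt N σ * exp (hW f g σ) / ∑ τ, wt N τ * exp (hW f g τ)
  have hd := den_pos f g
  have hj := convexOn_exp.map_sum_le (t := univ) (w := p) (p := fun σ => -(hW f g σ - hW f' g σ))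
    (fun σ _ => div_nonneg (mul_pos (wt_pos' σ) (exp_pos _)).le hd.le)
    (by simp only [p, ← sum_div, div_self hd.ne']) (fun σ _ => Set.mem_univ _)
  simp only [smul_eq_mul] at hj
  have e1 : ∑ σ, p σ * -(hW f g σ - hW f' g σ) = -gav f g fun σ => hW f g σ - hW f' g σ := by
    simp only [p, gav, mul_neg, sum_neg_distrib, div_mul_eq_mul_div, sum_div]
  have e2 : ∑ σ, p σ * exp (-(hW f g σ - hW f' g σ)) = exp (logW f' g - logW f g) := by
    rw [logW, logW, exp_sub, exp_log (den_pos f' g), exp_log hd, sum_div]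
    refine sum_congr rfl fun σ _ => ?_
    simp only [p]
    rw [neg_sub, exp_sub]
    field_simp
  rw [e1, e2, exp_le_exp] at hj
  linarith

lemma continuous_fld (σ : Fin N → Bool) (a : Fin M) :
    Continuous fun g : Fin M → Fin N → ℝ => fld g σ a :=
  (Vale.Agent.P157.Par.continuous_dot_left _).comp (continuous_apply a)

lemma continuous_hW {f : Fin M → ℝ → ℝ} (hf : ∀ a, Continuous (f a)) (σ : Fin N → Bool) :
    Continuous fun g => hW f g σ :=
  continuous_finsetSum _ fun a _ => (hf a).comp (continuous_fld σ a)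

lemma continuous_logW {f : Fin M → ℝ → ℝ} (hf : ∀ a, Continuous (f a)) :
    Continuous fun g : Fin M → Fin N → ℝ => logW f g := by
  have := continuous_hW (N := N) hf
  exact Continuous.log (by fun_prop) fun g => (den_pos f g).ne'

lemma continuous_gav {f : Fin M → ℝ → ℝ} (hf : ∀ a, Continuous (f a))
    {X : (Fin M → Fin N → ℝ) → (Fin N → Bool) → ℝ} (hX : ∀ σ, Continuous fun g => X g σ) :
    Continuous fun g => gav f g (X g) := by
  have := continuous_hW (N := N) hf
  exact Continuous.div (by fun_prop) (by fun_prop) fun g => (den_pos f g).ne'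

/-- a function of one field -/
lemma integrable_fld [NeZero N] {F : ℝ → ℝ} (hF : Integrable F (gaussianReal 0 1)) (σ : Fin N → Bool)
    (a : Fin M) : Integrable (fun g => F (fld g σ a)) (pats N M) :=
  (measurePreserving_eval (fun _ : Fin M => gauss (Fin N)) a).integrable_comp_of_integrable
    (g := fun y => F (dot (xv N σ) y)) (integrable_field (dot_sq_unit σ) hF)

lemma integrable_four : Integrable (fun t : ℝ => t ^ 4) (gaussianReal 0 1) :=
  Pattern.integrable_poly1 (by fun_prop)
    (Pattern.Poly.pow ⟨1, 1, fun x => by rw [one_mul, pow_one, norm_eq_abs]; linarith⟩ 4)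

lemma integrable_gav [NeZero N] {f : Fin M → ℝ → ℝ} (hf : ∀ a, Continuous (f a))
    {X : (Fin M → Fin N → ℝ) → (Fin N → Bool) → ℝ} (hX : ∀ σ, Continuous fun g => X g σ)
    (h0 : ∀ g σ, 0 ≤ X g σ) (hi : ∀ σ, Integrable (fun g => X g σ) (pats N M)) :
    Integrable (fun g => gav f g (X g)) (pats N M) := by
  refine (integrable_finsetSum univ fun σ _ => hi σ).mono' (continuous_gav hf hX).aestronglyMeasurable
    (.of_forall fun g => ?_)
  obtain ⟨h1, h2⟩ := gav_le_sum f g (h0 g)
  rwa [Real.norm_eq_abs, abs_of_nonneg h1]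

/-- potentials of at most quadratic growth -/
lemma integrable_logW [NeZero N] {f : Fin M → ℝ → ℝ} (hf : ∀ a, Continuous (f a)) {C : ℝ}
    (hb : ∀ a x, |f a x| ≤ C * (1 + x ^ 2)) :
    Integrable (fun g => logW f g) (pats N M) := by
  have hi : ∀ (σ : Fin N → Bool) (a : Fin M),
      Integrable (fun g => C * (1 + fld g σ a ^ 2)) (pats N M) := fun σ a =>
    (((integrable_const (1:ℝ)).add (integrable_fld Par.integrable_sq σ a)).const_mul C)
  refine ((integrable_const (|log (∑ σ, wt N σ)|)).add (integrable_finsetSum univ fun σ _ =>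
    integrable_finsetSum univ fun a _ => hi σ a)).mono' (continuous_logW hf).aestronglyMeasurable
    (.of_forall fun g => ?_)
  rw [Real.norm_eq_abs]
  refine (Par.abs_log_le wt_pos' _).trans (add_le_add le_rfl (sum_le_sum fun σ _ => ?_))
  exact (abs_sum_le_sum_abs _ _).trans (sum_le_sum fun a _ => hb a _)

/-! ### rotating two patterns -/

/-- mixing of two patterns by a symmetric orthogonal matrix with entries `c`, `d` -/
def mix2 (a b : Fin M) (c d : ℝ) (g : Fin M → Fin N → ℝ) : Fin M → Fin N → ℝ :=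
  Function.update (Function.update g a fun i => c * g a i + d * g b i) b fun i => d * g a i - c * g b i

lemma fld_mix2 {a b : Fin M} (hab : a ≠ b) (c d : ℝ) (g : Fin M → Fin N → ℝ) (σ : Fin N → Bool) :
    fld (mix2 a b c d g) σ a = c * fld g σ a + d * fld g σ b ∧
      fld (mix2 a b c d g) σ b = d * fld g σ a - c * fld g σ b ∧
      ∀ m, m ≠ a → m ≠ b → fld (mix2 a b c d g) σ m = fld g σ m := by
  refine ⟨?_, ?_, fun m ha hb => ?_⟩
  · simp only [fld, mix2, Function.update_of_ne hab, Function.update_self, dot, mul_sum,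
      ← sum_add_distrib]
    exact sum_congr rfl fun i _ => by ring
  · simp only [fld, mix2, Function.update_self, dot, mul_sum, ← sum_sub_distrib]
    exact sum_congr rfl fun i _ => by ring
  · simp only [fld, mix2, Function.update_of_ne hb, Function.update_of_ne ha]

/-- **invariance under the mixing of two patterns** -/
theorem integral_mix2 {a b : Fin M} (hab : a ≠ b) {c d : ℝ} (hcd : c ^ 2 + d ^ 2 = 1)
    {F : (Fin M → Fin N → ℝ) → ℝ} (hF : Continuous F) :
    ∫ g, F (mix2 a b c d g) ∂pats N M = ∫ g, F g ∂pats N M := by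
  set U : Fin M → Fin M → ℝ := fun k m => if m = a then (if k = a then c else if k = b then d else 0)
    else if m = b then (if k = a then d else if k = b then -c else 0) else if k = m then 1 else 0
  have hcol : ∀ (m : Fin M) (x : Fin M → ℝ), ∑ k, x k * U k m =
      if m = a then c * x a + d * x b else if m = b then d * x a - c * x b else x m := by
    intro m x
    have two : ∀ p q : ℝ,
        ∑ k, x k * (if k = a then p else if k = b then q else 0) = x a * p + x b * q := fun p q => by
      rw [Fintype.sum_eq_add a b hab fun k hk => by simp [hk.1, hk.2]]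
      simp [hab.symm]
    simp only [U]
    split_ifs with h1 h2
    · rw [two]; ring
    · rw [two]; ring
    · simp
  have hU : Matrix.of U ∈ Matrix.orthogonalGroup (Fin M) ℝ := by
    refine (Matrix.mem_orthogonalGroup_iff' (Fin M) ℝ).2 ?_
    ext i j
    simp only [Matrix.mul_apply, Matrix.transpose_apply, Matrix.of_apply, Matrix.one_apply]
    rw [hcol j fun k => U k i]
    simp only [U, hab, hab.symm]
    split_ifs <;> (try subst_vars) <;> first
      | (exfalso; simp_all; done)
      | linear_combination hcd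
      | ring
  have hmp : MeasurePreserving (fun (g : Fin M → Fin N → ℝ) (q : Fin N × Fin M) => g q.2 q.1)
      (pats N M) (Pattern.gauss (Fin N × Fin M)) :=
    (Pattern.mp_inj (gaussianReal 0 1) (e := fun q : Fin N × Fin M => (q.2, q.1))
      fun q q' h => Prod.ext (Prod.mk.inj h).2 (Prod.mk.inj h).1).comp (Pattern.mp_uncurry (Fin N) M)
  set G := fun x : Fin N × Fin M → ℝ => F fun m i => x (i, m)
  have hG : Continuous G := hF.comp (by fun_prop)
  have hR : Continuous (Pattern.rot (M := N) U) := by unfold Pattern.rot; fun_prop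
  have e : ∀ g : Fin M → Fin N → ℝ,
      F (mix2 a b c d g) = G (Pattern.rot U fun q => g q.2 q.1) := fun g => by
    refine congrArg F (funext fun m => funext fun i => ?_)
    simp only [Pattern.rot]
    rw [hcol m fun k => g k i]
    simp only [mix2, Function.update_apply]
    split_ifs with h1 h2 <;> simp_all
  calc ∫ g, F (mix2 a b c d g) ∂pats N M
      = ∫ x, G (Pattern.rot U x) ∂Pattern.gauss (Fin N × Fin M) := by
        simp only [e]
        rw [← hmp.map_eq, integral_map (f := fun x => G (Pattern.rot U x)) hmp.measurable.aemeasurable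
          (hG.comp hR).aestronglyMeasurable]
    _ = ∫ x, G x ∂Pattern.gauss (Fin N × Fin M) := by
        rw [← integral_map hR.measurable.aemeasurable hG.aestronglyMeasurable, Pattern.mp_rot hU]
    _ = _ := by rw [← hmp.map_eq, integral_map hmp.measurable.aemeasurable hG.aestronglyMeasurable]

end Vale.Agent.P166.Hopf
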