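import Vale.Agent.P166.Par.Multi.Defs
import Vale.Agent.P166.Par.Multi.RForm
import Vale.Agent.P157.Full.Defs

/-!
# P166: the path formula for free infinitely divisible laws at every temperature

Objects and the statements of the modules. A point is a monotone nonnegative path `h`; it generates
the overlaps `qh R h`. No smallness of `β` times the jumps is assumed.
-/

open MeasureTheory ProbabilityTheory Filter Finset Real
open scoped Topology
open Vale.Agent.P157.Full (qh psiH dotH)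
open Vale.Agent.P157.Par (Prof)
open Vale.Agent.P168.MP (lin)

noncomputable section

namespace Vale.Agent.P166.Hopf

open Par (cutD cut_sm fL fL1 fL2 fL3 fL_le qf)
open Par.Multi (Fam Wts xiD Rt pressBar pressV)
open Pattern.Signed (fC)
open Pattern.Multi (Ks)

variable {s : ℕ}

/-- the part of the value of a path that does not see the couplings -/
def spinH (R : ℕ) (h : ℕ → ℝ) : ℝ := psiH R h + dotH R h (qh R h) / 2

/-- the value of a path for finitely many bounded potentials, `α` patterns per site with weights `p` -/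
def JvalV (α : ℝ) (P : Fam s) (p : Fin s → ℝ) (R : ℕ) (h : ℕ → ℝ) : ℝ :=
  α * (∑ j, p j * P157.Par.Phi (fun y => exp (P.f j y)) R (lin R) (qh R h)) + spinH R h

/-- the cut family of the potentials `c j u²/2`, for arbitrary strengths -/
def cutF (c : Fin s → ℝ) (L : ℝ) (hL : 1 ≤ L) : Fam s where
  f j := fL (c j) L
  f1 j := fL1 (c j) L
  f2 j := fL2 (c j) L
  f3 j := fL3 (c j) L
  B := (∑ j, |c j|) * L ^ 2
  D := cutD (∑ j, |c j|) L
  sm j := by
    have hj : |c j| ≤ ∑ i, |c i| :=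
      single_le_sum (f := fun i => |c i|) (fun i _ => abs_nonneg _) (mem_univ j)
    have h := cut_sm (c j) hL
    have hB : |c j| * L ^ 2 ≤ (∑ i, |c i|) * L ^ 2 := mul_le_mul_of_nonneg_right hj (sq_nonneg L)
    have hD : cutD (c j) L ≤ cutD (∑ i, |c i|) L :=
      mul_le_mul_of_nonneg_right (hj.trans (le_abs_self _)) (by linarith)
    exact ⟨h.d0, h.d1, h.d2, h.cont3, fun x => by linarith [h.lb x], fun x => (h.b1 x).trans hD,
      fun x => (h.b2 x).trans hD, fun x => (h.b3 x).trans hD⟩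
  ub j x := (fL_le (c := c j) (by linarith : (0:ℝ) < L) x).trans (mul_le_mul_of_nonneg_right
    (single_le_sum (f := fun i => |c i|) (fun i _ => abs_nonneg _) (mem_univ j)) (sq_nonneg L))

/-- the value of a path for finitely many quadratic potentials -/
def qForm (α c : Fin s → ℝ) (R : ℕ) (h : ℕ → ℝ) : ℝ :=
  (∑ j, α j * (1 / 2 * ∫ t in (0:ℝ)..1, c j / (1 - c j * xiD R (qh R h) t))) + spinH R h

/-- the values of the paths whose overlaps keep every quadratic functional finite -/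
def qHValues (α c : Fin s → ℝ) : Set ℝ :=
  {v | ∃ (R : ℕ) (h : ℕ → ℝ) (V : ℝ), 1 ≤ R ∧ Prof R h V ∧
    (∀ j, c j * xiD R (qh R h) 0 < 1) ∧ v = qForm α c R h}

/-- the value of a path for a law with kernel `R(y) = γ + ∫ y/(1-ty) dρ` -/
def hForm (β γ : ℝ) (ρ : Measure ℝ) (R : ℕ) (h : ℕ → ℝ) : ℝ :=
  β / 2 * (∫ t in (0:ℝ)..1, Rt γ ρ (β * xiD R (qh R h) t)) + spinH R h

/-- the values of the paths inside the domain of the kernel -/
def hValues (β γ : ℝ) (ρ : Measure ℝ) : Set ℝ :=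
  {v | ∃ (R : ℕ) (h : ℕ → ℝ) (V : ℝ), 1 ≤ R ∧ Prof R h V ∧
    (∀ t ∈ ρ.support, β * xiD R (qh R h) 0 * t < 1) ∧ v = hForm β γ ρ R h}

/-- T1: the lower bound for finitely many bounded potentials -/
def StmtLower : Prop :=
  ∀ (s : ℕ) (P : Fam s) (p : Fin s → ℝ), Wts p → ∀ α : ℝ, 0 < α → ∀ v : ℝ,
    (∀ (R : ℕ) (h : ℕ → ℝ) (V : ℝ), 1 ≤ R → Prof R h V → v ≤ JvalV α P p R h) →
    ∀ ε : ℝ, 0 < ε → ∀ᶠ N : ℕ in atTop, v - ε ≤ pressBar P p N ⌊α * N⌋₊

/-- T2: the upper bound by every path -/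
def StmtUpper : Prop :=
  ∀ (s : ℕ) (P : Fam s) (p : Fin s → ℝ), Wts p → ∀ α : ℝ, 0 < α →
    ∀ (R : ℕ) (h : ℕ → ℝ) (V : ℝ), 1 ≤ R → Prof R h V →
    ∀ ε : ℝ, 0 < ε → ∀ᶠ N : ℕ in atTop, pressBar P p N ⌊α * N⌋₊ ≤ JvalV α P p R h + ε

/-- T3: at given counts the quadratic pressure is close to the one of the cut family -/
def StmtCut : Prop :=
  ∀ (s : ℕ) (α c : Fin s → ℝ), (∀ j, 0 < α j) → ∀ A : ℝ, (A = ∑ j, α j) → ∀ ε : ℝ, 0 < ε →
    ∀ᶠ L in atTop, ∀ hL : 1 ≤ L, ∀ᶠ N : ℕ in atTop,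
      |pressBar (cutF c L hL) (fun j => α j / A) N ⌊A * N⌋₊ - fC c N (Ks α N) / N| ≤ ε

/-- T3: concentration of the pressure at given counts -/
def StmtConc : Prop :=
  ∀ (s : ℕ) (α c : Fin s → ℝ), (∀ j, 0 < α j) →
    Tendsto (fun N : ℕ => (∫ g, |Pattern.Signed.sLw (fun k => c (Pattern.Multi.can (Ks α N) k))
        (Pattern.w0 (Fin N)) (fun _ => Pattern.unif (Fin N)) g - fC c N (Ks α N)|
          ∂Pattern.pats (Fin N) (∑ j, Ks α N j)) / N) atTop (𝓝 0)

/-- T4: the cut values tend from both sides to the quadratic ones -/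
def StmtFunctional : Prop :=
  ∀ (s : ℕ) (α c : Fin s → ℝ), (∀ j, 0 < α j) → ∀ A : ℝ, (A = ∑ j, α j) →
    (qHValues α c).Nonempty ∧ BddBelow (qHValues α c) ∧
    (∀ ε : ℝ, 0 < ε → ∀ᶠ L in atTop, ∀ hL : 1 ≤ L,
      ∀ (R : ℕ) (h : ℕ → ℝ) (V : ℝ), 1 ≤ R → Prof R h V →
        sInf (qHValues α c) - ε ≤ JvalV A (cutF c L hL) (fun j => α j / A) R h) ∧
    ∀ (R : ℕ) (h : ℕ → ℝ) (V : ℝ), 1 ≤ R → Prof R h V → (∀ j, c j * xiD R (qh R h) 0 < 1) →
      ∀ ε : ℝ, 0 < ε → ∀ᶠ L in atTop, ∀ hL : 1 ≤ L,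
        JvalV A (cutF c L hL) (fun j => α j / A) R h ≤ qForm α c R h + ε

end Vale.Agent.P166.Hopf
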