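import Vale.Agent.P166.Hopf.FunctionalQuad
import Vale.Agent.P157.Full.Reps

/-! T4: the cut values tend from both sides to the quadratic ones. Near the boundary of the domain a
profile is raised to `max q t`, which lowers the value of the cut. -/

open MeasureTheory ProbabilityTheory Filter Real Finset
open scoped Topology
open Vale.Agent.P157.Full (qh psiH dotH qh_prof qh_const Jval_ge phi_mono)
open Vale.Agent.P157.Par (Prof)
open Vale.Agent.P168.MP (lin)

noncomputable section

namespace Vale.Agent.P166.Hopf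

open Par (fL cut_sm qf fL_sign)
open Par.Multi (xiD xiD_mem continuous_xiD)

variable {s R : ℕ} {h q : ℕ → ℝ} {V c θ L : ℝ}

lemma spinH_nonneg (hR : 1 ≤ R) (hh : Prof R h V) : 0 ≤ spinH R h := by
  have := Jval_ge (cut_sm 0 (le_refl (1:ℝ))) (by simp) (α := 0) hR hh le_rfl
  simp only [P157.Full.Jval, zero_mul, neg_zero, zero_add] at this
  exact this

lemma jval_cut (α c : Fin s → ℝ) (hα : ∀ j, 0 < α j) {A : ℝ} (hA : A = ∑ j, α j) (hL : 1 ≤ L)
    (R : ℕ) (h : ℕ → ℝ) : JvalV A (cutF c L hL) (fun j => α j / A) R h =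
      (∑ j, α j * P157.Par.Phi (fun u => exp (fL (c j) L u)) R (lin R) (qh R h)) + spinH R h := by
  simp only [JvalV, cutF]
  rw [mul_sum]
  congr 1
  refine sum_congr rfl fun j _ => ?_
  have hA0 : 0 < A := hA ▸ sum_pos (fun i _ => hα i) ⟨j, mem_univ j⟩
  rw [← mul_assoc, mul_div_cancel₀ _ hA0.ne']

lemma qForm_eq (α c : Fin s → ℝ) (R : ℕ) (h : ℕ → ℝ) :
    qForm α c R h = (∑ j, α j * qInt (c j) R (qh R h)) + spinH R h := rfl

lemma dm_of_lt (hR : 1 ≤ R) (hq : Prof R q 1) (htop : q R = 1) (hD : c * xiD R q 0 < 1) :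
    Dm c (max 0 (c * xiD R q 0)) R q :=
  ⟨hR, hq, htop, le_max_left _ _, max_lt one_pos hD, le_max_right _ _⟩

lemma Dm.ii (d : Dm c θ R q) : IntervalIntegrable (fun u => c / (1 - c * xiD R q u)) volume 0 1 :=
  ContinuousOn.intervalIntegrable (continuousOn_const.div
    (continuous_const.sub (continuous_const.mul (continuous_xiD R q))).continuousOn fun u hu => by
      rw [Set.uIcc_of_le zero_le_one] at hu
      exact (d.den_pos hu.1 hu.2).ne')

lemma Dm.qInt_ge (d : Dm c θ R q) : -(|c| / 2) ≤ qInt c R q := by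
  have hb : ∀ u ∈ Set.Icc (0:ℝ) 1, -|c| ≤ c / (1 - c * xiD R q u) := fun u hu => by
    rcases le_total 0 c with hc | hc
    · exact (neg_nonpos.2 (abs_nonneg c)).trans (div_nonneg hc (d.den_pos hu.1 hu.2).le)
    · rw [abs_of_nonpos hc, neg_neg, le_div_iff₀ (d.den_pos hu.1 hu.2)]
      nlinarith [mul_nonneg (mul_nonneg (neg_nonneg.2 hc) (neg_nonneg.2 hc)) (xiD_mem d.hq hu.1 hu.2).1]
  have := intervalIntegral.integral_mono_on zero_le_one intervalIntegrable_const d.ii hb
  rw [intervalIntegral.integral_const, smul_eq_mul, sub_zero, one_mul] at this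
  rw [qInt]
  linarith

/-- a profile on the boundary of the domain has a large value -/
lemma Dm.qInt_log (d : Dm c θ R q) (hθ : 0 < θ) (he : c * xiD R q 0 = θ) :
    -log (1 - θ) / 2 ≤ qInt c R q := by
  obtain ⟨a0, b0⟩ := xiD_mem d.hq le_rfl zero_le_one
  have hc : 0 < c := by
    by_contra hc
    have := mul_nonpos_of_nonpos_of_nonneg (not_lt.1 hc) a0
    linarith
  have hθc : θ ≤ c := he ▸ mul_le_of_le_one_right hc.le b0
  have hden : ∀ u ∈ Set.Icc (0:ℝ) 1, 0 < 1 - θ + θ * u := fun u hu =>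
    add_pos_of_pos_of_nonneg (sub_pos.2 d.h1) (mul_nonneg hθ.le hu.1)
  have hD : ∀ u ∈ Set.Icc (0:ℝ) 1, (1 - u) * xiD R q 0 ≤ xiD R q u := fun u hu => by
    simp only [xiD, ← mul_div_assoc, mul_sum]
    refine div_le_div_of_nonneg_right (sum_le_sum fun l hl => ?_) (Nat.cast_nonneg R)
    obtain ⟨x0, x1⟩ := d.hq.upper (mem_range.1 hl).le
    rw [max_eq_right x0]
    rcases le_total u (q l) with h | h
    · rw [max_eq_right h]; exact mul_le_of_le_one_left (sub_nonneg.2 x1) (by linarith [hu.1])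
    · rw [max_eq_left h]; exact mul_le_of_le_one_right (sub_nonneg.2 hu.2) (by linarith)
  have hpt : ∀ u ∈ Set.Icc (0:ℝ) 1, θ / (1 - θ + θ * u) ≤ c / (1 - c * xiD R q u) := fun u hu => by
    refine div_le_div₀ hc.le hθc (d.den_pos hu.1 hu.2) ?_
    have := mul_le_mul_of_nonneg_left (hD u hu) hc.le
    rw [show c * ((1 - u) * xiD R q 0) = (1 - u) * (c * xiD R q 0) by ring, he] at this
    linarith
  have hi : IntervalIntegrable (fun u => θ / (1 - θ + θ * u)) volume 0 1 :=
    ContinuousOn.intervalIntegrable (continuousOn_const.div (by fun_prop) fun u hu => by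
      rw [Set.uIcc_of_le zero_le_one] at hu
      exact (hden u hu).ne')
  have hv : ∫ u in (0:ℝ)..1, θ / (1 - θ + θ * u) = -log (1 - θ) := by
    rw [intervalIntegral.integral_eq_sub_of_hasDerivAt (f := fun u => log (1 - θ + θ * u)) (fun u hu => ?_) hi]
    · simp
    rw [Set.uIcc_of_le zero_le_one] at hu
    exact ((((hasDerivAt_id' u).const_mul θ).const_add (1 - θ)).log (hden u hu).ne').congr_deriv (by ring)
  have := intervalIntegral.integral_mono_on zero_le_one hi d.ii hpt
  rw [hv] at this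
  rw [qInt]
  linarith

/-- the raised profile -/
lemma raise_max (_hR : 1 ≤ R) (hq : Prof R q 1) (htop : q R = 1) (hθ0 : 0 < θ) (hθ : θ < c * xiD R q 0) :
    ∃ q', Prof R q' 1 ∧ q' R = 1 ∧ (∀ l, q l ≤ q' l) ∧ c * xiD R q' 0 = θ := by
  have hend : c * xiD R q 1 = 0 := by
    have : ∀ l ∈ range R, 1 - max (1:ℝ) (q l) = 0 := fun l hl => by
      rw [max_eq_left (hq.upper (mem_range.1 hl).le).2, sub_self]
    simp [xiD, sum_eq_zero this]
  obtain ⟨t, ht, hte⟩ := intermediate_value_Icc' zero_le_one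
    (continuous_const.mul (continuous_xiD R q)).continuousOn
    (show θ ∈ Set.Icc (c * xiD R q 1) (c * xiD R q 0) from ⟨hend ▸ hθ0.le, hθ.le⟩)
  refine ⟨fun l => max t (q l), ⟨ht.1.trans (le_max_left _ _), fun l hl => max_le_max le_rfl (hq.mono l hl),
    max_le ht.2 hq.top⟩, by simp [htop, ht.2], fun l => le_max_right _ _, ?_⟩
  rw [← hte]
  simp only [xiD, Pi.mul_apply, ← max_assoc, max_eq_right ht.1]

/-- the value of the cut is at least `-|c|/2` on the whole range of profiles -/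
lemma phi_cut_ge (hR : 1 ≤ R) (hq : Prof R q 1) (htop : q R = 1) (hL : 1 ≤ L) :
    -(|c| / 2) ≤ P157.Par.Phi (fun u => exp (fL c L u)) R (lin R) q := by
  have hL0 : 0 < L := by linarith
  rcases le_total 0 c with hc | hc
  · have d : Dm 0 0 R q := ⟨hR, hq, htop, le_rfl, one_pos, by simp⟩
    have hf : ∀ u, qf 0 u - 0 * u ^ 4 ≤ fL c L u := fun u => by
      simpa [qf] using ((fL_sign (L := L) hL0 u).1 hc).1
    have e0 : qInt 0 R q = 0 := by simp [qInt]
    obtain ⟨A', hV⟩ := P157.Par.Vn_adm (P157.Par.adm_exp (cut_sm c hL)) (P157.Par.ex_lin R) q R le_rfl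
    have h0 : ∀ k, k ≤ R → ∀ y, 1 ≤ P157.Par.Vn (fun u => exp (fL c L u)) R (lin R) q k y := by
      intro k
      induction k with
      | zero => exact fun _ y => one_le_exp ((fL_sign hL0 y).1 hc).1
      | succ k ih =>
        intro hk y
        obtain ⟨hμ, hμ1⟩ := (P157.Par.ex_lin R).mem (show k < R by omega)
        obtain ⟨A₁, hV₁⟩ := P157.Par.Vn_adm (P157.Par.adm_exp (cut_sm c hL)) (P157.Par.ex_lin R) q k
          (show k ≤ R by omega)
        have h1 := integral_mono (integrable_const (1:ℝ)) ((hV₁.rpow hμ.le hμ1).eg.int √(Par.dn R q k) y)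
          fun z => one_le_rpow (ih (by omega) _) hμ.le
        rw [integral_const, probReal_univ, one_smul] at h1
        exact one_le_rpow h1 (one_div_nonneg.2 hμ.le)
    have := integral_nonneg (μ := gaussianReal 0 1)
      (f := fun z : ℝ => log (P157.Par.Vn (fun u => exp (fL c L u)) R (lin R) q R (√(q 0) * z))) fun z =>
      log_nonneg (h0 R le_rfl (√(q 0) * z))
    unfold P157.Par.Phi
    linarith [abs_nonneg c]
  · obtain ⟨a, b⟩ := xiD_mem hq le_rfl zero_le_one
    have d : Dm c 0 R q := ⟨hR, hq, htop, le_rfl, one_pos, mul_nonpos_of_nonpos_of_nonneg hc a⟩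
    have h1 := d.phi_ge le_rfl hL fun u => by simpa using ((fL_sign (L := L) hL0 u).2 hc).2
    linarith [d.qInt_ge]

lemma qForm_ge (α c : Fin s → ℝ) (hα : ∀ j, 0 < α j) (hR : 1 ≤ R) (hh : Prof R h V)
    (hD : ∀ j, c j * xiD R (qh R h) 0 < 1) : -(∑ j, α j * |c j| / 2) ≤ qForm α c R h := by
  obtain ⟨hq, ht⟩ := qh_prof hR hh
  rw [qForm_eq, ← sum_neg_distrib]
  refine le_add_of_le_of_nonneg (sum_le_sum fun j _ => ?_) (spinH_nonneg hR hh)
  have := mul_le_mul_of_nonneg_left (dm_of_lt hR hq ht (hD j)).qInt_ge (hα j).le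
  linarith

lemma qHValues_nonempty (α c : Fin s → ℝ) : (qHValues α c).Nonempty := by
  have hq0 : ∀ K : ℕ, qh 1 (fun _ => (K:ℝ)) 0 = ∫ z, tanh (√(K:ℝ) * z) ^ 2 ∂gaussianReal 0 1 := fun K =>
    qh_const le_rfl (Nat.cast_nonneg K) Nat.one_pos
  have hT : Tendsto (fun K : ℕ => ∫ z, tanh (√(K:ℝ) * z) ^ 2 ∂gaussianReal 0 1) atTop (𝓝 1) := by
    have hth : Tendsto tanh atTop (𝓝 1) := by
      have hinv : Tendsto (fun x : ℝ => exp (-(2 * x))) atTop (𝓝 0) :=
        tendsto_exp_atBot.comp (tendsto_neg_atTop_atBot.comp (tendsto_id.const_mul_atTop two_pos))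
      have h1 : Tendsto (fun x : ℝ => (1 - exp (-(2 * x))) / (1 + exp (-(2 * x)))) atTop (𝓝 1) := by
        simpa [Pi.div_def] using ((tendsto_const_nhds (x := (1:ℝ))).sub hinv).div
          ((tendsto_const_nhds (x := (1:ℝ))).add hinv) (by norm_num)
      refine h1.congr fun x => ?_
      rw [tanh_eq_sinh_div_cosh, sinh_eq, cosh_eq, show -(2 * x) = -x + -x by ring, exp_add]
      have e : exp x * exp (-x) = 1 := by rw [← exp_add, add_neg_cancel, exp_zero]
      have := exp_pos x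
      have := exp_pos (-x)
      field_simp
      linear_combination -(2 * exp (-x)) * e
    have hae : ∀ᵐ z ∂gaussianReal 0 1,
        Tendsto (fun K : ℕ => tanh (√(K:ℝ) * z) ^ 2) atTop (𝓝 1) := by
      have hne : ∀ᵐ z ∂gaussianReal 0 1, z ≠ 0 := by
        have := nullSingletonClass_gaussianReal (μ := (0:ℝ)) (v := 1) one_ne_zero
        exact Measure.ae_ne _ 0
      filter_upwards [hne] with z hz
      have habs : Tendsto (fun K : ℕ => √(K:ℝ) * |z|) atTop atTop :=
        (tendsto_sqrt_atTop.comp tendsto_natCast_atTop_atTop).atTop_mul_const (abs_pos.2 hz)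
      have := ((hth.comp habs).pow 2)
      simp only [one_pow, Function.comp_apply] at this
      refine this.congr fun K => ?_
      rcases abs_choice z with h | h <;> rw [h]
      rw [mul_neg, tanh_neg, neg_sq]
    have := tendsto_integral_of_dominated_convergence (μ := gaussianReal 0 1) (fun _ => (1:ℝ))
      (F := fun (K : ℕ) z => tanh (√(K:ℝ) * z) ^ 2)
      (fun K => ((P157.Full.continuous_tanh'.comp (by fun_prop : Continuous fun z : ℝ => √(K:ℝ) * z)).pow 2).aestronglyMeasurable)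
      (integrable_const _) (fun K => .of_forall fun z => by
        rw [norm_of_nonneg (sq_nonneg _), sq_le_one_iff_abs_le_one]
        exact (abs_tanh_lt_one _).le) hae
    simpa using this
  have hev : ∀ᶠ K : ℕ in atTop, ∀ j, c j * (1 - ∫ z, tanh (√(K:ℝ) * z) ^ 2 ∂gaussianReal 0 1) < 1 :=
    eventually_all.2 fun j => by
      have := ((tendsto_const_nhds (x := (1:ℝ))).sub hT).const_mul (c j)
      rw [sub_self, mul_zero] at this
      exact this.eventually (eventually_lt_nhds one_pos)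
  obtain ⟨K, hK⟩ := hev.exists
  have hp : Prof 1 (fun _ => (K:ℝ)) K := ⟨Nat.cast_nonneg K, fun _ _ => le_rfl, le_rfl⟩
  refine ⟨_, 1, fun _ => (K:ℝ), K, le_rfl, hp, fun j => ?_, rfl⟩
  have h0 : (0:ℝ) ≤ qh 1 (fun _ => (K:ℝ)) 0 := (qh_prof le_rfl hp).1.zero
  have e : xiD 1 (qh 1 fun _ => (K:ℝ)) 0 = 1 - qh 1 (fun _ => (K:ℝ)) 0 := by simp [xiD, max_eq_right h0]
  rw [e, hq0]
  exact hK j

/-- **T4** -/
theorem stmt_functional : StmtFunctional := by
  intro s α c hα A hA
  have hbdd : BddBelow (qHValues α c) := ⟨-(∑ j, α j * |c j| / 2), by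
    rintro v ⟨R, h, V, hR, hh, hD, rfl⟩
    exact qForm_ge α c hα hR hh hD⟩
  obtain ⟨v0, hv0⟩ := qHValues_nonempty α c
  refine ⟨⟨v0, hv0⟩, hbdd, fun ε hε => ?_, fun R h V hR hh hD ε hε => ?_⟩
  · set M := v0 + (∑ j, α j * |c j| / 2) + 1
    have hMpos : ∀ j, ∃ θ : ℝ, 0 < θ ∧ θ < 1 ∧ ∀ θ', θ ≤ θ' → θ' < 1 → M ≤ α j * (-log (1 - θ') / 2) := fun j => by
      set X := max 1 (2 * M / α j)
      have hX : (1:ℝ) ≤ X := le_max_left _ _
      refine ⟨1 - exp (-X), sub_pos.2 (exp_lt_one_iff.2 (by linarith)), sub_lt_self _ (exp_pos _),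
        fun θ' h1 h2 => ?_⟩
      have h3 : log (1 - θ') ≤ -X := by
        rw [log_le_iff_le_exp (sub_pos.2 h2)]; linarith
      have h4 : M / α j ≤ -log (1 - θ') / 2 := by
        have : 2 * M / α j ≤ X := le_max_right _ _
        rw [mul_div_assoc] at this
        linarith
      rw [div_le_iff₀ (hα j)] at h4
      linarith
    choose θj hθ0 hθ1 hθ using hMpos
    obtain ⟨θ, hθp, hθlt, hθle⟩ : ∃ θ : ℝ, 0 < θ ∧ θ < 1 ∧ ∀ j, θj j ≤ θ := by
      have hev : ∀ᶠ x in 𝓝[<] (1:ℝ), (0 < x ∧ x < 1) ∧ ∀ j, θj j ≤ x :=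
        ((eventually_nhdsWithin_of_eventually_nhds (eventually_gt_nhds one_pos)).and self_mem_nhdsWithin).and
          (eventually_all.2 fun j => eventually_nhdsWithin_of_eventually_nhds (eventually_ge_nhds (hθ1 j)))
      obtain ⟨x, ⟨a, b⟩, d⟩ := hev.exists
      exact ⟨x, a, b, d⟩
    set E := ∑ j, α j * |c j| * (3 / (1 - θ) ^ 4)
    have hsmall : ∀ᶠ L : ℝ in atTop, E / (2 * L ^ 2) ≤ min ε 1 :=
      ((tendsto_const_nhds (x := E)).div_atTop ((tendsto_pow_atTop two_ne_zero).const_mul_atTop two_pos)).eventually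
        (eventually_le_nhds (lt_min hε one_pos))
    filter_upwards [hsmall] with L hLs hL R h V hR hh
    obtain ⟨hq, ht⟩ := qh_prof hR hh
    rw [jval_cut α c hα hA hL]
    have hκ : ∀ j, max (c j) 0 / (2 * L ^ 2) * (3 / (1 - θ) ^ 4) ≤ |c j| * (3 / (1 - θ) ^ 4) / (2 * L ^ 2) :=
      fun j => by
        rw [div_mul_eq_mul_div]
        gcongr
        exact max_le (le_abs_self _) (abs_nonneg _)
    have herr : ∀ j, 0 ≤ |c j| * (3 / (1 - θ) ^ 4) / (2 * L ^ 2) := fun j =>
      div_nonneg (mul_nonneg (abs_nonneg _) (div_nonneg (by norm_num) (pow_nonneg (sub_nonneg.2 hθlt.le) 4)))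
        (by positivity)
    have hE : E / (2 * L ^ 2) = ∑ j, α j * (|c j| * (3 / (1 - θ) ^ 4) / (2 * L ^ 2)) := by
      rw [sum_div]; exact sum_congr rfl fun j _ => by ring
    have hinf : sInf (qHValues α c) ≤ v0 := csInf_le hbdd hv0
    by_cases hin : ∀ j, c j * xiD R (qh R h) 0 ≤ θ
    · have hd : ∀ j, Dm (c j) θ R (qh R h) := fun j => ⟨hR, hq, ht, hθp.le, hθlt, hin j⟩
      have h1 : sInf (qHValues α c) ≤ qForm α c R h :=
        csInf_le hbdd ⟨R, h, V, hR, hh, fun j => (hin j).trans_lt hθlt, rfl⟩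
      have h2 : (∑ j, α j * qInt (c j) R (qh R h)) - E / (2 * L ^ 2) ≤
          ∑ j, α j * P157.Par.Phi (fun u => exp (fL (c j) L u)) R (lin R) (qh R h) := by
        rw [hE, ← sum_sub_distrib]
        refine sum_le_sum fun j _ => ?_
        rw [← mul_sub]
        refine mul_le_mul_of_nonneg_left ?_ (hα j).le
        exact (sub_le_sub_left (hκ j) _).trans ((hd j).phi_ge (by positivity) hL fun u => fL_ge_quartic hL u)
      rw [qForm_eq] at h1
      linarith [min_le_left ε 1]
    · push Not at hin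
      obtain ⟨i, hi⟩ := hin
      obtain ⟨q', hq', ht', hle, he⟩ := raise_max hR hq ht hθp hi
      have d : Dm (c i) θ R q' := ⟨hR, hq', ht', hθp.le, hθlt, he.le⟩
      have hmono := phi_mono (cut_sm (c i) hL) hR hq hq' (ht.trans ht'.symm) fun k hk _ =>
        sum_nonneg fun l _ => mul_nonneg (hk l) (sub_nonneg.2 (hle l))
      have h3 : -log (1 - θ) / 2 - |c i| * (3 / (1 - θ) ^ 4) / (2 * L ^ 2) ≤
          P157.Par.Phi (fun u => exp (fL (c i) L u)) R (lin R) (qh R h) :=
        ((sub_le_sub (d.qInt_log hθp he) (hκ i)).trans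
          (d.phi_ge (by positivity) hL fun u => fL_ge_quartic hL u)).trans hmono
      have h4 : α i * (-log (1 - θ) / 2) - (∑ j, α j * |c j| / 2) - E / (2 * L ^ 2) ≤
          ∑ j, α j * P157.Par.Phi (fun u => exp (fL (c j) L u)) R (lin R) (qh R h) := by
        rw [hE, sub_sub, ← sum_add_distrib, ← add_sum_erase _ _ (mem_univ i),
          ← add_sum_erase (f := fun j => α j * P157.Par.Phi (fun u => exp (fL (c j) L u)) R (lin R) (qh R h)) _
            (mem_univ i)]
        have hrest : -(∑ j ∈ univ.erase i,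
            (α j * |c j| / 2 + α j * (|c j| * (3 / (1 - θ) ^ 4) / (2 * L ^ 2)))) ≤
            ∑ j ∈ univ.erase i, α j * P157.Par.Phi (fun u => exp (fL (c j) L u)) R (lin R) (qh R h) := by
          rw [← sum_neg_distrib]
          refine sum_le_sum fun j _ => ?_
          have h5 := mul_le_mul_of_nonneg_left (phi_cut_ge (c := c j) hR hq ht hL) (hα j).le
          linarith [mul_nonneg (hα j).le (herr j)]
        have h6 := mul_le_mul_of_nonneg_left h3 (hα i).le
        linarith [mul_nonneg (hα i).le (abs_nonneg (c i))]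
      have h7 := hθ i θ (hθle i) hθlt
      simp only [M] at h7
      linarith [spinH_nonneg hR hh, min_le_right ε 1]
  · obtain ⟨hq, ht⟩ := qh_prof hR hh
    have hev : ∀ j, ∀ᶠ L in atTop, ∀ _ : 1 ≤ L, P157.Par.Phi (fun u => exp (fL (c j) L u)) R (lin R) (qh R h) ≤
        qInt (c j) R (qh R h) + ε / (∑ i, α i + 1) := fun j => by
      have hpos : 0 < ε / (∑ i, α i + 1) := div_pos hε (by linarith [sum_nonneg fun i (_ : i ∈ univ) => (hα i).le])
      have d := dm_of_lt hR hq ht (hD j)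
      rcases le_total 0 (c j) with hc | hc
      · exact .of_forall fun L hL => (d.phi_le hL hc).trans (le_add_of_nonneg_right hpos.le)
      · exact ((d.phi_tendsto hc).eventually (eventually_le_nhds (lt_add_of_pos_right _ hpos))).mono
          fun L hL _ => hL
    filter_upwards [eventually_all.2 hev] with L hLj hL
    rw [jval_cut α c hα hA hL, qForm_eq]
    have hA0 : 0 ≤ ∑ i, α i := sum_nonneg fun i _ => (hα i).le
    have h1 := sum_le_sum fun j (_ : j ∈ univ) => mul_le_mul_of_nonneg_left (hLj j hL) (hα j).le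
    simp only [mul_add, sum_add_distrib, ← sum_mul] at h1
    have h2 : (∑ i, α i) * (ε / (∑ i, α i + 1)) ≤ ε := by
      rw [mul_div_assoc', div_le_iff₀ (by linarith)]; nlinarith
    linarith

end Vale.Agent.P166.Hopf
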