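import Vale.Agent.P166.Hopf.Defs
import Vale.Agent.P150.RSStrict

/-! The quadratic potential at every strength with `c D(0) < 1`: closed form of the nested mean, and the
nested mean of the cut between explicit bounds. -/

open MeasureTheory ProbabilityTheory Filter Real Finset
open scoped Topology
open Vale.Agent.P157.Par (Prof Vn Adm adm_exp Vn_adm ex_lin)
open Vale.Agent.P168.MP (lin)

noncomputable section

namespace Vale.Agent.P166.Hopf

open Par (qf dn bn lA bn_zero bn_succ gauss_tilt fL fL_eq fL_sign cut_sm)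
open Par.Multi (xiD xiD_mem xiD_step xiD_node xiD_low q_mono continuous_xiD)

variable {R : ℕ} {q : ℕ → ℝ} {c θ L : ℝ}

/-- a profile inside the domain of the quadratic functional -/
structure Dm (c θ : ℝ) (R : ℕ) (q : ℕ → ℝ) : Prop where
  hR : 1 ≤ R
  hq : Prof R q 1
  top : q R = 1
  h0 : 0 ≤ θ
  h1 : θ < 1
  hD : c * xiD R q 0 ≤ θ

lemma xiD_anti (R : ℕ) (q : ℕ → ℝ) {s t : ℝ} (h : s ≤ t) : xiD R q t ≤ xiD R q s :=
  div_le_div_of_nonneg_right (sum_le_sum fun _ _ => sub_le_sub_left (max_le_max h le_rfl) _) (Nat.cast_nonneg R)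

/-- half the integral of `c/(1 - c D)` -/
def qInt (c : ℝ) (R : ℕ) (q : ℕ → ℝ) : ℝ := 1 / 2 * ∫ t in (0:ℝ)..1, c / (1 - c * xiD R q t)

/-- the nested mean of the quadratic potential -/
def Qv (c : ℝ) (R : ℕ) (q : ℕ → ℝ) (k : ℕ) (y : ℝ) : ℝ :=
  exp (lA c R (lin R) q k + c * y ^ 2 / (2 * bn c R (lin R) q k))

/-- the variance gathered below the top -/
def Sk (c : ℝ) (R : ℕ) (q : ℕ → ℝ) (k : ℕ) : ℝ :=
  ∑ i ∈ range k, dn R q i / (bn c R (lin R) q i * bn c R (lin R) q (i + 1))

/-- the tilted mean of the fourth power -/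
def Pk (c : ℝ) (R : ℕ) (q : ℕ → ℝ) (k : ℕ) (y : ℝ) : ℝ :=
  y ^ 4 / bn c R (lin R) q k ^ 4 + 6 * Sk c R q k * y ^ 2 / bn c R (lin R) q k ^ 2 + 3 * Sk c R q k ^ 2

section dom
variable (h : Dm c θ R q)
include h

lemma Dm.den {s : ℝ} (s0 : 0 ≤ s) (s1 : s ≤ 1) : 1 - θ ≤ 1 - c * xiD R q s := by
  refine sub_le_sub_left ?_ 1
  rcases le_total 0 c with hc | hc
  · exact (mul_le_mul_of_nonneg_left (xiD_anti R q s0) hc).trans h.hD
  · exact (mul_nonpos_of_nonpos_of_nonneg hc (xiD_mem h.hq s0 s1).1).trans h.h0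

lemma Dm.den_pos {s : ℝ} (s0 : 0 ≤ s) (s1 : s ≤ 1) : 0 < 1 - c * xiD R q s :=
  lt_of_lt_of_le (sub_pos.2 h.h1) (h.den s0 s1)

lemma Dm.bn_ge {k : ℕ} (hk : k ≤ R) : 1 - θ ≤ bn c R (lin R) q k := by
  obtain ⟨a, b⟩ := h.hq.upper (show R - k ≤ R by omega)
  rw [bn, ← xiD_node h.hq h.top k hk]
  exact h.den a b

lemma Dm.bn_pos {k : ℕ} (hk : k ≤ R) : 0 < bn c R (lin R) q k :=
  lt_of_lt_of_le (sub_pos.2 h.h1) (h.bn_ge hk)

lemma Dm.dn_nonneg {k : ℕ} (hk : k < R) : 0 ≤ dn R q k :=
  sub_nonneg.2 (q_mono h.hq (by omega) (by omega))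

omit h in
lemma Qv_pos (k : ℕ) (y : ℝ) : 0 < Qv c R q k y := exp_pos _

omit h in
lemma qf_eq_Qv (y : ℝ) : exp (qf c y) = Qv c R q 0 y := by simp [Qv, qf, lA, bn_zero]

/-- one step -/
lemma Dm.step {k : ℕ} (hk : k < R) (G : ℝ → ℝ) (y : ℝ) :
    ∫ z, Qv c R q k (y + √(dn R q k) * z) ^ lin R (R - k) * G (y + √(dn R q k) * z) ∂gaussianReal 0 1 =
      Qv c R q (k + 1) y ^ lin R (R - k) * ∫ w, G (bn c R (lin R) q k / bn c R (lin R) q (k + 1) * y +
        √(dn R q k * (bn c R (lin R) q k / bn c R (lin R) q (k + 1))) * w) ∂gaussianReal 0 1 := by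
  simp only [Qv]
  set b := bn c R (lin R) q k with hb
  set b' := bn c R (lin R) q (k + 1) with hb'
  set μ := lin R (R - k) with hμ
  set d := dn R q k with hd
  set s := √d
  have hb0 : 0 < b := h.bn_pos hk.le
  have hb1 : 0 < b' := h.bn_pos hk
  have hμ0 : 0 < μ := ((ex_lin R).mem hk).1
  have hd0 : 0 ≤ d := h.dn_nonneg hk
  have hss : s * s = d := mul_self_sqrt hd0
  set a := μ * c / b
  have h1 : 1 - a * d = b' / b := by
    simp only [a, hb', bn_succ, ← hb, ← hμ, ← hd]; field_simp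
  have hlt : a * d < 1 := by have := div_pos hb1 hb0; linarith
  have e1 : ∀ z, exp (lA c R (lin R) q k + c * (y + s * z) ^ 2 / (2 * b)) ^ μ =
      exp (μ * lA c R (lin R) q k + a * y ^ 2 / 2) * exp (a * d * z ^ 2 / 2 + a * y * s * z) := fun z => by
    rw [← exp_mul, ← exp_add]
    congr 1
    rw [show (y + s * z) ^ 2 = y ^ 2 + 2 * y * s * z + (s * s) * z ^ 2 by ring, hss]
    simp only [a]
    field_simp
    ring
  simp only [e1, mul_assoc, integral_const_mul]
  simp only [← mul_assoc]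
  rw [gauss_tilt hlt, h1]
  have e2 : ∀ w, y + s * (a * y * s / (b' / b) + (√(b' / b))⁻¹ * w) =
      b / b' * y + √(d * (b / b')) * w := fun w => by
    rw [sqrt_mul hd0, show b / b' = (b' / b)⁻¹ by rw [inv_div], sqrt_inv]
    have ha : a * d = 1 - b' / b := by linarith
    have : y + s * (a * y * s / (b' / b) + (√(b' / b))⁻¹ * w) =
        y + (a * d) * y / (b' / b) + s * (√(b' / b))⁻¹ * w := by rw [← hss]; ring
    rw [this, ha]
    field_simp
    ring
  simp only [e2, ← mul_assoc]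
  congr 1
  have e3 : (√(b' / b))⁻¹ = exp ((log b - log b') / 2) := by
    rw [← log_div hb0.ne' hb1.ne', ← log_sqrt (by positivity), exp_log (sqrt_pos.2 (by positivity)),
      ← sqrt_inv, inv_div]
  rw [e3, ← exp_add, ← exp_add, ← exp_mul]
  congr 1
  have ha : a * d = 1 - b' / b := by linarith
  rw [show (a * y * s) ^ 2 = a * (a * d) * y ^ 2 by rw [← hss]; ring, ha]
  simp only [lA, sum_range_succ, ← hb, ← hb', ← hμ, a]
  field_simp
  ring

lemma Dm.step_one {k : ℕ} (hk : k < R) (y : ℝ) :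
    Integrable (fun z => Qv c R q k (y + √(dn R q k) * z) ^ lin R (R - k)) (gaussianReal 0 1) ∧
      ∫ z, Qv c R q k (y + √(dn R q k) * z) ^ lin R (R - k) ∂gaussianReal 0 1 =
        Qv c R q (k + 1) y ^ lin R (R - k) := by
  have e := h.step hk (fun _ => 1) y
  simp only [mul_one, integral_const, probReal_univ, one_smul] at e
  refine ⟨Integrable.of_integral_ne_zero ?_, e⟩
  rw [e]
  exact (rpow_pos_of_pos (exp_pos _) _).ne'

/-- the closed form of the value -/
lemma Dm.qInt_eq : qInt c R q = lA c R (lin R) q R + c * q 0 / (2 * bn c R (lin R) q R) := by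
  have z0 : (0:ℝ) ∈ Set.Icc (0:ℝ) 1 := Set.left_mem_Icc.2 zero_le_one
  have qi : ∀ l, l ≤ R → q l ∈ Set.Icc (0:ℝ) 1 := fun l hl => h.hq.upper hl
  have ii : ∀ u v, u ∈ Set.Icc (0:ℝ) 1 → v ∈ Set.Icc (0:ℝ) 1 →
      IntervalIntegrable (fun s => c / (1 - c * xiD R q s)) volume u v := fun u v hu hv =>
    ContinuousOn.intervalIntegrable (continuousOn_const.div
      (continuous_const.sub (continuous_const.mul (continuous_xiD R q))).continuousOn fun s hs =>
        (h.den_pos (Set.uIcc_subset_Icc hu hv hs).1 (Set.uIcc_subset_Icc hu hv hs).2).ne')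
  have piece : ∀ k, k < R → ∫ s in q (R - (k + 1))..q (R - k), c / (1 - c * xiD R q s) =
      (log (bn c R (lin R) q k) - log (bn c R (lin R) q (k + 1))) / lin R (R - k) := fun k hk => by
    set m := lin R (R - k)
    set b := bn c R (lin R) q k
    set u := q (R - k)
    have hm : 0 < m := ((ex_lin R).mem hk).1
    have hle : q (R - (k + 1)) ≤ u := q_mono h.hq (by omega) (by omega)
    have e : ∀ s ∈ Set.Icc (q (R - (k + 1))) u, 1 - c * xiD R q s = b - c * m * (u - s) := fun s hs => by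
      rw [xiD_step h.hq hk hs.1 hs.2, xiD_node h.hq h.top k hk.le]
      simp only [b, bn, m, u]
      ring
    have pos : ∀ s ∈ Set.Icc (q (R - (k + 1))) u, 0 < b - c * m * (u - s) := fun s hs => by
      rw [← e s hs]
      exact h.den_pos ((qi _ (by omega)).1.trans hs.1) (hs.2.trans (qi _ (by omega)).2)
    rw [intervalIntegral.integral_congr (g := fun s => c / (b - c * m * (u - s))) fun s hs => by
      rw [Set.uIcc_of_le hle] at hs; simp only [e s hs]]
    rw [intervalIntegral.integral_eq_sub_of_hasDerivAt (f := fun s => log (b - c * m * (u - s)) / m)]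
    · have e2 : b - c * m * (u - q (R - (k + 1))) = bn c R (lin R) q (k + 1) := by
        rw [bn_succ]; simp only [b, m, u, dn]; ring
      simp only [sub_self, mul_zero, sub_zero, e2]
      ring
    · intro s hs
      rw [Set.uIcc_of_le hle] at hs
      exact (((((hasDerivAt_id' s).const_sub u).const_mul (c * m)).const_sub b).log (pos s hs).ne'
        |>.div_const m).congr_deriv (by have := (pos s hs).ne'; field_simp)
    · refine ContinuousOn.intervalIntegrable (continuousOn_const.div (by fun_prop) fun s hs => ?_)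
      rw [Set.uIcc_of_le hle] at hs
      exact (pos s hs).ne'
  have key : ∀ k, k ≤ R → ∫ s in q (R - k)..q R, c / (1 - c * xiD R q s) = 2 * lA c R (lin R) q k := by
    intro k
    induction k with
    | zero => simp [lA]
    | succ k ih =>
      intro hk
      rw [← intervalIntegral.integral_add_adjacent_intervals (ii _ _ (qi _ (by omega)) (qi (R - k) (by omega)))
        (ii _ _ (qi (R - k) (by omega)) (qi R le_rfl)), piece k (by omega), ih (by omega)]
      simp only [lA, sum_range_succ]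
      have := ((ex_lin R).mem (show k < R by omega)).1.ne'
      field_simp
      ring
  have e := key R le_rfl
  rw [Nat.sub_self, h.top] at e
  rw [qInt, ← intervalIntegral.integral_add_adjacent_intervals (ii _ _ z0 (qi 0 (Nat.zero_le R)))
      (ii _ _ (qi 0 (Nat.zero_le R)) (Set.right_mem_Icc.2 zero_le_one)),
    e, intervalIntegral.integral_congr (g := fun _ => c / bn c R (lin R) q R) fun s hs => by
      rw [Set.uIcc_of_le h.hq.zero] at hs
      have e0 := xiD_node h.hq h.top R le_rfl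
      rw [Nat.sub_self] at e0
      simp only [xiD_low h.hq hs.2, e0]
      rfl]
  simp only [intervalIntegral.integral_const, smul_eq_mul, sub_zero]
  ring

/-! ### the fourth moment -/

omit h in
lemma quartic_gauss (a b e : ℝ) (r τ : ℝ) :
    Integrable (fun w => a * (r + τ * w) ^ 4 + b * (r + τ * w) ^ 2 + e) (gaussianReal 0 1) ∧
      ∫ w, (a * (r + τ * w) ^ 4 + b * (r + τ * w) ^ 2 + e) ∂gaussianReal 0 1 =
        a * (r ^ 4 + 6 * r ^ 2 * τ ^ 2 + 3 * τ ^ 4) + b * (r ^ 2 + τ ^ 2) + e := by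
  obtain ⟨m2, m4, -⟩ := P150.moment_even
  have m1 : ∫ w, w ∂gaussianReal 0 1 = 0 := Par.integral_id_std
  have m3 : ∫ w, w ^ 3 ∂gaussianReal 0 1 = 0 := by
    have := P150.moment_step 1
    simp only [pow_one, m1, mul_zero] at this
    simpa using this
  have e0 : (fun w => a * (r + τ * w) ^ 4 + b * (r + τ * w) ^ 2 + e) = fun w => (a * τ ^ 4) * w ^ 4 +
      (4 * a * r * τ ^ 3) * w ^ 3 + (6 * a * r ^ 2 * τ ^ 2 + b * τ ^ 2) * w ^ 2 +
      (4 * a * r ^ 3 * τ + 2 * b * r * τ) * w + (a * r ^ 4 + b * r ^ 2 + e) := funext fun w => by ring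
  have i4 := (P150.integrable_pow 4).const_mul (a * τ ^ 4)
  have i3 := (P150.integrable_pow 3).const_mul (4 * a * r * τ ^ 3)
  have i2 := (P150.integrable_pow 2).const_mul (6 * a * r ^ 2 * τ ^ 2 + b * τ ^ 2)
  have i1 := Par.integrable_id_std.const_mul (4 * a * r ^ 3 * τ + 2 * b * r * τ)
  constructor
  · rw [e0]
    exact (((i4.add i3).add i2).add i1).add (integrable_const _)
  · rw [e0]
    rw [integral_add (((i4.fun_add i3).fun_add i2).fun_add i1) (integrable_const _),
      integral_add ((i4.fun_add i3).fun_add i2) i1, integral_add (i4.fun_add i3) i2, integral_add i4 i3]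
    rw [integral_const_mul (4 * a * r ^ 3 * τ + 2 * b * r * τ) fun w : ℝ => w, m1]
    simp only [integral_const_mul, m2, m3, m4, integral_const, probReal_univ, one_smul]
    ring

omit h in
lemma Pk_form (k : ℕ) (y : ℝ) : Pk c R q k y = 1 / bn c R (lin R) q k ^ 4 * y ^ 4 +
    6 * Sk c R q k / bn c R (lin R) q k ^ 2 * y ^ 2 + 3 * Sk c R q k ^ 2 := by rw [Pk]; ring

lemma Dm.Pk_step {k : ℕ} (hk : k < R) (y : ℝ) :
    Integrable (fun w => Pk c R q k (bn c R (lin R) q k / bn c R (lin R) q (k + 1) * y +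
        √(dn R q k * (bn c R (lin R) q k / bn c R (lin R) q (k + 1))) * w)) (gaussianReal 0 1) ∧
      ∫ w, Pk c R q k (bn c R (lin R) q k / bn c R (lin R) q (k + 1) * y +
        √(dn R q k * (bn c R (lin R) q k / bn c R (lin R) q (k + 1))) * w) ∂gaussianReal 0 1 =
          Pk c R q (k + 1) y := by
  have hb := h.bn_pos hk.le
  have hb' := h.bn_pos (show k + 1 ≤ R from hk)
  have hd := h.dn_nonneg hk
  simp only [Pk_form]
  obtain ⟨hi, he⟩ := quartic_gauss (1 / bn c R (lin R) q k ^ 4) (6 * Sk c R q k / bn c R (lin R) q k ^ 2)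
    (3 * Sk c R q k ^ 2) (bn c R (lin R) q k / bn c R (lin R) q (k + 1) * y)
    √(dn R q k * (bn c R (lin R) q k / bn c R (lin R) q (k + 1)))
  refine ⟨hi, he.trans ?_⟩
  have hs := sq_sqrt (mul_nonneg hd (div_pos hb hb').le)
  rw [show √(dn R q k * (bn c R (lin R) q k / bn c R (lin R) q (k + 1))) ^ 4 =
    (√(dn R q k * (bn c R (lin R) q k / bn c R (lin R) q (k + 1))) ^ 2) ^ 2 by ring, hs]
  simp only [Sk, sum_range_succ]
  field_simp
  ring

omit h in
lemma sum_dn_top : ∀ k, k ≤ R → ∑ i ∈ range k, dn R q i = q R - q (R - k)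
  | 0, _ => by simp
  | k + 1, hk => by rw [sum_range_succ, sum_dn_top k (by omega), dn]; ring

/-- the mean of the fourth power at the root -/
lemma Dm.Pk_root : Integrable (fun z => Pk c R q R (√(q 0) * z)) (gaussianReal 0 1) ∧
    ∫ z, Pk c R q R (√(q 0) * z) ∂gaussianReal 0 1 ≤ 3 / (1 - θ) ^ 4 := by
  obtain ⟨hi, he⟩ := quartic_gauss (1 / bn c R (lin R) q R ^ 4) (6 * Sk c R q R / bn c R (lin R) q R ^ 2)
    (3 * Sk c R q R ^ 2) 0 √(q 0)
  simp only [zero_add] at hi he
  simp only [Pk_form]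
  refine ⟨hi, le_of_eq_of_le he ?_⟩
  set δ := 1 - θ
  have hδ : 0 < δ := sub_pos.2 h.h1
  have hb := h.bn_ge le_rfl
  have h1 : q 0 / bn c R (lin R) q R ^ 2 ≤ q 0 / δ ^ 2 :=
    div_le_div_of_nonneg_left h.hq.zero (by positivity) (pow_le_pow_left₀ hδ.le hb 2)
  have h2 : Sk c R q R ≤ (1 - q 0) / δ ^ 2 := by
    have e := sum_dn_top (q := q) R le_rfl
    rw [Nat.sub_self, h.top] at e
    rw [← e, sum_div]
    refine sum_le_sum fun i hi => ?_
    rw [mem_range] at hi
    exact div_le_div_of_nonneg_left (h.dn_nonneg hi) (by positivity)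
      (by rw [sq]; exact mul_le_mul (h.bn_ge hi.le) (h.bn_ge hi) hδ.le (h.bn_pos hi.le).le)
  have h0 : 0 ≤ q 0 / bn c R (lin R) q R ^ 2 + Sk c R q R :=
    add_nonneg (div_nonneg h.hq.zero (sq_nonneg _)) (sum_nonneg fun i hi =>
      div_nonneg (h.dn_nonneg (mem_range.1 hi))
        (mul_pos (h.bn_pos (mem_range.1 hi).le) (h.bn_pos (mem_range.1 hi))).le)
  have e2 : √(q 0) ^ 4 = q 0 ^ 2 := by rw [show √(q 0) ^ 4 = (√(q 0) ^ 2) ^ 2 by ring, sq_sqrt h.hq.zero]
  have hbe := (h.bn_pos le_rfl).ne'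
  calc _ = 3 * (q 0 / bn c R (lin R) q R ^ 2 + Sk c R q R) ^ 2 := by
        rw [sq_sqrt h.hq.zero, e2]; field_simp; ring
    _ ≤ 3 * (1 / δ ^ 2) ^ 2 := by
        refine mul_le_mul_of_nonneg_left (pow_le_pow_left₀ h0 ?_ 2) (by norm_num)
        calc _ ≤ q 0 / δ ^ 2 + (1 - q 0) / δ ^ 2 := add_le_add h1 h2
          _ = _ := by ring
    _ = _ := by field_simp

/-! ### the cut -/

lemma Dm.Vn_ge {κ : ℝ} (hκ : 0 ≤ κ) (hL : 1 ≤ L) (hf : ∀ u, qf c u - κ * u ^ 4 ≤ fL c L u) :
    ∀ k, k ≤ R → ∀ y, Qv c R q k y * exp (-(κ * Pk c R q k y)) ≤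
      Vn (fun u => exp (fL c L u)) R (lin R) q k y
  | 0, _, y => by
    rw [← qf_eq_Qv (c := c) (R := R) (q := q), ← exp_add]
    exact exp_le_exp.2 (by simp only [Pk, Sk, bn_zero, range_zero, sum_empty]; have := hf y; ring_nf at this ⊢; linarith)
  | k + 1, hk, y => by
    have he := adm_exp (cut_sm c hL)
    obtain ⟨A', hV⟩ := Vn_adm he (ex_lin R) q k (show k ≤ R by omega)
    obtain ⟨hμ, hμ1⟩ := (ex_lin R).mem (show k < R by omega)
    obtain ⟨pi, pe⟩ := h.Pk_step (show k < R by omega) y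
    set μ := lin R (R - k)
    set P := fun u => exp (-(μ * κ * Pk c R q k u))
    have hpos : ∀ u, 0 ≤ Qv c R q k u ^ μ := fun u => rpow_nonneg (exp_pos _).le _
    have h1 : ∫ z, Qv c R q k (y + √(dn R q k) * z) ^ μ * P (y + √(dn R q k) * z) ∂gaussianReal 0 1 ≤
        ∫ z, Vn (fun u => exp (fL c L u)) R (lin R) q k (y + √(dn R q k) * z) ^ μ ∂gaussianReal 0 1 := by
      refine integral_mono_of_nonneg (.of_forall fun z => mul_nonneg (hpos _) (exp_pos _).le)
        ((hV.rpow hμ.le hμ1).eg.int _ y) (.of_forall fun z => ?_)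
      set x := y + √(dn R q k) * z
      have := rpow_le_rpow (mul_nonneg (Qv_pos k x).le (exp_pos _).le)
        (Dm.Vn_ge hκ hL hf k (by omega) x) hμ.le
      rw [mul_rpow (Qv_pos k x).le (exp_pos _).le, ← exp_mul] at this
      refine le_trans (le_of_eq ?_) this
      show _ * exp (-(μ * κ * Pk c R q k x)) = _
      rw [show -(μ * κ * Pk c R q k x) = -(κ * Pk c R q k x) * μ by ring]
    rw [h.step (show k < R by omega) P y] at h1
    have hP0 : ∀ u, 0 ≤ Pk c R q k u := fun u => by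
      have hS : 0 ≤ Sk c R q k := sum_nonneg fun i hi => by
        rw [mem_range] at hi
        exact div_nonneg (h.dn_nonneg (by omega)) (mul_pos (h.bn_pos (by omega)) (h.bn_pos (by omega))).le
      unfold Pk; positivity
    set r := bn c R (lin R) q k / bn c R (lin R) q (k + 1)
    set τ := √(dn R q k * r)
    have hi : Integrable (fun w => -(μ * κ * Pk c R q k (r * y + τ * w))) (gaussianReal 0 1) :=
      (pi.const_mul (μ * κ)).neg
    have hj : exp (-(μ * κ * Pk c R q (k + 1) y)) ≤ ∫ w, P (r * y + τ * w) ∂gaussianReal 0 1 := by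
      rw [← pe, ← integral_const_mul, ← integral_neg]
      refine convexOn_exp.map_integral_le continuous_exp.continuousOn isClosed_univ
        (.of_forall fun _ => Set.mem_univ _) hi (Integrable.of_bound
          (continuous_exp.comp_aestronglyMeasurable hi.aestronglyMeasurable) 1 (.of_forall fun w => ?_))
      rw [Function.comp_apply, norm_of_nonneg (exp_pos _).le]
      exact exp_le_one_iff.2 (neg_nonpos.2 (mul_nonneg (mul_nonneg hμ.le hκ) (hP0 _)))
    have h2 := (mul_le_mul_of_nonneg_left hj (rpow_nonneg (exp_pos _).le μ)).trans h1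
    rw [show exp (-(μ * κ * Pk c R q (k + 1) y)) = exp (-(κ * Pk c R q (k + 1) y)) ^ μ by
      rw [← exp_mul]; congr 1; ring, ← mul_rpow (exp_pos _).le (exp_pos _).le] at h2
    refine le_trans (le_of_eq ?_) (rpow_le_rpow (rpow_nonneg (mul_nonneg (exp_pos _).le (exp_pos _).le) _) h2
      (one_div_nonneg.2 hμ.le))
    rw [one_div, rpow_rpow_inv (mul_nonneg (exp_pos _).le (exp_pos _).le) hμ.ne']
    rfl

lemma Dm.Vn_le (hL : 1 ≤ L) (hc : 0 ≤ c) : ∀ k, k ≤ R → ∀ y,
    Vn (fun u => exp (fL c L u)) R (lin R) q k y ≤ Qv c R q k y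
  | 0, _, y => by
    rw [← qf_eq_Qv]
    exact exp_le_exp.2 (((fL_sign (by linarith) y).1 hc).2)
  | k + 1, hk, y => by
    obtain ⟨A', hV⟩ := Vn_adm (adm_exp (cut_sm c hL)) (ex_lin R) q k (show k ≤ R by omega)
    obtain ⟨hμ, hμ1⟩ := (ex_lin R).mem (show k < R by omega)
    obtain ⟨qi, qe⟩ := h.step_one (show k < R by omega) y
    have h1 := integral_mono ((hV.rpow hμ.le hμ1).eg.int √(dn R q k) y) qi fun z =>
      rpow_le_rpow (hV.a_pos.le.trans (hV.lb _)) (Dm.Vn_le hL hc k (by omega) _) hμ.le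
    rw [qe] at h1
    refine (rpow_le_rpow (integral_nonneg fun z => rpow_nonneg (hV.a_pos.le.trans (hV.lb _)) _) h1
      (one_div_nonneg.2 hμ.le)).trans_eq ?_
    rw [one_div, rpow_rpow_inv (Qv_pos _ _).le hμ.ne']

omit h in
lemma Vn_le_one (hL : 1 ≤ L) (hc : c ≤ 0) (q : ℕ → ℝ) : ∀ k, k ≤ R → ∀ y,
    Vn (fun u => exp (fL c L u)) R (lin R) q k y ≤ 1
  | 0, _, y => exp_le_one_iff.2 ((fL_sign (by linarith) y).2 hc).1
  | k + 1, hk, y => by
    obtain ⟨A', hV⟩ := Vn_adm (adm_exp (cut_sm c hL)) (ex_lin R) q k (show k ≤ R by omega)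
    obtain ⟨hμ, hμ1⟩ := (ex_lin R).mem (show k < R by omega)
    have h1 := integral_mono ((hV.rpow hμ.le hμ1).eg.int √(dn R q k) y) (integrable_const 1) fun z =>
      rpow_le_one (hV.a_pos.le.trans (hV.lb _)) (Vn_le_one hL hc q k (by omega) _) hμ.le
    rw [integral_const, probReal_univ, one_smul] at h1
    exact rpow_le_one (integral_nonneg fun z => rpow_nonneg (hV.a_pos.le.trans (hV.lb _)) _) h1
      (one_div_nonneg.2 hμ.le)

omit h in
lemma integrable_log_Vn {e : ℝ → ℝ} {a A D' : ℝ} (he : Adm e a A D') (q : ℕ → ℝ) :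
    Integrable (fun z => log (Vn e R (lin R) q R (√(q 0) * z))) (gaussianReal 0 1) := by
  obtain ⟨A', h⟩ := Vn_adm he (ex_lin R) q R le_rfl
  have hA : 0 < A' := zero_lt_one.trans_le h.A_ge
  refine Integrable.mono' (g := fun z : ℝ => |log a| + |log A'| + D' * (√(q 0) * |z|))
    ((integrable_const _).add ((Par.integrable_id_std.abs.const_mul _).const_mul _))
    ((h.cont.comp (continuous_const.mul continuous_id)).log fun z =>
      (he.a_pos.trans_le (h.lb _)).ne').aestronglyMeasurable (.of_forall fun z => ?_)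
  have h1 := log_le_log he.a_pos (h.lb (√(q 0) * z))
  have h2 := log_le_log (he.a_pos.trans_le (h.lb _)) (h.ub (√(q 0) * z))
  rw [log_mul hA.ne' (exp_pos _).ne', log_exp, abs_mul, abs_of_nonneg (sqrt_nonneg _)] at h2
  have h3 : 0 ≤ D' * (√(q 0) * |z|) := mul_nonneg he.D_nonneg (by positivity)
  rw [norm_eq_abs, abs_le]
  constructor <;> linarith [neg_abs_le (log a), le_abs_self (log A'), abs_nonneg (log a), abs_nonneg (log A')]

lemma Dm.log_Qv : Integrable (fun z => log (Qv c R q R (√(q 0) * z))) (gaussianReal 0 1) ∧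
    ∫ z, log (Qv c R q R (√(q 0) * z)) ∂gaussianReal 0 1 = qInt c R q := by
  have e : (fun z => log (Qv c R q R (√(q 0) * z))) = fun z =>
      lA c R (lin R) q R + c * q 0 / (2 * bn c R (lin R) q R) * z ^ 2 := funext fun z => by
    rw [Qv, log_exp, mul_pow, sq_sqrt h.hq.zero]; ring
  have i2 := (P150.integrable_pow 2).const_mul (c * q 0 / (2 * bn c R (lin R) q R))
  rw [e]
  refine ⟨(integrable_const _).fun_add i2, ?_⟩
  rw [integral_add (integrable_const _) i2, integral_const_mul, h.qInt_eq, Par.integral_sq_std]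
  simp

/-- the value of the cut from below -/
theorem Dm.phi_ge {κ : ℝ} (hκ : 0 ≤ κ) (hL : 1 ≤ L) (hf : ∀ u, qf c u - κ * u ^ 4 ≤ fL c L u) :
    qInt c R q - κ * (3 / (1 - θ) ^ 4) ≤ P157.Par.Phi (fun u => exp (fL c L u)) R (lin R) q := by
  obtain ⟨li, le'⟩ := h.log_Qv
  obtain ⟨pi, pe⟩ := h.Pk_root
  have h1 := integral_mono (f := fun z => log (Qv c R q R (√(q 0) * z)) - κ * Pk c R q R (√(q 0) * z))
    (li.sub (pi.const_mul κ)) (integrable_log_Vn (adm_exp (cut_sm c hL)) q) fun z => by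
    have := log_le_log (mul_pos (Qv_pos R _) (exp_pos _)) (h.Vn_ge hκ hL hf R le_rfl (√(q 0) * z))
    rw [log_mul (Qv_pos R _).ne' (exp_pos _).ne', log_exp] at this
    show _ - _ ≤ _
    linarith
  rw [integral_sub li (pi.const_mul κ), integral_const_mul, le'] at h1
  unfold P157.Par.Phi
  linarith [mul_le_mul_of_nonneg_left pe hκ]

/-- the value of the cut from above -/
theorem Dm.phi_le (hL : 1 ≤ L) (hc : 0 ≤ c) :
    P157.Par.Phi (fun u => exp (fL c L u)) R (lin R) q ≤ qInt c R q := by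
  obtain ⟨li, le'⟩ := h.log_Qv
  obtain ⟨A', hV⟩ := Vn_adm (adm_exp (cut_sm c hL)) (ex_lin R) q R le_rfl
  rw [← le']
  exact integral_mono (integrable_log_Vn (adm_exp (cut_sm c hL)) q) li fun z =>
    log_le_log (hV.a_pos.trans_le (hV.lb _)) (h.Vn_le hL hc R le_rfl _)

/-- convergence at a fixed path -/
theorem Dm.phi_tendsto (hc : c ≤ 0) :
    Tendsto (fun L => P157.Par.Phi (fun u => exp (fL c L u)) R (lin R) q) atTop (𝓝 (qInt c R q)) := by
  have hlo : ∀ L, 1 ≤ L → ∀ k, k ≤ R → ∀ y, Qv c R q k y ≤ Vn (fun u => exp (fL c L u)) R (lin R) q k y :=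
    fun L hL k hk y => by
      simpa using h.Vn_ge le_rfl hL (fun u => by simpa using ((fL_sign (show 0 < L by linarith) u).2 hc).2) k hk y
  have cv : ∀ k, k ≤ R → ∀ y,
      Tendsto (fun L => Vn (fun u => exp (fL c L u)) R (lin R) q k y) atTop (𝓝 (Qv c R q k y)) := by
    intro k
    induction k with
    | zero =>
      intro _ y
      refine tendsto_const_nhds.congr' ?_
      filter_upwards [eventually_ge_atTop (max 1 |y|)] with L hL
      rw [← qf_eq_Qv]
      show exp (qf c y) = exp (fL c L y)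
      rw [fL_eq (by linarith [le_max_left 1 |y|]) ((le_max_right _ _).trans hL)]
    | succ k ih =>
      intro hk y
      obtain ⟨hμ, hμ1⟩ := (ex_lin R).mem (show k < R by omega)
      obtain ⟨-, qe⟩ := h.step_one (show k < R by omega) y
      have hev : ∀ᶠ L : ℝ in atTop, 1 ≤ L := eventually_ge_atTop 1
      have hint := tendsto_integral_filter_of_dominated_convergence (μ := gaussianReal 0 1) (fun _ => (1:ℝ))
        (F := fun L z => Vn (fun u => exp (fL c L u)) R (lin R) q k (y + √(dn R q k) * z) ^ lin R (R - k))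
        (hev.mono fun L hL => by
          obtain ⟨A', hV⟩ := Vn_adm (adm_exp (cut_sm c hL)) (ex_lin R) q k (show k ≤ R by omega)
          exact ((hV.rpow hμ.le hμ1).eg.int _ y).aestronglyMeasurable)
        (hev.mono fun L hL => .of_forall fun z => by
          obtain ⟨A', hV⟩ := Vn_adm (adm_exp (cut_sm c hL)) (ex_lin R) q k (show k ≤ R by omega)
          have h0 := hV.a_pos.le.trans (hV.lb (y + √(dn R q k) * z))
          rw [norm_of_nonneg (rpow_nonneg h0 _)]
          exact rpow_le_one h0 (Vn_le_one hL hc q k (by omega) _) hμ.le)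
        (integrable_const _) (.of_forall fun z => (ih (by omega) _).rpow_const (Or.inr hμ.le))
      rw [qe] at hint
      have := hint.rpow_const (p := 1 / lin R (R - k)) (Or.inr (one_div_nonneg.2 hμ.le))
      rwa [one_div, rpow_rpow_inv (Qv_pos _ _).le hμ.ne', ← one_div] at this
  obtain ⟨li, le'⟩ := h.log_Qv
  rw [← le']
  have hev : ∀ᶠ L : ℝ in atTop, 1 ≤ L := eventually_ge_atTop 1
  refine tendsto_integral_filter_of_dominated_convergence (fun z => |log (Qv c R q R (√(q 0) * z))|)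
    (hev.mono fun L hL => (integrable_log_Vn (adm_exp (cut_sm c hL)) q).aestronglyMeasurable)
    (hev.mono fun L hL => .of_forall fun z => ?_) li.abs
    (.of_forall fun z => (cv R le_rfl _).log (exp_pos _).ne')
  obtain ⟨A', hV⟩ := Vn_adm (adm_exp (cut_sm c hL)) (ex_lin R) q R le_rfl
  have h0 := hV.a_pos.trans_le (hV.lb (√(q 0) * z))
  have h2 := log_le_log (show 0 < Qv c R q R (√(q 0) * z) from exp_pos _) (hlo L hL R le_rfl _)
  rw [norm_eq_abs, abs_of_nonpos (log_nonpos h0.le (Vn_le_one hL hc q R le_rfl _))]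
  linarith [neg_abs_le (log (Qv c R q R (√(q 0) * z)))]

end dom

/-- the cut misses at most a fourth power -/
lemma fL_ge_quartic (hL : 1 ≤ L) (u : ℝ) : qf c u - max c 0 / (2 * L ^ 2) * u ^ 4 ≤ fL c L u := by
  have hL0 : 0 < L := by linarith
  have hpos : 0 ≤ max c 0 / (2 * L ^ 2) * u ^ 4 := by positivity
  rcases le_total 0 c with hc | hc
  · by_cases hu : |u| ≤ L
    · rw [fL_eq hL0 hu]; linarith
    · have h2 : L ^ 2 ≤ u ^ 2 := by rw [← sq_abs u]; exact pow_le_pow_left₀ hL0.le (lt_of_not_ge hu).le 2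
      have h3 : qf c u ≤ max c 0 / (2 * L ^ 2) * u ^ 4 := by
        rw [max_eq_left hc, qf]
        calc c * u ^ 2 / 2 = c / (2 * L ^ 2) * (u ^ 2 * L ^ 2) := by field_simp
          _ ≤ c / (2 * L ^ 2) * (u ^ 2 * u ^ 2) := mul_le_mul_of_nonneg_left
              (mul_le_mul_of_nonneg_left h2 (sq_nonneg u)) (by positivity)
          _ = _ := by ring
      linarith [((fL_sign (L := L) hL0 u).1 hc).1]
  · linarith [((fL_sign (L := L) hL0 u).2 hc).2]

end Vale.Agent.P166.Hopf
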