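import Vale.Agent.P166.Hopf.Defs
import Vale.Agent.P166.Pattern.Signed.Link

/-!
# P166: the functional of a pattern model at any strengths, from concentration
-/

open MeasureTheory ProbabilityTheory Filter Set Matrix
open scoped Topology

noncomputable section

namespace Vale.Agent.P166.Hopf

open Pattern Pattern.Signed

/-- the functional of a pattern model with a given limit, from concentration of its pressure -/
theorem good_functional_conc (hcc : StmtConc) {r : ℕ} {β : ℝ} {a α : Fin r → ℝ}
    (hα : ∀ j, 0 < α j) {p : ℝ}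
    (hp : Tendsto (fun N : ℕ => fC (fun j => β * a j) N (Multi.Ks α N) / N) atTop (𝓝 p)) :
    ∀ ν : ∀ N, Measure (Mat N), (∀ N, IsHaarOrthogonal (ν N)) →
      ∃ Ψ : ∀ N : ℕ, (Fin (∑ j, Multi.Ks α N j) × Fin N → ℝ) → ℝ,
        (∀ N, Measurable (Ψ N)) ∧ (∀ N g, 0 ≤ Ψ N g ∧ Ψ N g ≤ 1) ∧
        Tendsto (fun N : ℕ => ∫ g, Ψ N g ∂gauss (Fin (∑ j, Multi.Ks α N j) × Fin N)) atTop (𝓝 0) ∧
        ∀ N g (lam : Fin N → ℝ) (Q : Matrix (Fin N) (Fin N) ℝ), Q ∈ Matrix.orthogonalGroup (Fin N) ℝ →
          Multi.WC (Multi.cs a α N) g = Qᵀ * Matrix.diagonal lam * Q →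
          ∫ U, min |pressure β lam U - p| 1 ∂ν N = Ψ N g := by
  intro ν hν
  set bs : Fin r → ℝ := fun j => β * a j
  set φ : ℝ → ℝ := fun x => min |x - p| 1 with hφ
  have hφ0 : ∀ x, 0 ≤ φ x := fun x => le_min (abs_nonneg _) zero_le_one
  have hφ1 : ∀ x, φ x ≤ 1 := fun x => min_le_right _ _
  have hφc : Continuous φ := by unfold φ; fun_prop
  set Ψ := fun (N : ℕ) (g : Fin (∑ j, Multi.Ks α N j) × Fin N → ℝ) =>
    ∫ U, φ (Multi.pC β (Multi.cs a α N) g U) ∂ν N
  have hP : ∀ N : ℕ, IsProbabilityMeasure (ν N) := fun N => (hν N).1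
  have hj : ∀ N : ℕ, Continuous fun q : (Fin (∑ j, Multi.Ks α N j) × Fin N → ℝ) × Mat N =>
      φ (Multi.pC β (Multi.cs a α N) q.1 q.2) := fun N => hφc.comp (Multi.continuous_pC β _)
  refine ⟨Ψ, fun N => (hj N).measurable.stronglyMeasurable.integral_prod_right'.measurable, fun N g => ?_, ?_, ?_⟩
  · refine ⟨integral_nonneg fun U => hφ0 _, ?_⟩
    refine (integral_mono_of_nonneg (.of_forall fun U => hφ0 _) (integrable_const (1:ℝ))
      (.of_forall fun U => hφ1 _)).trans (le_of_eq ?_)
    simp
  swap
  · intro N g lam Q hQ hW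
    have hm : Measurable fun (U : Mat N) (i j : Fin N) => ∑ k, Q i k * U k j := by fun_prop
    have hinv := (hν N).2.2 (fun i j => Q i j) hQ
    show _ = ∫ U, φ (Multi.pC β (Multi.cs a α N) g U) ∂ν N
    conv_lhs => rw [← hinv]
    have hmp : Measurable fun V : Mat N => min |pressure β lam V - p| 1 :=
      hφc.measurable.comp (measurable_pressure β lam)
    rw [integral_map hm.aemeasurable hmp.aestronglyMeasurable]
    simp only [Multi.pC_eq_pressure β _ hW, φ]
  · have hlim : Tendsto (fun N : ℕ => (∫ g, |sLw (fun k => bs (Multi.can (Multi.Ks α N) k))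
        (w0 (Fin N)) (fun _ => unif (Fin N)) g - fC bs N (Multi.Ks α N)|
          ∂pats (Fin N) (∑ j, Multi.Ks α N j)) / N + |fC bs N (Multi.Ks α N) / N - p|) atTop (𝓝 0) := by
      simpa using (hcc r α bs hα).add ((hp.sub_const p).abs)
    refine squeeze_zero' (.of_forall fun N => integral_nonneg fun g => integral_nonneg fun U => hφ0 _) ?_ hlim
    filter_upwards [eventually_gt_atTop 0] with N hN
    set M := (∑ j, Multi.Ks α N j)
    set c := fun k => β * Multi.cs a α N k
    set one : Mat N := fun i j => if i = j then 1 else 0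
    have hint : Integrable (fun q : (Fin M × Fin N → ℝ) × Mat N => φ (Multi.pC β (Multi.cs a α N) q.1 q.2))
        ((gauss (Fin M × Fin N)).prod (ν N)) :=
      Integrable.of_bound (hj N).aestronglyMeasurable 1 (.of_forall fun q => by
        rw [Real.norm_eq_abs, abs_of_nonneg (hφ0 _)]; exact hφ1 _)
    have hmo : Measurable fun g : Fin M × Fin N → ℝ => φ (Multi.pC β (Multi.cs a α N) g one) :=
      ((hj N).comp (by fun_prop : Continuous fun g : Fin M × Fin N → ℝ => (g, one))).measurable
    have h1 : ∫ g, Ψ N g ∂gauss (Fin M × Fin N) =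
        ∫ g, φ (Multi.pC β (Multi.cs a α N) g one) ∂gauss (Fin M × Fin N) := by
      simp only [Ψ]
      rw [integral_integral_swap hint]
      refine (integral_congr_ae ((hν N).2.1.mono fun U hU => ?_)).trans (by simp :
        ∫ _, ∫ g, φ (Multi.pC β (Multi.cs a α N) g one) ∂gauss (Fin M × Fin N) ∂ν N = _)
      have hm : Measurable (rot (M := M) U) := by unfold rot; fun_prop
      conv_rhs => rw [← mp_rot (M := M) hU, integral_map hm.aemeasurable
        hmo.aestronglyMeasurable]
      exact integral_congr_ae (.of_forall fun g =>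
        congrArg φ (Multi.pC_rot β (Multi.cs a α N) g (U := U) (V := one) rfl))
    have h2 : ∫ g, φ (Multi.pC β (Multi.cs a α N) g one) ∂gauss (Fin M × Fin N) =
        ∫ g, φ (sLw c (w0 (Fin N)) (fun _ => unif (Fin N)) g / N) ∂pats (Fin N) M := by
      have h := mp_uncurry (Fin N) M
      rw [← h.map_eq, integral_map h.measurable.aemeasurable
        hmo.aestronglyMeasurable]
      exact integral_congr_ae (.of_forall fun g => congrArg φ (pC_one β (Multi.cs a α N) g (V := one) rfl))
    rw [h1, h2]
    have hv : unif (Fin N) ∈ Simplex (Fin N) := unif_mem (by simpa using hN)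
    set L := fun g => sLw c (w0 (Fin N)) (fun _ => unif (Fin N)) g
    set F := fC bs N (Multi.Ks α N)
    have hN' : (0:ℝ) < N := by exact_mod_cast hN
    have hG : Good L := good_sLw _ w0_pos _
    have i1 : Integrable (fun g => |L g - F| / N) (pats (Fin N) M) :=
      (((integrable_pats hG).sub (integrable_const F)).abs).div_const _
    refine (integral_mono_of_nonneg (.of_forall fun g => hφ0 _) (i1.add (integrable_const |F / N - p|))
      (.of_forall fun g => ?_)).trans (le_of_eq ?_)
    · refine (min_le_left _ _).trans ?_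
      show |L g / N - p| ≤ |L g - F| / N + |F / N - p|
      rw [show L g / N - p = (L g - F) / N + (F / N - p) by ring]
      refine (abs_add_le _ _).trans (le_of_eq ?_)
      rw [abs_div, abs_of_pos hN']
    · rw [integral_add' i1 (integrable_const _), integral_div, integral_const]
      simp only [probReal_univ, one_smul]
      simp only [L, M, c, bs, Multi.cs]

end Vale.Agent.P166.Hopf
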