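import Vale.Agent.P166.Hopf.Species
import Vale.Agent.P166.Hopf.Haar
import Vale.Agent.P166.Par.Multi.FreeID
import Vale.Agent.P157.Full.Reps

/-!
# P166: from finitely many jump sizes to every free infinitely divisible law

The discretised jumps are rounded up, so every discretised value is at least the value of the law, and
at each path of the domain the discretised values converge.
-/

open MeasureTheory Filter Finset
open scoped Topology
open Vale.Agent.P157.Full (qh psiH dotH)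
open Vale.Agent.P157.Par (Prof)

noncomputable section

namespace Vale.Agent.P166.Hopf

open Par.Multi (xiD Rt xiD_mem continuous_xiD)
open Pattern.Signed (Carried An jn idx wt alf RT Lb Rn CoreAt alf_pos alf_sq measurable_idx sum_wt)

variable {ρ : Measure ℝ} {A δ β γ : ℝ} {n : ℕ} {R : ℕ} {h : ℕ → ℝ} {V : ℝ}

/-! ### rounding up -/

lemma le_jn (hρ : Carried ρ A) (hδ : 0 < δ) {x : ℝ} (hx : x ∈ Set.Icc (-A) (sSup ρ.support)) :
    x ≤ jn ρ A δ n (idx A δ n x) := by
  set B := max A δ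
  have hB : 0 < B := lt_of_lt_of_le hδ (le_max_right _ _)
  have hn : (0:ℝ) < (n:ℝ) + 1 := by positivity
  set u := (x + B) * ((n:ℝ) + 1) / (2 * B) with hu'
  have hxA : x ≤ An ρ δ n := hx.2.trans (le_max_left _ _)
  have hxB : x ≤ B := hx.2.trans (hρ.top_le.trans (le_max_left _ _))
  have hu1 : u ≤ (n:ℝ) + 1 := by
    rw [hu', div_le_iff₀ (by linarith)]
    nlinarith
  have hk : u ≤ (((min n ⌊u⌋₊ : ℕ) : ℝ)) + 1 := by
    rcases le_total n ⌊u⌋₊ with h | h
    · rw [min_eq_left h]; exact hu1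
    · rw [min_eq_right h]; exact (Nat.lt_floor_add_one u).le
  have ht : x ≤ Pattern.Signed.tn ρ A δ n (idx A δ n x) := by
    refine le_min hxA ?_
    have e : -B + 2 * B * u / ((n:ℝ) + 1) = x := by rw [hu']; field_simp; ring
    calc x = -B + 2 * B * u / ((n:ℝ) + 1) := e.symm
      _ ≤ _ := by
        refine add_le_add le_rfl (div_le_div_of_nonneg_right ?_ hn.le)
        exact mul_le_mul_of_nonneg_left hk (by linarith)
  unfold Pattern.Signed.jn
  split_ifs with hc
  · exact ht.trans (le_of_lt ((le_abs_self _).trans_lt hc))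
  · exact ht

/-- the discretised kernel is at least the kernel -/
lemma rn_ge (hρ : Carried ρ A) (hδ : 0 < δ) (γ : ℝ) {y : ℝ} (hy : 0 ≤ y)
    (hd : ∀ j, jn ρ A δ n j * y < 1) : Rt γ ρ y ≤ Rn γ ρ A δ n y := by
  have := hρ.finite
  set g := fun i => y / (1 - jn ρ A δ n i * y)
  have hg : ∀ i, 0 ≤ g i := fun i => div_nonneg hy (sub_pos.2 (hd i)).le
  have hae : ∀ᵐ x ∂ρ, 0 ≤ y / (1 - x * y) ∧ y / (1 - x * y) ≤ g (idx A δ n x) := hρ.ae_top.mono fun x hx => by
    have h1 := mul_le_mul_of_nonneg_right (le_jn (n := n) hρ hδ hx) hy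
    have h2 := hd (idx A δ n x)
    exact ⟨div_nonneg hy (by linarith), div_le_div_of_nonneg_left hy (by linarith) (by linarith)⟩
  have i2 : Integrable (fun x => g (idx A δ n x)) ρ :=
    Integrable.of_bound ((measurable_of_countable g).comp measurable_idx).aestronglyMeasurable
      (∑ i, g i) (.of_forall fun x => by
        rw [Real.norm_eq_abs, abs_of_nonneg (hg _)]
        exact single_le_sum (fun i _ => hg i) (mem_univ _))
  have i1 : Integrable (fun x => y / (1 - x * y)) ρ :=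
    i2.mono' (Measurable.aestronglyMeasurable (by fun_prop))
      (hae.mono fun x hx => by rw [Real.norm_eq_abs, abs_of_nonneg hx.1]; exact hx.2)
  rw [Rn, sum_wt g, Rt]
  have e : (∫ t, y / (1 - t * y) ∂ρ) ≤ ∫ x, g (idx A δ n x) ∂ρ :=
    integral_mono_ae i1 i2 (hae.mono fun x hx => hx.2)
  have : 0 ≤ 1 / ((n:ℝ) + 1) ^ 2 * ∑ i, g i := mul_nonneg (by positivity) (sum_nonneg fun i _ => hg i)
  linarith

/-! ### the domain -/

lemma xiD_le_zero {q : ℕ → ℝ} {s : ℝ} (h0 : 0 ≤ s) : xiD R q s ≤ xiD R q 0 :=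
  div_le_div_of_nonneg_right (sum_le_sum fun _ _ =>
    sub_le_sub_left (max_le_max h0 le_rfl) 1) (Nat.cast_nonneg R)

lemma qh_prof (hR : 1 ≤ R) (hh : Prof R h V) : Prof R (qh R h) 1 :=
  (Vale.Agent.P157.Full.qh_prof hR hh).1

/-- the arguments of the kernel along a path -/
lemma arg_mem (hβ : 0 ≤ β) (hR : 1 ≤ R) (hh : Prof R h V) {s : ℝ} (hs : s ∈ Set.Icc (0:ℝ) 1) :
    β * xiD R (qh R h) s ∈ Set.Icc 0 (β * xiD R (qh R h) 0) :=
  ⟨mul_nonneg hβ (xiD_mem (qh_prof hR hh) hs.1 hs.2).1,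
    mul_le_mul_of_nonneg_left (xiD_le_zero hs.1) hβ⟩

lemma mul_lt_one {j y Y : ℝ} (hy : y ∈ Set.Icc 0 Y) (h : j * Y < 1) : j * y < 1 := by
  rcases le_total j 0 with hj | hj
  · exact lt_of_le_of_lt (mul_nonpos_of_nonpos_of_nonneg hj hy.1) one_pos
  · exact lt_of_le_of_lt (mul_le_mul_of_nonneg_left hy.2 hj) h

lemma dom_top (hρ : Carried ρ A) {Y : ℝ} (h : ∀ t ∈ ρ.support, Y * t < 1) :
    sSup ρ.support * Y < 1 := by
  rcases ρ.support.eq_empty_or_nonempty with he | hne
  · rw [he, Real.sSup_empty, zero_mul]; exact one_pos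
  · rw [mul_comm]
    exact h _ ((isCompact_Icc.of_isClosed_subset Measure.isClosed_support hρ.support_subset).sSup_mem hne)

lemma rt_integrable (hρ : Carried ρ A) (hβ : 0 ≤ β) (hR : 1 ≤ R) (hh : Prof R h V)
    (hd : ∀ t ∈ ρ.support, β * xiD R (qh R h) 0 * t < 1) :
    IntervalIntegrable (fun s => Rt γ ρ (β * xiD R (qh R h) s)) volume 0 1 := by
  have := hρ.finite
  set Y := β * xiD R (qh R h) 0
  have htop := dom_top hρ hd
  refine ContinuousOn.intervalIntegrable ?_
  rw [Set.uIcc_of_le zero_le_one]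
  refine ContinuousOn.comp (g := Rt γ ρ) (t := Set.Icc 0 Y) ?_
    (continuous_const.mul (continuous_xiD R _)).continuousOn fun s hs => arg_mem hβ hR hh hs
  set d := 1 - max (sSup ρ.support) 0 * Y
  have hd0 : 0 < d := by
    simp only [d]
    rcases le_total (sSup ρ.support) 0 with h0 | h0
    · rw [max_eq_right h0, zero_mul]; linarith
    · rw [max_eq_left h0]; linarith
  have hden : ∀ᵐ t ∂ρ, ∀ y ∈ Set.Icc 0 Y, d ≤ 1 - t * y := hρ.ae_top.mono fun t ht y hy => by
    have h1 : t * y ≤ max (sSup ρ.support) 0 * y :=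
      mul_le_mul_of_nonneg_right (ht.2.trans (le_max_left _ _)) hy.1
    have h2 : max (sSup ρ.support) 0 * y ≤ max (sSup ρ.support) 0 * Y :=
      mul_le_mul_of_nonneg_left hy.2 (le_max_right _ _)
    simp only [d]; linarith
  refine continuousOn_const.add (continuousOn_of_dominated (bound := fun _ => Y / d)
    (fun y _ => Measurable.aestronglyMeasurable (by fun_prop))
    (fun y hy => hden.mono fun t ht => ?_) (integrable_const _)
    (hden.mono fun t ht => continuousOn_id.div (by fun_prop) fun y hy => (hd0.trans_le (ht y hy)).ne'))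
  rw [Real.norm_eq_abs, abs_div, abs_of_nonneg hy.1, abs_of_pos (hd0.trans_le (ht y hy))]
  exact div_le_div₀ (hy.1.trans hy.2) hy.2 hd0 (ht y hy)

lemma rn_integrable (hβ : 0 ≤ β) (hR : 1 ≤ R) (hh : Prof R h V)
    (hd : ∀ j, jn ρ A δ n j * (β * xiD R (qh R h) 0) < 1) :
    IntervalIntegrable (fun s => Rn γ ρ A δ n (β * xiD R (qh R h) s)) volume 0 1 := by
  refine ContinuousOn.intervalIntegrable ?_
  rw [Set.uIcc_of_le zero_le_one]
  have hc := (continuous_const.mul (continuous_xiD R (qh R h)) : Continuous fun s => β * xiD R (qh R h) s)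
  refine continuousOn_const.add (continuousOn_finsetSum _ fun i _ => continuousOn_const.mul ?_)
  exact hc.continuousOn.div (continuousOn_const.sub (continuousOn_const.mul hc.continuousOn))
    fun s hs => (sub_pos.2 (mul_lt_one (arg_mem hβ hR hh hs) (hd i))).ne'

/-- the value of the discretisation, in the kernel -/
lemma qForm_disc (hδ : 0 < δ) (hβ : 0 ≤ β) (hR : 1 ≤ R) (hh : Prof R h V) (γ : ℝ)
    (hd : ∀ j, jn ρ A δ n j * (β * xiD R (qh R h) 0) < 1) :
    qForm (alf ρ A δ n) (fun j => β * jn ρ A δ n j) R h + β * Pattern.Signed.shift γ ρ A δ n / 2 =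
      β / 2 * (∫ s in (0:ℝ)..1, Rn γ ρ A δ n (β * xiD R (qh R h) s)) + spinH R h := by
  set α := alf ρ A δ n
  set a := jn ρ A δ n
  set X := xiD R (qh R h)
  have hpos : ∀ j, ∀ s ∈ Set.Icc (0:ℝ) 1, 0 < 1 - β * a j * X s := fun j s hs => by
    have := mul_lt_one (arg_mem hβ hR hh hs) (hd j)
    rw [show β * a j * X s = a j * (β * X s) by ring]
    linarith
  have ii : ∀ j, IntervalIntegrable (fun s => α j * (1 / 2 * (β * a j / (1 - β * a j * X s)))) volume 0 1 := fun j => by
    refine ContinuousOn.intervalIntegrable ?_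
    rw [Set.uIcc_of_le zero_le_one]
    exact continuousOn_const.mul (continuousOn_const.mul (continuousOn_const.div
      (continuousOn_const.sub (continuousOn_const.mul (continuous_xiD R _).continuousOn))
      fun s hs => (hpos j s hs).ne'))
  have e : ∀ s ∈ Set.uIcc (0:ℝ) 1, (∑ j, α j * (1 / 2 * (β * a j / (1 - β * a j * X s)))) +
      β * Pattern.Signed.shift γ ρ A δ n / 2 = β / 2 * Rn γ ρ A δ n (β * X s) := fun s hs => by
    rw [Set.uIcc_of_le zero_le_one] at hs
    rw [Rn, Pattern.Signed.shift]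
    have k : ∀ j, β / 2 * (wt ρ A δ n j * (β * X s / (1 - a j * (β * X s)))) =
        α j * (1 / 2 * (β * a j / (1 - β * a j * X s))) - β / 2 * (α j * a j) := fun j => by
      rw [← alf_sq hδ j, show a j * (β * X s) = β * a j * X s by ring]
      simp only [α, a] at hpos ⊢
      have := (hpos j s hs).ne'
      generalize hD : 1 - β * jn ρ A δ n j * X s = D at this ⊢
      field_simp
      linear_combination (-(alf ρ A δ n j * jn ρ A δ n j * β)) * hD
    rw [mul_add, mul_sum, sum_congr rfl fun j _ => k j, sum_sub_distrib, ← mul_sum]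
    ring
  rw [qForm, ← intervalIntegral.integral_const_mul (β / 2),
    ← intervalIntegral.integral_congr e, intervalIntegral.integral_add
      (by simpa [Finset.sum_fn] using IntervalIntegrable.sum Finset.univ fun j _ => ii j)
      intervalIntegrable_const, intervalIntegral.integral_finsetSum fun j _ => ii j]
  simp only [intervalIntegral.integral_const_mul, intervalIntegral.integral_const, sub_zero, one_smul]
  ring

/-! ### the values -/

lemma spinH_nonneg (hR : 1 ≤ R) (hh : Prof R h V) : 0 ≤ spinH R h := by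
  have := Vale.Agent.P157.Full.Jval_ge (α := 0) (Par.cut_sm 0 le_rfl) (by norm_num) hR hh le_rfl
  simp only [Vale.Agent.P157.Full.Jval, zero_mul, neg_zero, zero_add] at this
  exact this

theorem hValues_ok (hf : StmtFunctional) (hρ : Carried ρ A) (hβ : 0 ≤ β) (γ : ℝ) :
    (hValues β γ ρ).Nonempty ∧ BddBelow (hValues β γ ρ) := by
  have hA := hρ.nonneg
  obtain ⟨hne, -⟩ := hf 1 (fun _ => (1:ℝ)) (fun _ => β * (A + 1)) (fun _ => one_pos) 1 (by simp)
  obtain ⟨_, R, h, V, hR, hh, hd, -⟩ := hne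
  refine ⟨⟨_, R, h, V, hR, hh, fun t ht => ?_, rfl⟩, β / 2 * γ, ?_⟩
  · have h0 := (arg_mem (s := 0) hβ hR hh ⟨le_rfl, zero_le_one⟩).1
    calc β * xiD R (qh R h) 0 * t ≤ β * xiD R (qh R h) 0 * (A + 1) :=
          mul_le_mul_of_nonneg_left (by linarith [(hρ.support_subset ht).2]) h0
      _ = β * (A + 1) * xiD R (qh R h) 0 := by ring
      _ < 1 := hd 0
  rintro v ⟨R, h, V, hR, hh, hd, rfl⟩
  have htop := dom_top hρ hd
  have hge : ∀ s ∈ Set.Icc (0:ℝ) 1, γ ≤ Rt γ ρ (β * xiD R (qh R h) s) := fun s hs => by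
    have hy := arg_mem hβ hR hh hs
    refine le_add_of_nonneg_right (integral_nonneg_of_ae (hρ.ae_top.mono fun t ht => ?_))
    refine div_nonneg hy.1 ?_
    have h1 := mul_le_mul_of_nonneg_right ht.2 hy.1
    have h2 := mul_lt_one hy htop
    linarith
  have := intervalIntegral.integral_mono_on zero_le_one intervalIntegrable_const
    (rt_integrable (γ := γ) hρ hβ hR hh hd) hge
  simp only [intervalIntegral.integral_const, sub_zero, one_smul] at this
  have h3 := mul_le_mul_of_nonneg_left this (show 0 ≤ β / 2 by linarith)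
  have h4 := spinH_nonneg hR hh
  unfold hForm
  linarith

/-- the limits of the discretisations tend to the variational value -/
theorem disc_tendsto (hf : StmtFunctional) (hρ : Carried ρ A) (hβ : 0 ≤ β) (hδ : 0 < δ) (γ : ℝ) :
    Tendsto (fun n : ℕ => sInf (qHValues (alf ρ A δ n) fun j => β * jn ρ A δ n j) +
      β * Pattern.Signed.shift γ ρ A δ n / 2) atTop (𝓝 (sInf (hValues β γ ρ))) := by
  obtain ⟨hne, hbd⟩ := hValues_ok hf hρ hβ γ
  have key : ∀ n, (qHValues (alf ρ A δ n) fun j => β * jn ρ A δ n j).Nonempty ∧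
      BddBelow (qHValues (alf ρ A δ n) fun j => β * jn ρ A δ n j) := fun n => by
    obtain ⟨a, b, -⟩ := hf _ (alf ρ A δ n) (fun j => β * jn ρ A δ n j) (alf_pos hδ) _ rfl
    exact ⟨a, b⟩
  have low : ∀ n, sInf (hValues β γ ρ) ≤ sInf (qHValues (alf ρ A δ n) fun j => β * jn ρ A δ n j) +
      β * Pattern.Signed.shift γ ρ A δ n / 2 := fun n => by
    rw [← sub_le_iff_le_add]
    refine le_csInf (key n).1 ?_
    rintro v ⟨R, h, V, hR, hh, hd, rfl⟩
    rw [sub_le_iff_le_add]
    have hd' : ∀ j, jn ρ A δ n j * (β * xiD R (qh R h) 0) < 1 := fun j => by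
      have := hd j
      linarith
    have hY := (arg_mem (s := 0) hβ hR hh ⟨le_rfl, zero_le_one⟩).1
    have hdom : ∀ t ∈ ρ.support, β * xiD R (qh R h) 0 * t < 1 := fun t ht => by
      have hle := le_jn (n := n) hρ hδ
        ⟨(hρ.support_subset ht).1, le_csSup (bddAbove_Icc.mono hρ.support_subset) ht⟩
      refine lt_of_le_of_lt (mul_le_mul_of_nonneg_left hle hY) ?_
      rw [mul_comm]; exact hd' _
    rw [qForm_disc hδ hβ hR hh γ hd']
    refine (csInf_le hbd ⟨R, h, V, hR, hh, hdom, rfl⟩).trans ?_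
    refine add_le_add (mul_le_mul_of_nonneg_left ?_ (by linarith)) le_rfl
    refine intervalIntegral.integral_mono_on zero_le_one (rt_integrable hρ hβ hR hh hdom)
      (rn_integrable hβ hR hh hd') fun s hs => ?_
    exact rn_ge hρ hδ γ (arg_mem hβ hR hh hs).1 fun j => mul_lt_one (arg_mem hβ hR hh hs) (hd' j)
  rw [Metric.tendsto_atTop]
  intro ε hε
  obtain ⟨v, ⟨R, h, V, hR, hh, hd, rfl⟩, hv⟩ := exists_lt_of_csInf_lt hne
    (show sInf (hValues β γ ρ) < sInf (hValues β γ ρ) + ε / 2 by linarith)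
  set Y := β * xiD R (qh R h) 0
  have hY : 0 ≤ Y := (arg_mem (s := 0) hβ hR hh ⟨le_rfl, zero_le_one⟩).1
  have htop := dom_top hρ hd
  obtain ⟨θ, hθ1, hθtop, hθ0⟩ : ∃ θ : ℝ, θ < 1 ∧ sSup ρ.support * Y ≤ θ ∧ 1 / 2 ≤ θ :=
    ⟨max (sSup ρ.support * Y) (1 / 2), max_lt htop (by norm_num), le_max_left _ _, le_max_right _ _⟩
  set C := Y * Y * (2 * max A δ + 2 * δ) * RT ρ / (1 - θ) ^ 2 + Y / (1 - θ) with hC
  have t0 : ∀ a : ℝ, Tendsto (fun n : ℕ => a / ((n:ℝ) + 1)) atTop (𝓝 0) := fun a =>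
    tendsto_const_nhds.div_atTop (tendsto_atTop_add_const_right _ _ tendsto_natCast_atTop_atTop)
  obtain ⟨N0, hN0⟩ := eventually_atTop.1 (((t0 (δ * Y)).eventually_le_const (show (0:ℝ) < 1 / 2 by norm_num)).and
    (((t0 C).const_mul (β / 2)).eventually_le_const (show β / 2 * 0 < ε / 2 by simp; linarith)))
  refine ⟨N0, fun n hn => ?_⟩
  obtain ⟨hn1, hn2⟩ := hN0 n hn
  have hAn : An ρ δ n * Y ≤ θ := by
    rw [An, max_mul_of_nonneg _ _ hY]
    refine max_le hθtop (le_trans ?_ hθ0)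
    rw [div_mul_eq_mul_div]; exact hn1
  have hd' : ∀ j, jn ρ A δ n j * Y < 1 := fun j =>
    lt_of_le_of_lt ((mul_le_mul_of_nonneg_right (Pattern.Signed.jn_le j) hY).trans hAn) hθ1
  have hclose : ∀ s ∈ Set.Icc (0:ℝ) 1,
      Rn γ ρ A δ n (β * xiD R (qh R h) s) ≤ Rt γ ρ (β * xiD R (qh R h) s) + C / ((n:ℝ) + 1) := fun s hs => by
    obtain ⟨y0, y1⟩ := arg_mem hβ hR hh hs
    have hR0 := Pattern.Signed.RT_pos (ρ := ρ)
    have h1θ : 0 < 1 - θ := by linarith
    have hB : 0 < max A δ := lt_of_lt_of_le hδ (le_max_right _ _)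
    have hC0 : 0 ≤ C / ((n:ℝ) + 1) := by simp only [hC]; positivity
    rcases eq_or_lt_of_le y0 with e | hy
    · simp only [← e, Rn, Rt, zero_div, mul_zero, sum_const_zero, integral_zero]
      linarith
    have hb := (abs_le.1 (Pattern.Signed.Rn_close (n := n) hρ hδ γ hy
      ((mul_le_mul_of_nonneg_left y1 (Pattern.Signed.An_pos hδ).le).trans hAn) hθ1)).2
    set y := β * xiD R (qh R h) s
    have hyy : y * y ≤ Y * Y := mul_le_mul y1 y1 y0 hY
    have hbd : y * y * (2 * max A δ + 2 * δ) * RT ρ / ((1 - θ) ^ 2 * ((n:ℝ) + 1)) +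
        y / ((1 - θ) * ((n:ℝ) + 1)) ≤ C / ((n:ℝ) + 1) := by
      rw [hC, add_div, div_div, div_div]
      gcongr
    show _ ≤ Rt γ ρ y + _
    have e : Pattern.Multi.Rk γ ρ y = Rt γ ρ y := rfl
    linarith
  have hup : sInf (qHValues (alf ρ A δ n) fun j => β * jn ρ A δ n j) +
      β * Pattern.Signed.shift γ ρ A δ n / 2 ≤ hForm β γ ρ R h + β / 2 * (C / ((n:ℝ) + 1)) := by
    have h1 : sInf (qHValues (alf ρ A δ n) fun j => β * jn ρ A δ n j) ≤
        qForm (alf ρ A δ n) (fun j => β * jn ρ A δ n j) R h :=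
      csInf_le (key n).2 ⟨R, h, V, hR, hh, fun j => by
        show β * jn ρ A δ n j * xiD R (qh R h) 0 < 1
        linarith [hd' j], rfl⟩
    refine (add_le_add h1 le_rfl).trans ?_
    rw [qForm_disc hδ hβ hR hh γ hd', hForm]
    have h2 := intervalIntegral.integral_mono_on zero_le_one (rn_integrable (γ := γ) hβ hR hh hd')
      ((rt_integrable (γ := γ) hρ hβ hR hh hd).add intervalIntegrable_const) hclose
    rw [intervalIntegral.integral_add (rt_integrable hρ hβ hR hh hd) intervalIntegrable_const] at h2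
    simp only [intervalIntegral.integral_const, sub_zero, one_smul] at h2
    have := mul_le_mul_of_nonneg_left h2 (show 0 ≤ β / 2 by linarith)
    linarith
  rw [Real.dist_eq, abs_lt]
  constructor <;> linarith [low n]

end Vale.Agent.P166.Hopf
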