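import Vale.Agent.P166.Hopf.LowerSelf
import Vale.Agent.P166.Par.Multi.Lower

/-! T1: the lower bound by the infimum over paths, finitely many bounded potentials at every strength. -/

open MeasureTheory ProbabilityTheory Real Finset Filter
open scoped Topology
open Vale.Agent.P168.MP (lin pw spinAt allBatch BIdx gu Batch growC gainCap avg)
open Vale.Agent.P157.Par
open Vale.Agent.P157.Full (qh psiH dotH qhm_mem sinh_div_cosh_eq)

namespace Vale.Agent.P166.Hopf

open Par.Multi

set_option linter.unusedSectionVars false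

variable {s : ℕ} {p : Fin s → ℝ}

/-- the mean distance satisfies the triangle inequality -/
lemma dist1_tri (R : ℕ) (x y z : ℕ → ℝ) : dist1 R x z ≤ dist1 R x y + dist1 R y z := by
  have h1 : (∑ l ∈ range R, |x l - z l|) / (R:ℝ) ≤
      (∑ l ∈ range R, |x l - y l|) / R + (∑ l ∈ range R, |y l - z l|) / R := by
    rw [← add_div, ← sum_add_distrib]
    exact div_le_div_of_nonneg_right (sum_le_sum fun l _ => abs_sub_le _ _ _) (Nat.cast_nonneg _)
  have h2 := abs_sub_le (x R) (y R) (z R)
  unfold dist1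
  linarith

/-- the frequencies of the labels are eventually near the weights -/
lemma freq_small {α K δ : ℝ} (hα : 0 < α) (_hK : 0 ≤ K) (hδ : 0 < δ) :
    ∀ᶠ n : ℕ in atTop, 1 ≤ ⌊α * ((n + 1 : ℕ) : ℝ)⌋₊ ∧ K * ((s:ℝ) / √(⌊α * ((n + 1 : ℕ) : ℝ)⌋₊ : ℝ)) ≤ δ := by
  have h1 : Tendsto (fun n : ℕ => ⌊α * ((n + 1 : ℕ) : ℝ)⌋₊) atTop atTop :=
    tendsto_nat_floor_atTop.comp
      (((tendsto_natCast_atTop_atTop (R := ℝ)).comp (tendsto_add_atTop_nat 1)).const_mul_atTop hα)
  have h2 : Tendsto (fun n : ℕ => K * ((s:ℝ) / √(⌊α * ((n + 1 : ℕ) : ℝ)⌋₊ : ℝ))) atTop (𝓝 0) := by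
    simpa using ((tendsto_const_nhds (x := (s:ℝ))).div_atTop
      (Real.tendsto_sqrt_atTop.comp (tendsto_natCast_atTop_atTop.comp h1))).const_mul K
  exact (h1.eventually_ge_atTop 1).and (h2.eventually_le_const hδ)

/-- the functional at a profile against the value of the path it generates -/
theorem fmix_ge_JvalV (P : Fam s) (A : ℝ) : ∃ K : ℝ, 0 ≤ K ∧ ∀ {p : Fin s → ℝ}, Wts p →
    ∀ (α : ℝ) (R : ℕ) (q : ℕ → ℝ), 0 ≤ α → α ≤ A → 1 ≤ R → Prof R q 1 → q R = 1 →
      JvalV α P p R (fun l => α * Gam P p R (lin R) q l) -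
          K * dist1 R q (qh R fun l => α * Gam P p R (lin R) q l) ≤
        Fmix α P p R (lin R) q := by
  obtain ⟨KL, hKL, hL⟩ := phiLip_all P
  refine ⟨|A| * KL + |A| * P.D ^ 2, by positivity, fun {p} hp α R q h0 h1 hR hq hqR => ?_⟩
  have hA : α ≤ |A| := h1.trans (le_abs_self A)
  set h := fun l => α * Gam P p R (lin R) q l with hh
  have hG := gam_prof_lin P hp hR hq
  have hR' : (0:ℝ) < R := by exact_mod_cast hR
  have hQt : qh R h R = 1 := by simp [qh]
  have hQ : Prof R (qh R h) 1 := by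
    have hb : ∀ y, |sinh y / cosh y| ≤ 1 := fun y => by
      rw [abs_div, abs_of_pos (cosh_pos y), div_le_one (cosh_pos y), abs_le, sinh_eq, cosh_eq]
      constructor <;> linarith [exp_pos y, exp_pos (-y)]
    refine ⟨(qhm_mem (hG.scale h0) (Nat.zero_le R)).1, fun l hl => ?_, hQt.le⟩
    have hm := (gamma_mono (adm_exp sm_logcosh) (ex_lin R) (hG.scale h0)
      sm_logcosh.cont1 hb hl.le).2.2 hl
    rw [cosh_eq_exp, sinh_div_cosh_eq] at hm
    rcases Nat.lt_or_eq_of_le (show l + 1 ≤ R from hl) with h' | h'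
    · simp only [qh, if_pos hl, if_pos h']; exact hm
    · rw [h', hQt]; exact (qhm_mem (hG.scale h0) hl.le).2
  have eF : Fmix α P p R (lin R) q = α * Phim P p R (lin R) q + (psiH R h + dotH R h q / 2) := by
    rw [fmix_site P p hR hqR α, EsG, sum_range_succ, coef_top hR, one_mul, hqR, mul_one,
      sum_congr rfl fun l hl => by rw [coef_lt (mem_range.1 hl)]]
    simp only [psiH, dotH, hh, ← mul_sum, mul_assoc]
    field_simp
    ring
  have hphi := (abs_le.1 (phim_lip P hp hL hR hQ hq)).2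
  have hd : dist1 R (qh R h) q = dist1 R q (qh R h) := by simp only [dist1, abs_sub_comm]
  rw [hd] at hphi
  have hdot : dotH R h (qh R h) - dotH R h q ≤ |A| * P.D ^ 2 * dist1 R q (qh R h) := by
    have hs : ∑ l ∈ range R, (h l * qh R h l - h l * q l) ≤ ∑ l ∈ range R, |A| * P.D ^ 2 * |q l - qh R h l| :=
      sum_le_sum fun l hl => by
        have g := hG.upper (mem_range.1 hl).le
        rw [← mul_sub, abs_sub_comm]
        refine (mul_le_mul_of_nonneg_left (le_abs_self _) (mul_nonneg h0 g.1)).trans ?_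
        exact mul_le_mul_of_nonneg_right (mul_le_mul hA g.2 g.1 (abs_nonneg A)) (abs_nonneg _)
    simp only [dotH, dist1]
    rw [← sub_div, ← sum_sub_distrib, mul_add, ← mul_div_assoc, mul_sum]
    exact (div_le_div_of_nonneg_right hs hR'.le).trans (le_add_of_nonneg_right (by positivity))
  have hdn := dist1_nonneg R q (qh R h)
  have a1 := mul_le_mul_of_nonneg_left hphi h0
  have a2 := mul_le_mul_of_nonneg_right hA (mul_nonneg hKL hdn)
  have a3 : 0 ≤ |A| * P.D ^ 2 * dist1 R q (qh R h) := by positivity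
  rw [eF, JvalV, spinH]
  simp only [Phim] at a1 ⊢
  linarith

/-- **Lower bound**: a bound on the values of paths bounds the averaged pressure from below -/
theorem lower_path [NeZero s] (P : Fam s) (hp : Wts p) {α : ℝ} (hα : 0 < α) {v : ℝ}
    (hv : ∀ (R : ℕ) (h : ℕ → ℝ) (V : ℝ), 1 ≤ R → Prof R h V → v ≤ JvalV α P p R h) :
    ∀ ε > 0, ∀ᶠ N : ℕ in atTop, v - ε ≤ pressBar P p N ⌊α * N⌋₊ := by
  intro ε hε
  set δ := ε / 6
  have hδ : 0 < δ := by positivity
  obtain ⟨C, N₀, J, hC, hinc⟩ := increment P hp hα (site_total P _) δ hδ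
  obtain ⟨KL, hKL, hL⟩ := phiLip_all P
  obtain ⟨KE, hKE, hE⟩ := em_facts P α
  obtain ⟨KF, hKF, hfv⟩ := fmix_ge_JvalV P α
  obtain ⟨KQ, hKQ, hQ⟩ := qmapV_lip P α
  obtain ⟨δ₁, hδ₁, hsc⟩ := self_consistentV P hα (δ / (KF + 1)) (by positivity)
  obtain ⟨n₄, hn₄⟩ := eventually_atTop.1 (freq_small (s := s) hα (mul_nonneg hKF hKQ) hδ)
  obtain ⟨R₀, hR₀⟩ := grid_rep (show 0 < min δ₁ (δ / (C * J + 1)) by positivity)
  set R := max R₀ 2
  have hR2 : 2 ≤ R := le_max_right _ _
  have hR1 : 1 ≤ R := by omega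
  obtain ⟨S, M, hp0', ub, -, hM, hp0, hp1, hub, hub1, hgrid⟩ := hR₀ R (le_max_left _ _)
  have : NeZero M := ⟨hM.ne'⟩
  set β := allBatch R 2
  set G := BIdx R 2 → Fin M
  have hh : ∀ _j : BIdx R 2, |hp0'| ≤ 1 := fun _ => by rw [abs_of_pos hp0]; exact hp1
  have hu : ∀ (g : G) j, |gu ub M g j| ≤ 1 := fun g j => by
    obtain ⟨a, b⟩ := Vale.Agent.P168.MP.gu_mem hub g j
    rw [abs_of_pos a]; exact b.trans hub1
  have hcard : (0 : ℝ) < Fintype.card G := Vale.Agent.P168.MP.card_pos_real
  set T : ℕ → G → ℝ := fun n g =>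
    pertBI p P R S β (fun _ => hp0') (gu ub M g) (n + 1) (α * ((n + 1 : ℕ) : ℝ))
  set a : ℕ → ℝ := fun n => Vale.Agent.P168.MP.avg (T n)
  obtain ⟨n₁, hn₁⟩ := exists_nat_ge (growC R S β / δ)
  obtain ⟨n₃, hn₃⟩ := eventually_atTop.1 (hsc (S := S) (K := M) hR2 hp0 hp1 hub hub1
    fun N _ W hW => (hgrid N W hW).trans (min_le_left _ _))
  set m₀ := max (max N₀ n₁) (max n₃ n₄)
  set c := v - 5 * δ
  have hstep : ∀ n, m₀ ≤ n → a n + c ≤ a (n + 1) := by
    intro n hn'
    have hn : max N₀ n₁ ≤ n := le_of_max_le_left hn'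
    set I : ℕ → G → ℝ := fun i g =>
      ADb p P R S β (fun _ => hp0') (gu ub M g) (n + 1) (⌊α * (n + 1 : ℕ)⌋₊ + i)
    have hI : ∀ i, Vale.Agent.P168.MP.avg (I i) ≤ δ / (C * J + 1) := by
      intro i
      simp only [I, ADb, Vale.Agent.P168.MP.avg]
      rw [← lavg_sum, div_eq_inv_mul, ← lavg_const_mul]
      refine (lavg_mono hp fun k => ?_).trans_eq (lavg_const hp _)
      simp only [ADV]
      rw [← integral_finsetSum _ fun (g : G) _ => integrable_adV (P := P) (κ := k) (h := fun _ => hp0') (u := gu ub M g) hR1,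
        ← integral_const_mul]
      refine (integral_mono ((integrable_finsetSum _ fun (g : G) _ =>
        integrable_adV (P := P) (κ := k) (h := fun _ => hp0') (u := gu ub M g) hR1).const_mul _)
        (integrable_const (δ / (C * J + 1))) fun X => ?_).trans_eq (by simp)
      simp only [adV, qV, qbV, ← wV.eq_def, wV_eq_pw, ← div_eq_inv_mul]
      exact (hgrid (n + 1) (hamV P k X) fun σ => hamV_pos P k X σ).trans (min_le_right _ _)
    set d : G → ℝ := fun g => lavg (M := ⌊α * (n + 1 : ℕ)⌋₊) p fun k =>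
      ∫ X, dist1 R (qV P R S β (fun _ => hp0') (gu ub M g) k X)
        (qmapV P k α R (qV P R S β (fun _ => hp0') (gu ub M g) k X)) ∂pats (n + 1) ⌊α * (n + 1 : ℕ)⌋₊
    have hfr : KF * KQ * lavg (M := ⌊α * (n + 1 : ℕ)⌋₊) p (fun k => ∑ j, |freq k j - p j|) ≤ δ := by
      obtain ⟨h1, h2⟩ := hn₄ n ((le_max_right n₃ n₄).trans (le_of_max_le_right hn'))
      exact (mul_le_mul_of_nonneg_left ((lavg_freq hp _ h1)) (mul_nonneg hKF hKQ)).trans h2
    have hd : KF * Vale.Agent.P168.MP.avg d ≤ δ := by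
      have hle : Vale.Agent.P168.MP.avg d ≤ δ / (KF + 1) := by
        simp only [d, Vale.Agent.P168.MP.avg]
        rw [← lavg_sum, div_eq_inv_mul, ← lavg_const_mul]
        refine (lavg_mono hp fun k => ?_).trans_eq (lavg_const hp _)
        rw [← div_eq_inv_mul]
        exact hn₃ n ((le_max_left n₃ n₄).trans (le_of_max_le_right hn')) k
      refine (mul_le_mul_of_nonneg_left hle hKF).trans ?_
      rw [← mul_div_assoc, div_le_iff₀ (by positivity)]
      linarith
    have hg : ∀ g : G, v - 3 * δ - C * (∑ i ∈ range J, I i g) - KF * d g ≤ T (n + 1) g - T n g := by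
      intro g
      have h1 := hinc β (R := R) (S := S) (fun _ => hp0') (gu ub M g) hR2 hh (hu g) (n + 1)
        (by have := le_of_max_le_left hn; omega)
      have h2 : v - KF * d g - δ ≤ meanFmix α p P R S β (fun _ => hp0') (gu ub M g) (n + 1) ⌊α * (n + 1 : ℕ)⌋₊ := by
        have key : ∀ k : Fin ⌊α * (n + 1 : ℕ)⌋₊ → Fin s,
            v - (KF * (∫ X, dist1 R (qV P R S β (fun _ => hp0') (gu ub M g) k X)
              (qmapV P k α R (qV P R S β (fun _ => hp0') (gu ub M g) k X)) ∂pats (n + 1) ⌊α * (n + 1 : ℕ)⌋₊) +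
              KF * KQ * ∑ j, |freq k j - p j|) ≤
            ∫ X, Fmix α P p R (lin R) (qV (N := n + 1) P R S β (fun _ => hp0') (gu ub M g) k X)
              ∂pats (n + 1) ⌊α * (n + 1 : ℕ)⌋₊ := by
          intro k
          have hdi := integrable_dist1_qmapV (P := P) (k := k) (N := n + 1) (S := S) (β := β)
            (h := fun _ => hp0') (u := gu ub M g) hα.le hR1
          have hLi : Integrable (fun X => v - (KF * dist1 R (qV P R S β (fun _ => hp0') (gu ub M g) k X)
              (qmapV P k α R (qV P R S β (fun _ => hp0') (gu ub M g) k X)) + KF * KQ * ∑ j, |freq k j - p j|))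
              (pats (n + 1) ⌊α * (n + 1 : ℕ)⌋₊) :=
            (integrable_const v).sub ((hdi.const_mul KF).add (integrable_const _))
          have hFi : Integrable (fun X => Fmix α P p R (lin R) (qV (N := n + 1) P R S β (fun _ => hp0') (gu ub M g) k X))
              (pats (n + 1) ⌊α * (n + 1 : ℕ)⌋₊) := by
            refine (((integrable_lipV (P := P) (N := n + 1) (κ := k) (S := S) (β := β) (h := fun _ => hp0') (u := gu ub M g)
                hR1 hKL fun q q' hq hq' => phim_lip P hp hL hR1 hq hq').const_mul α).add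
              (integrable_lipV (P := P) (N := n + 1) (κ := k) (S := S) (β := β) (h := fun _ => hp0') (u := gu ub M g)
                hR1 hKE (hE hp α R hα.le le_rfl hR1).1)).congr (Eventually.of_forall fun X => ?_)
            exact (fmix_site P p hR1 (qV_top X) α).symm
          refine le_trans (le_of_eq ?_) (integral_mono hLi hFi fun X => ?_)
          · rw [integral_sub (integrable_const v) ((hdi.const_mul KF).fun_add (integrable_const _)),
              integral_add (hdi.const_mul KF) (integrable_const _), integral_const_mul]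
            simp
          · set q := qV P R S β (fun _ => hp0') (gu ub M g) k X
            have hq : Prof R q 1 := qV_prof X
            have e1 := hfv hp α R q hα.le le_rfl hR1 hq (qV_top X)
            have e2 := hv R _ _ hR1 ((gam_prof_lin P hp hR1 hq).scale hα.le)
            have e3 := dist1_tri R q (qmapV P k α R q) (qh R fun l => α * Gam P p R (lin R) q l)
            have e4 := (hQ k α R q hα.le le_rfl hR1 hq).2 hp
            have e5 := mul_le_mul_of_nonneg_left (e3.trans (add_le_add le_rfl e4)) hKF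
            linarith
        have := lavg_mono hp key
        simp only [lavg_sub, lavg_add, lavg_const_mul, lavg_const hp] at this
        refine le_trans ?_ this
        simp only [d]
        linarith [hfr]
      have h3 : growC R S β / (((n + 1 : ℕ) : ℝ) + 1) ≤ δ := by
        rw [div_le_iff₀ (by positivity)]
        rw [div_le_iff₀ hδ] at hn₁
        have h4 : (n₁ : ℝ) ≤ n := by exact_mod_cast le_of_max_le_right hn
        have := mul_le_mul_of_nonneg_right h4 hδ.le
        push_cast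
        linarith
      simp only [T, I] at h1 ⊢
      linarith
    have h5 := Vale.Agent.P168.MP.avg_le_avg hg
    have h6 : C * ∑ i ∈ range J, Vale.Agent.P168.MP.avg (I i) ≤ δ := by
      refine (mul_le_mul_of_nonneg_left (Finset.sum_le_sum fun i _ => hI i) hC).trans ?_
      rw [Finset.sum_const, Finset.card_range, nsmul_eq_mul, ← mul_assoc, mul_div_left_comm]
      exact mul_le_of_le_one_right hδ.le ((div_le_one (by positivity)).2 (by linarith))
    have h7 := hd
    simp only [a, Vale.Agent.P168.MP.avg, Finset.sum_sub_distrib, Finset.sum_const, Finset.card_univ,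
      nsmul_eq_mul, ← Finset.mul_sum, ← Finset.sum_div, sub_div, mul_div_assoc] at h5 h6 h7 ⊢
    rw [Finset.sum_comm] at h5
    simp only [← mul_div_assoc, mul_div_cancel_left₀ _ hcard.ne'] at h5 h6 h7 ⊢
    simp only [c] at *
    linarith
  have hlow : ∀ j : ℕ, a m₀ + j * c ≤ a (m₀ + j) := by
    intro j
    induction j with
    | zero => simp
    | succ j ih =>
      have := hstep (m₀ + j) (Nat.le_add_right _ _)
      rw [show m₀ + (j + 1) = m₀ + j + 1 by omega]
      push_cast
      linarith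
  set D₀ := |a m₀| + ((m₀ : ℝ) + 1) * |c| + gainCap S β + |P.B|
  obtain ⟨n₂, hn₂⟩ := exists_nat_ge (D₀ / δ)
  refine eventually_atTop.2 ⟨max (m₀ + 1) (n₂ + 1), fun n hn => ?_⟩
  obtain ⟨j, rfl⟩ : ∃ j, n = m₀ + j + 1 := ⟨n - m₀ - 1, by have := le_of_max_le_left hn; omega⟩
  have hup : a (m₀ + j) ≤ ((m₀ + j + 1 : ℕ) : ℝ) *
      pressBar P p (m₀ + j + 1) ⌊α * ((m₀ + j + 1 : ℕ) : ℝ)⌋₊ + gainCap S β + |P.B| := by
    refine (Vale.Agent.P168.MP.avg_le_avg fun g => pertBI_near P hp hR1 hh (hu g)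
      (by positivity)).trans_eq ?_
    exact Vale.Agent.P168.MP.avg_const _
  have hn2 : (n₂ : ℝ) + 1 ≤ ((m₀ + j + 1 : ℕ) : ℝ) := by exact_mod_cast le_of_max_le_right hn
  have hnj : ((m₀ + j + 1 : ℕ) : ℝ) = m₀ + j + 1 := by push_cast; ring
  set n := ((m₀ + j + 1 : ℕ) : ℝ) with hnn
  have hnpos : 0 < n := by linarith [Nat.cast_nonneg (α := ℝ) n₂]
  have hDn : D₀ ≤ n * δ := by
    rw [div_le_iff₀ hδ] at hn₂
    exact hn₂.trans (mul_le_mul_of_nonneg_right (by linarith) hδ.le)
  have hl := hlow j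
  rw [show (j : ℝ) * c = n * c - ((m₀ : ℝ) + 1) * c by rw [hnj]; ring] at hl
  have := mul_le_mul_of_nonneg_left (le_abs_self c) (show 0 ≤ (m₀ : ℝ) + 1 by positivity)
  have := neg_abs_le (a m₀)
  refine le_of_mul_le_mul_left ?_ hnpos
  simp only [D₀, c, δ] at *
  linarith

/-- T1 -/
theorem lower_hopf : StmtLower := by
  intro s P p hp α hα v hv
  rcases Nat.eq_zero_or_pos s with rfl | hs
  · exact absurd hp.one (by simp)
  · have : NeZero s := ⟨hs.ne'⟩
    exact lower_path P hp hα hv

end Vale.Agent.P166.Hopf
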