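import Vale.Agent.P166.Hopf.Defs
import Vale.Agent.P166.Par.Multi.Grow
import Vale.Agent.P166.Par.Multi.Facts
import Vale.Agent.P157.Full.GrowPair
import Vale.Agent.P157.Full.Fields

/-! The self-consistency map at fixed labels and with weights, and the symmetry between the sites. -/

open MeasureTheory ProbabilityTheory Real Finset
open Vale.Agent.P150 (gauss dot)
open Vale.Agent.P168 (sg)
open Vale.Agent.P168.MP (lin ET Batch pw spinAt Mark avg)
open Vale.Agent.P157.Par
open Vale.Agent.P157.Full (qh qhm_mem dist1_of_lvl sinh_div_cosh_eq)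
open Vale.Agent.P157.Full.Sym (swapC markEquiv spinAt_map measurePreserving_swapC site_map)

namespace Vale.Agent.P166.Hopf

open Par.Multi

set_option linter.unusedSectionVars false

variable {s : ℕ}

/-- the self-consistent overlaps of a profile at given labels -/
noncomputable def qmapV {M : ℕ} (P : Fam s) (k : Fin M → Fin s) (α : ℝ) (R : ℕ) (q : ℕ → ℝ) : ℕ → ℝ :=
  qh R fun l => α * GbV P k R q l

lemma qmapV_mem (P : Fam s) {M : ℕ} (k : Fin M → Fin s) {α : ℝ} (hα : 0 ≤ α) {R : ℕ} (hR : 1 ≤ R) {q : ℕ → ℝ}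
    (hq : Prof R q 1) {l : ℕ} (hl : l ≤ R) : 0 ≤ qmapV P k α R q l ∧ qmapV P k α R q l ≤ 1 :=
  qhm_mem ((gbV_prof P k hR hq).scale hα) hl

/-- the generated overlaps are Lipschitz in the correlation profile -/
lemma qh_lip (D A : ℝ) : ∃ K : ℝ, 0 ≤ K ∧ ∀ (α : ℝ) (R : ℕ) (G G' : ℕ → ℝ), 0 ≤ α → α ≤ A → 1 ≤ R →
    Prof R G (D ^ 2) → Prof R G' (D ^ 2) →
    dist1 R (qh R fun l => α * G l) (qh R fun l => α * G' l) ≤ K * dist1 R G G' := by
  obtain ⟨Kc, hKc, hc⟩ := Phi_lip sm_logcosh (|A| * D ^ 2)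
  refine ⟨3 * Kc * |A|, by positivity, fun α R G G' h0 h1 hR hG hG' => ?_⟩
  have hA : α ≤ |A| := h1.trans (le_abs_self A)
  set h := fun l => α * G l
  set h' := fun l => α * G' l
  have hh : Prof R h (|A| * D ^ 2) := (hG.scale h0).weaken (mul_le_mul_of_nonneg_right hA (sq_nonneg D))
  have hh' : Prof R h' (|A| * D ^ 2) := (hG'.scale h0).weaken (mul_le_mul_of_nonneg_right hA (sq_nonneg D))
  have hd : dist1 R h h' ≤ |A| * dist1 R G G' := by
    calc dist1 R h h' = α * dist1 R G G' := by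
          simp only [h, h', dist1, ← mul_sub, abs_mul, abs_of_nonneg h0, ← mul_sum]; ring
      _ ≤ _ := mul_le_mul_of_nonneg_right hA (dist1_nonneg _ _ _)
  have hl : ∀ l ≤ R, |qh R h l - qh R h' l| ≤ Kc * (|h l - h' l| + dist1 R h h') := fun l hl => by
    unfold qh
    split_ifs
    · have := (hc R h h' hR hh hh').2 l hl
      rw [cosh_eq_exp, sinh_div_cosh_eq] at this
      exact this.trans_eq (by unfold dist1; ring)
    · rw [sub_self, abs_zero]
      exact mul_nonneg hKc (add_nonneg (abs_nonneg _) (dist1_nonneg _ _ _))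
  refine (dist1_of_lvl hR hl).trans ?_
  rw [mul_assoc (3 * Kc)]
  exact mul_le_mul_of_nonneg_left hd (by positivity)

/-- the map at given labels is Lipschitz, and it is near the map with weights -/
lemma qmapV_lip (P : Fam s) (A : ℝ) : ∃ K : ℝ, 0 ≤ K ∧ ∀ {M : ℕ} (k : Fin M → Fin s) (α : ℝ) (R : ℕ) (q : ℕ → ℝ),
    0 ≤ α → α ≤ A → 1 ≤ R → Prof R q 1 →
    (∀ q', Prof R q' 1 → dist1 R (qmapV P k α R q) (qmapV P k α R q') ≤ K * dist1 R q q') ∧
    ∀ {p : Fin s → ℝ}, Wts p →
      dist1 R (qmapV P k α R q) (qh R fun l => α * Gam P p R (lin R) q l) ≤ K * ∑ j, |freq k j - p j| := by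
  obtain ⟨KQ, hKQ, hQ⟩ := qh_lip P.D A
  obtain ⟨KG, hKG, hG⟩ := gbV_lip P
  refine ⟨KQ * KG + KQ * (2 * P.D ^ 2), by positivity, fun {M} k α R q h0 hA hR hq => ⟨fun q' hq' => ?_, fun {p} hp => ?_⟩⟩
  · refine (hQ α R _ _ h0 hA hR (gbV_prof P k hR hq) (gbV_prof P k hR hq')).trans ?_
    have h1 := mul_le_mul_of_nonneg_left ((hG R q q' hR hq hq').1 k) hKQ
    have : 0 ≤ KQ * (2 * P.D ^ 2) * dist1 R q q' := mul_nonneg (by positivity) (dist1_nonneg _ _ _)
    linarith
  · refine (hQ α R _ _ h0 hA hR (gbV_prof P k hR hq)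
      (gam_prof P hp hR (fun _ hw => Vale.Agent.P168.MP.ok_lin hR hw) hq)).trans ?_
    have h1 := mul_le_mul_of_nonneg_left (gbV_freq (p := p) P k hR hq) hKQ
    have : 0 ≤ KQ * KG * ∑ j, |freq k j - p j| :=
      mul_nonneg (by positivity) (sum_nonneg fun _ _ => abs_nonneg _)
    linarith

/-! ### symmetry between the sites -/

variable {n S M R : ℕ} [NeZero n] {ι : Type} [Fintype ι] [DecidableEq ι] {β : ι → Batch} {a b : Fin n}
  {P : Fam s} {k : Fin M → Fin s} {h u : ι → ℝ}

lemma hamV_swap (g : Fin M → Fin n → ℝ) (σ : Fin n → Bool) :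
    hamV P k (swapC a b g) σ = hamV P k g (fun x => σ (Equiv.swap a b x)) := by
  unfold hamV
  refine congrArg exp (sum_congr rfl fun i _ => congrArg (P.f (k i)) ?_)
  unfold dot
  refine (Equiv.sum_comp (Equiv.swap a b) _).symm.trans (sum_congr rfl fun x _ => ?_)
  simp [swapC, Vale.Agent.P157.Lim.xv, Equiv.swap_apply_self]

lemma pw_swapV (g : Fin M → Fin n → ℝ) {p : List (Mark n S β)} (hp : p ≠ []) :
    pw R (hamV P k (swapC a b g)) h u p = pw R (hamV P k g) h u (p.map (markEquiv a b)) := by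
  obtain ⟨o, t, rfl⟩ := List.exists_cons_of_ne_nil hp
  rw [pw, pw, hamV_swap, spinAt_map]
  congr 2
  refine sum_congr rfl fun i _ => ?_
  have hv : spinAt R ((o :: t).map (markEquiv a b))
      (Vale.Agent.P168.MP.siteAt ((o :: t).map (markEquiv a b)) i 1).1 =
      spinAt R (o :: t) (Vale.Agent.P168.MP.siteAt (o :: t) i 1).1 := by
    rw [spinAt_map]
    simp [Vale.Agent.P168.MP.siteAt, markEquiv, Equiv.swap_apply_self]
  rw [Vale.Agent.P168.MP.gain1, Vale.Agent.P168.MP.gain1,
    Vale.Agent.P168.MP.psiH_transfer (β i.1) hv (site_map (o :: t) i),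
    Vale.Agent.P168.MP.psi0_transfer (β i.1) hv (site_map (o :: t) i)]

/-- the correlation of site `x` between two replicas -/
noncomputable def pairV (P : Fam s) (R S : ℕ) (β : ι → Batch) (h u : ι → ℝ) (k : Fin M → Fin s) (l : ℕ)
    (g : Fin M → Fin n → ℝ) (x : Fin n) : ℝ :=
  ET R (lin R) (pw (S := S) (β := β) R (hamV P k g) h u) [(0, l), (0, 0)] fun ps =>
    sg (spinAt R (ps.getD 0 []) x) * sg (spinAt R (ps.getD 1 []) x)

lemma qV_eq (g : Fin M → Fin n → ℝ) (l : ℕ) :
    qV P R S β h u k g l = qlev R (pw (S := S) (β := β) R (hamV P k g) h u) (spinAt R) l := by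
  rw [← wV_eq_pw]; rfl

lemma qV_avg (g : Fin M → Fin n → ℝ) (l : ℕ) :
    qV P R S β h u k g l = avg (pairV P R S β h u k l g) := by
  rw [qV_eq]
  simp only [qlev, ovK, ov, avg, pairV, div_eq_mul_inv,
    Vale.Agent.P168.MP.ET_mul_const, Vale.Agent.P168.MP.ET_sum]

lemma pairV_swap (hR : 1 ≤ R) {l : ℕ} (hl : l ≤ R) (g : Fin M → Fin n → ℝ) (x : Fin n) :
    pairV P R S β h u k l (swapC a b g) x = pairV P R S β h u k l g (Equiv.swap a b x) := by
  unfold pairV
  rw [Vale.Agent.P168.MP.ET_congr_weight (valid2 hl)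
      (w' := fun p => pw R (hamV P k g) h u (p.map (markEquiv a b))) (fun q hq => pw_swapV g (by
        rintro rfl; simp at hq; omega)),
    Vale.Agent.P168.MP.ET_equiv (markEquiv a b)]
  congr 1
  funext ps
  rw [show ([] : List (Mark n S β)) = List.map (markEquiv a b).symm [] from rfl, List.getD_map,
    List.getD_map, show (markEquiv (S := S) (β := β) a b).symm = markEquiv a b from rfl]
  simp [spinAt_map]

lemma qV_min (g : Fin M → Fin n → ℝ) (l : ℕ) :
    qV P R S β h u k g l = qV P R S β h u k g (min l R) := by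
  rcases le_total l R with hl | hl
  · rw [min_eq_left hl]
  · rw [min_eq_right hl]
    simp only [qV, qbV, qlev, Vale.Agent.P168.MP.ET_cons, Vale.Agent.P168.MP.ET_nil, Nat.sub_self,
      Nat.sub_eq_zero_of_le hl, Vale.Agent.P168.MP.ext_zero, List.nil_append, List.cons_append,
      List.getD_cons_zero, List.take_zero, Nat.sub_zero]
    refine ext_congr_len fun p hp => ?_
    rw [List.take_of_length_le (hp.le.trans hl), List.take_of_length_le hp.le]

lemma qV_swap (hR : 1 ≤ R) (g : Fin M → Fin n → ℝ) :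
    qV P R S β h u k (swapC a b g) = qV P R S β h u k g := by
  funext l
  rw [qV_min _ l, qV_min g l, qV_avg, qV_avg]
  simp only [funext (pairV_swap (P := P) (k := k) (h := h) (u := u) (a := a) (b := b) hR (min_le_right l R) g)]
  exact Vale.Agent.P168.MP.avg_equiv (Equiv.swap a b) _

lemma continuous_pw_hamV {N : ℕ} [NeZero N] (p : List (Mark N S β)) :
    Continuous fun g : Fin M → Fin N → ℝ => pw R (hamV P k g) h u p :=
  (continuous_hamV P k _).mul continuous_const

lemma pw_hamV_pos {N : ℕ} [NeZero N] (g : Fin M → Fin N → ℝ) (p : List (Mark N S β)) :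
    0 < pw R (hamV P k g) h u p :=
  mul_pos (hamV_pos P k g _) (exp_pos _)

/-- the mean overlap may be read at the last site -/
theorem site_symV {N : ℕ} (hR : 1 ≤ R) {F : (ℕ → ℝ) → ℝ} {C : ℝ}
    (hc : Continuous fun g : Fin M → Fin (N + 1) → ℝ => F (qV P R S β h u k g))
    (hb : ∀ g : Fin M → Fin (N + 1) → ℝ, |F (qV P R S β h u k g)| ≤ C) {l : ℕ} (hl : l ≤ R) :
    ∫ g : Fin M → Fin (N + 1) → ℝ, F (qV P R S β h u k g) * qV P R S β h u k g l ∂pats (N + 1) M =
      ∫ g : Fin M → Fin (N + 1) → ℝ, F (qV P R S β h u k g) *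
        pairV P R S β h u k l g (Fin.last N) ∂pats (N + 1) M := by
  set H : Fin (N + 1) → (Fin M → Fin (N + 1) → ℝ) → ℝ := fun x g =>
    F (qV P R S β h u k g) * pairV P R S β h u k l g x with hH
  have hcont : ∀ x, Continuous (H x) := fun x => hc.mul
    (continuous_ET continuous_pw_hamV pw_hamV_pos R _ fun _ => continuous_const)
  have hint : ∀ x, Integrable (H x) (pats (N + 1) M) := fun x =>
    Integrable.of_bound (hcont x).aestronglyMeasurable C (Filter.Eventually.of_forall fun g => by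
      rw [Real.norm_eq_abs, hH, abs_mul]
      refine (mul_le_mul (hb g) (Vale.Agent.P168.MP.ET_bound (pw_hamV_pos g) (C := 1) fun ps => ?_)
        (abs_nonneg _) ((abs_nonneg _).trans (hb g))).trans_eq (mul_one C)
      rw [abs_mul, Vale.Agent.P168.abs_sg, Vale.Agent.P168.abs_sg, one_mul])
  have key : ∀ x, ∫ g, H x g ∂pats (N + 1) M = ∫ g, H (Fin.last N) g ∂pats (N + 1) M := fun x => by
    have hp := measurePreserving_swapC (M := M) x (Fin.last N)
    conv_rhs => rw [← hp.map_eq, integral_map hp.measurable.aemeasurable (hcont _).aestronglyMeasurable]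
    refine integral_congr_ae (Filter.Eventually.of_forall fun g => ?_)
    simp only [hH, pairV_swap hR hl, Equiv.swap_apply_right,
      qV_swap (a := x) (b := Fin.last N) hR g]
  calc ∫ g, F (qV P R S β h u k g) * qV P R S β h u k g l ∂pats (N + 1) M
      = ∫ g, avg (fun x => H x g) ∂pats (N + 1) M := by
        simp only [hH, Vale.Agent.P168.MP.avg_mul_left, qV_avg]
    _ = avg fun x => ∫ g, H x g ∂pats (N + 1) M := by
        simp only [avg]; rw [integral_div, integral_finsetSum _ fun x _ => hint x]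
    _ = _ := by simp only [key, Vale.Agent.P168.MP.avg_const]; rfl

end Vale.Agent.P166.Hopf
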