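import Vale.Agent.P166.Hopf.LowerSpin
import Vale.Agent.P166.Hopf.LowerMap
import Vale.Agent.P166.Par.Multi.SiteInt
import Vale.Agent.P157.Full.Cross

/-! One step of the self-consistency at fixed labels: the enlarged system against its base, at fixed base
patterns. -/

open MeasureTheory ProbabilityTheory Real Finset
open Vale.Agent.P150 (gauss dot)
open Vale.Agent.P168 (sg)
open Vale.Agent.P168.MP (lin ET Batch Mark pw spinAt gain1)
open Vale.Agent.P157.Lim (xv)
open Vale.Agent.P157.Par
open Vale.Agent.P157.Full (qh prodW spinPr ov_down grow_pair lse abs_le_lse lse_nonneg continuous_addC)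

namespace Vale.Agent.P166.Hopf

open Par.Multi

set_option linter.unusedSectionVars false

variable {s : ℕ} [NeZero s]

/-- the spin of the last site is one of the two values -/
lemma abs_pairV_le {ι : Type} [Fintype ι] [DecidableEq ι] {β : ι → Batch} {R S n M : ℕ} [NeZero n] {P : Fam s}
    {k : Fin M → Fin s} {h u : ι → ℝ} (l : ℕ) (G : Fin M → Fin n → ℝ) (x : Fin n) :
    |pairV P R S β h u k l G x| ≤ 1 :=
  Vale.Agent.P168.MP.ET_bound (pw_hamV_pos G) fun ps => by
    rw [abs_mul, Vale.Agent.P168.abs_sg, Vale.Agent.P168.abs_sg, mul_one]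

lemma continuous_pairV {ι : Type} [Fintype ι] [DecidableEq ι] {β : ι → Batch} {R S n M : ℕ} [NeZero n] {P : Fam s}
    {k : Fin M → Fin s} {h u : ι → ℝ} (l : ℕ) (x : Fin n) :
    Continuous fun G : Fin M → Fin n → ℝ => pairV P R S β h u k l G x :=
  continuous_ET continuous_pw_hamV pw_hamV_pos R _ fun _ => continuous_const

section sys
variable {P : Fam s} {ι : Type} [Fintype ι] [DecidableEq ι] {β : ι → Batch} {R S N M : ℕ} [NeZero N] {h u : ι → ℝ} {k : Fin M → Fin s}

/-- deviation of the correlation of the derivatives at fixed patterns -/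
noncomputable def adKV (P : Fam s) (R S : ℕ) (β : ι → Batch) (h u : ι → ℝ) (k : Fin M → Fin s)
    (g : Fin M → Fin N → ℝ) : ℝ :=
  adev R (pw (S := S) (β := β) R (hamV P k g) h u) (qKV P k (spinAt R) g) (GbV P k R (qV P R S β h u k g))

lemma adKV_nonneg (g : Fin M → Fin N → ℝ) : 0 ≤ adKV P R S β h u k g :=
  adev_nn (pw_hamV_pos g)

lemma adKV_props (hR : 1 ≤ R) :
    Integrable (adKV (N := N) (M := M) P R S β h u k) (pats N M) := by
  have := (integrable_adev_of hR (μ := pats N M)
    (w := fun g => wV P R S β h u k g) (C := fun g => qKV P k (spinAt R) g)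
    (q := fun g => GbV P k R (qV P R S β h u k g))
    fun l hl => integrable_qKVdev P k hR (w₀ := gW R S β h u N) (fun _ => exp_pos _) (spinAt R) hl).1
  refine this.congr (Filter.Eventually.of_forall fun g => ?_)
  simp only [adKV, wV_eq_pw]

/-- the error of one step at fixed base patterns -/
noncomputable def stepErrV (P : Fam s) (R S : ℕ) (β : ι → Batch) (h u : ι → ℝ) (k : Fin M → Fin s) (α U K C : ℝ)
    (g : Fin M → Fin N → ℝ) : ℝ :=
  2 * ((1 / √((N:ℝ) + 1)) ^ 2 * lse g / U) + (2 * C + 2) / ((N:ℝ) + 1) +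
    K * (adV P R S β h u k g + adKV P R S β h u k g + |(M:ℝ) * (1 / √((N:ℝ) + 1)) ^ 2 - α| +
      (1 / √((N:ℝ) + 1)) ^ 2 * (1 / √((N:ℝ) + 1)) ^ 2 * gsum g + 1 / √((N:ℝ) + 1))

/-- sums of the deviations over the levels -/
lemma sdevV_sum (P : Fam s) (k : Fin M → Fin s) {Ω : Type} [Fintype Ω] [Nonempty Ω] {R : ℕ} (hR : 1 ≤ R) {w : List Ω → ℝ}
    (hw : ∀ p, 0 < w p) (rd : List Ω → Fin N → Bool) (g : Fin M → Fin N → ℝ) (q : ℕ → ℝ) :
    ∑ l ∈ range R, sdevV P k R w rd g q l ≤
      2 * (R * (adev R w (ovK rd) q + adev R w (qKV P k rd g) (GbV P k R q))) := by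
  have hR' : (0:ℝ) < R := by exact_mod_cast hR
  have key : ∀ (C : List Ω → List Ω → ℝ) (q : ℕ → ℝ), ∑ l ∈ range R, devOf R w C q l ≤ R * adev R w C q := by
    intro C q
    unfold adev
    rw [mul_add, mul_div_cancel₀ _ hR'.ne']
    exact le_add_of_nonneg_right (mul_nonneg hR'.le (devOf_nn hw R))
  simp only [sdevV, sum_add_distrib, sum_const, card_range, nsmul_eq_mul]
  linarith [key (ovK rd) q, key (qKV P k rd g) (GbV P k R q)]

end sys

/-- **One step**: the overlaps move little and the new spin is self-consistent -/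
theorem crossV (P : Fam s) {α : ℝ} (hα : 0 ≤ α) {U : ℝ} (hU : 0 < U) :
    ∃ K : ℝ, 0 ≤ K ∧ ∀ {ι : Type} [Fintype ι] [DecidableEq ι] (β : ι → Batch) (R S : ℕ), 2 ≤ R →
      ∃ C : ℝ, 0 ≤ C ∧ ∀ {h u : ι → ℝ}, (∀ j, |h j| ≤ 1) → (∀ j, |u j| ≤ 1) →
      ∀ {N M : ℕ} [NeZero N], (M : ℝ) * (1 / √((N:ℝ) + 1)) ^ 2 ≤ α → ∀ (k : Fin M → Fin s) (g : Fin M → Fin N → ℝ),
        ∫ z, (∑ l ∈ range R, |qV P R S β h u k (addC g z) l - qV P R S β h u k g l|) ∂gauss (Fin M) ≤
            R * stepErrV P R S β h u k α U K C g ∧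
          ∑ l ∈ range R, |(∫ z, pairV P R S β h u k l (addC g z) (Fin.last N) ∂gauss (Fin M)) -
              qmapV P k α R (qV P R S β h u k g) l| ≤ R * stepErrV P R S β h u k α U K C g := by
  obtain ⟨K, hK, hsite⟩ := site_spin P α U
  refine ⟨4 * K, by positivity, ?_⟩
  intro ι _ _ β R S hR
  obtain ⟨C, hC, hgrow⟩ := grow_pair β R S hR
  refine ⟨C, hC, ?_⟩
  intro h u hh hu N M _ hMt k g
  have hR1 : 1 ≤ R := by omega
  have hf := fun j => (P.sm j).cont0
  set t := 1 / √((N:ℝ) + 1) with ht
  set c := √(N:ℝ) / √((N:ℝ) + 1)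
  have ht0 : 0 < t := by positivity
  have ht2 : t ^ 2 = 1 / ((N:ℝ) + 1) := by rw [ht, div_pow, one_pow, Real.sq_sqrt (by positivity)]
  have hct : c ^ 2 + t ^ 2 = 1 := by
    rw [ht2, div_pow, Real.sq_sqrt (Nat.cast_nonneg N), Real.sq_sqrt (by positivity)]; field_simp
  set q := qV P R S β h u k g with hqdef
  have hq : Prof R q 1 := qV_prof g
  set w := pw (S := S) (β := β) R (hamV P k g) h u
  have hw : ∀ p, 0 < w p := pw_hamV_pos g
  set E0 := |(M:ℝ) * t ^ 2 - α| + t ^ 2 * t ^ 2 * gsum g + t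
  have hgs : 0 ≤ gsum g := sum_nonneg fun _ _ => sum_nonneg fun _ _ => by positivity
  have hE0 : 0 ≤ E0 := by positivity
  have hP : 0 ≤ adV P R S β h u k g := adV_nonneg g
  have hKd : 0 ≤ adKV P R S β h u k g := adKV_nonneg g
  have hlse := lse_nonneg g
  have hN1 : (0:ℝ) < (N:ℝ) + 1 := by positivity
  have hR' : (0:ℝ) < R := by exact_mod_cast hR1
  set E := stepErrV P R S β h u k α U (4 * K) C g with hE
  have hEeq : E = 2 * (t ^ 2 * lse g / U) + (2 * C + 2) / ((N:ℝ) + 1) +
      4 * K * (adV P R S β h u k g + adKV P R S β h u k g + E0) := by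
    simp only [hE, stepErrV, E0, ← ht]; ring
  -- both quantities are bounded
  have hq1 : ∀ z, ∀ l ≤ R, |qV P R S β h u k (addC g z) l - q l| ≤ 2 := fun z l hl => by
    have a := (qV_prof (P := P) (κ := k) (h := h) (u := u) (S := S) (β := β) (R := R) (addC g z)).upper hl
    have b := hq.upper hl
    rw [abs_le]; constructor <;> linarith
  have hcw : ∀ z : Fin M → ℝ, ∀ p, Continuous fun z : Fin M → ℝ =>
      pw (S := S) (β := β) R (hamV P k (addC g z)) h u p := fun _ p =>
    (continuous_pw_hamV p).comp (continuous_addC g)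
  have hic : ∀ {H : (Fin M → Fin (N + 1) → ℝ) → ℝ}, Continuous H → ∀ {b : ℝ}, (∀ G, |H G| ≤ b) →
      Integrable (fun z => H (addC g z)) (gauss (Fin M)) := fun {H} hH {b} hb =>
    Integrable.of_bound (hH.comp (continuous_addC g)).aestronglyMeasurable b
      (Filter.Eventually.of_forall fun z => (Real.norm_eq_abs _).trans_le (hb _))
  by_cases hbad : U < t ^ 2 * lse g
  · have h1 : 1 ≤ t ^ 2 * lse g / U := (one_le_div hU).2 hbad.le
    have hE2 : 2 ≤ E := by
      have : 0 ≤ (2 * C + 2) / ((N:ℝ) + 1) := by positivity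
      have : 0 ≤ 4 * K * (adV P R S β h u k g + adKV P R S β h u k g + E0) := by positivity
      rw [hEeq]; linarith
    constructor
    · refine (integral_mono_of_nonneg (Filter.Eventually.of_forall fun z => sum_nonneg fun _ _ => abs_nonneg _)
        (integrable_const ((R:ℝ) * E)) (Filter.Eventually.of_forall fun z => ?_)).trans_eq (by simp)
      refine (sum_le_sum fun l hl => (hq1 z l (mem_range.1 hl).le).trans hE2).trans_eq ?_
      simp
    · refine (sum_le_sum (g := fun _ => E) fun l hl => le_trans ?_ hE2).trans_eq (by simp)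
      have a := abs_integral_le_integral_abs (μ := gauss (Fin M))
        (f := fun z => pairV P R S β h u k l (addC g z) (Fin.last N))
      have b : ∫ z, |pairV P R S β h u k l (addC g z) (Fin.last N)| ∂gauss (Fin M) ≤ 1 := by
        refine (integral_mono_of_nonneg (Filter.Eventually.of_forall fun z => abs_nonneg _)
          (integrable_const (1:ℝ)) (Filter.Eventually.of_forall fun z => abs_pairV_le l _ _)).trans_eq (by simp)
      have c' := qmapV_mem P k hα hR1 hq (mem_range.1 hl).le
      refine (abs_sub _ _).trans ?_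
      rw [abs_of_nonneg c'.1]
      linarith [c'.2]
  rw [not_lt] at hbad
  have hu' : ∀ p : List (Mark N S β), t ^ 2 * ∑ a, |uat (spinAt R) g p a| ≤ U := fun p =>
    (mul_le_mul_of_nonneg_left (abs_le_lse g (spinAt R p)) (sq_nonneg t)).trans hbad
  have hsite' := fun l (hl : l < R) => hsite (R := R) hR1 k (spinAt R) hw g (c := c) (t := t) (α := α)
    (by positivity) ht0 hct hMt hα le_rfl hu' hq hl
  -- the enlarged system against the product system
  have eW : ∀ z, hamV P k (addC g z) = fun τ : Fin (N + 1) → Bool => hamV P k g (fun i => τ i.castSucc) *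
      siteFV P k c t g z (fun i => τ i.castSucc) (τ (Fin.last N)) := fun z => funext fun τ => hamV_addC P k g z τ
  set V := fun z : Fin M → ℝ => prodW R w fun p s => siteFV P k c t g z (spinAt R p) s
  have hVp : ∀ z p, 0 < V z p := fun z p => mul_pos (hw _) (exp_pos _)
  have hVc : ∀ p, Continuous fun z => V z p := fun p => by
    simp only [V, prodW, siteFV]
    fun_prop
  have hint : ∀ (l : ℕ) (Φ : List (List (Mark N S β × Bool)) → ℝ) (b : ℝ), (∀ ps, |Φ ps| ≤ b) →
      Integrable (fun z => ET R (lin R) (V z) [(0, l), (0, 0)] Φ) (gauss (Fin M)) := fun l Φ b hb =>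
    Integrable.of_bound (continuous_ET (m := lin R) hVc hVp R [(0, l), (0, 0)] (F := fun _ => Φ) fun _ => continuous_const).aestronglyMeasurable b
      (Filter.Eventually.of_forall fun z => (Real.norm_eq_abs _).trans_le
        (Vale.Agent.P168.MP.ET_bound (hVp z) hb))
  set A := fun (l : ℕ) => sdevV P k R w (spinAt R) g q l + E0
  have hA : ∀ l, sdevV P k R w (spinAt R) g q l + |(M:ℝ) * t ^ 2 - α| + t ^ 2 * t ^ 2 * gsum g + t = A l :=
    fun l => by simp only [A, E0]; ring
  simp only [hA] at hsite'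
  have hO : ∀ l < R, |(∫ z, pairV P R S β h u k l (addC g z) (Fin.last N) ∂gauss (Fin M)) -
      qmapV P k α R q l| ≤ C / ((N:ℝ) + 1) + K * A l := by
    intro l hl
    have hg : ∀ z, |pairV P R S β h u k l (addC g z) (Fin.last N) - ET R (lin R) (V z) [(0, l), (0, 0)] (spinPr R)| ≤
        C / ((N:ℝ) + 1) := fun z => by
      rw [pairV, eW z]
      exact hgrow (fun σ => hamV_pos P k g σ) (c := siteFV P k c t g z) (fun _ _ => exp_pos _) hh hu hl
        (fun _ s _ s' => sg s * sg s') fun _ s _ s' => by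
          rw [abs_mul, Vale.Agent.P168.abs_sg, Vale.Agent.P168.abs_sg, mul_one]
    have i1 := hic (continuous_pairV (P := P) (k := k) (R := R) (S := S) (β := β) (h := h) (u := u) l (Fin.last N)) fun G => abs_pairV_le l G _
    have i2 := hint l (spinPr R) 1 fun ps => by
      rw [spinPr, abs_mul, Vale.Agent.P168.abs_sg, Vale.Agent.P168.abs_sg, mul_one]
    have d : |(∫ z, pairV P R S β h u k l (addC g z) (Fin.last N) ∂gauss (Fin M)) -
        ∫ z, ET R (lin R) (V z) [(0, l), (0, 0)] (spinPr R) ∂gauss (Fin M)| ≤ C / ((N:ℝ) + 1) := by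
      rw [← integral_sub i1 i2]
      refine abs_integral_le_integral_abs.trans ?_
      exact (integral_mono (i1.sub i2).abs (integrable_const _) hg).trans_eq (by simp)
    exact (abs_sub_le _ _ _).trans (add_le_add d (hsite' l hl).1)
  have hQ : ∀ l < R, ∫ z, |qV P R S β h u k (addC g z) l - q l| ∂gauss (Fin M) ≤
      (2 * C + 2) / ((N:ℝ) + 1) + K * A l := by
    intro l hl
    set Φ : (Fin N → Bool) → Bool → (Fin N → Bool) → Bool → ℝ := fun σ _ σ' _ => |ov σ σ' - q l| / 2
    have hql := hq.upper hl.le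
    have hΦ : ∀ σ s σ' s', |Φ σ s σ' s'| ≤ 1 := fun σ s σ' s' => by
      simp only [Φ]
      rw [abs_of_nonneg (by positivity), div_le_one two_pos]
      refine (abs_sub _ _).trans ?_
      rw [abs_of_nonneg hql.1]
      linarith [abs_ov_le σ σ', hql.2]
    set Pz := fun z : Fin M → ℝ => ET R (lin R) (V z) [(0, l), (0, 0)] fun ps =>
      |ov (spinAt R ((ps.getD 0 []).map Prod.fst)) (spinAt R ((ps.getD 1 []).map Prod.fst)) - q l|
    have hg : ∀ z, |qV P R S β h u k (addC g z) l - q l| ≤ Pz z + (2 * C + 2) / ((N:ℝ) + 1) := fun z => by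
      have hwz := pw_hamV_pos (P := P) (k := k) (R := R) (S := S) (β := β) (h := h) (u := u) (addC g z)
      have e : qV P R S β h u k (addC g z) l - q l =
          ET R (lin R) (pw (S := S) (β := β) R (hamV P k (addC g z)) h u) [(0, l), (0, 0)] fun ps =>
            ovK (spinAt R) (ps.getD 0 []) (ps.getD 1 []) - q l := by
        rw [Vale.Agent.P168.MP.ET_sub, Vale.Agent.P168.MP.ET_const hwz, qV_eq]; rfl
      have h1 := hgrow (fun σ => hamV_pos P k g σ) (c := siteFV P k c t g z) (fun _ _ => exp_pos _) hh hu hl Φ hΦ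
      rw [← eW z] at h1
      simp only [Φ, div_eq_mul_inv _ (2:ℝ), Vale.Agent.P168.MP.ET_mul_const] at h1
      rw [← sub_mul, abs_mul, abs_of_pos (show (0:ℝ) < 2⁻¹ by norm_num)] at h1
      have h1' := (abs_le.1 ((mul_inv_le_iff₀ (two_pos (α := ℝ))).1 h1)).2
      rw [e]
      refine (Vale.Agent.P168.MP.ET_abs_le hwz _ _).trans ?_
      refine (Vale.Agent.P168.MP.ET_mono hwz (G := fun ps =>
        |ov (fun x => spinAt R (ps.getD 0 []) x.castSucc) (fun x => spinAt R (ps.getD 1 []) x.castSucc) - q l| +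
          2 / ((N:ℝ) + 1)) fun ps => ?_).trans ?_
      · refine (abs_sub_le _ _ _).trans ((add_comm _ _).trans_le (add_le_add le_rfl ?_))
        exact ov_down _ _
      · rw [Vale.Agent.P168.MP.ET_add, Vale.Agent.P168.MP.ET_const hwz,
          show (2 * C + 2) / ((N:ℝ) + 1) = C / ((N:ℝ) + 1) * 2 + 2 / ((N:ℝ) + 1) by ring, ← add_assoc]
        simp only [Pz]
        linarith
    have i1 := (hic (((continuous_qV (P := P) (κ := k) (R := R) (S := S) (β := β) (h := h) (u := u) l).sub continuous_const).abs)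
      (b := 2) fun G => by
        have a := (qV_prof (P := P) (κ := k) (h := h) (u := u) (S := S) (β := β) (R := R) G).upper hl.le
        simp only [Pi.sub_apply, abs_abs]
        rw [abs_le]; constructor <;> linarith [hql.1, hql.2])
    have i2 : Integrable Pz (gauss (Fin M)) := hint l _ 2 fun ps => by
      rw [abs_abs]
      refine (abs_sub _ _).trans ?_
      rw [abs_of_nonneg hql.1]
      linarith [abs_ov_le (spinAt R ((ps.getD 0 []).map Prod.fst)) (spinAt R ((ps.getD 1 []).map Prod.fst)), hql.2]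
    refine (integral_mono i1 (i2.add (integrable_const _)) hg).trans ?_
    simp only [Pi.add_apply]
    rw [integral_add i2 (integrable_const _)]
    simp only [integral_const, probReal_univ, one_smul]
    linarith [(hsite' l hl).2]
  -- sum over the levels
  have hsum : ∀ {x : ℕ → ℝ}, (∀ l < R, x l ≤ (2 * C + 2) / ((N:ℝ) + 1) + K * A l) →
      ∑ l ∈ range R, x l ≤ R * E := by
    intro x hx
    refine (sum_le_sum fun l hl => hx l (mem_range.1 hl)).trans ?_
    simp only [A, sum_add_distrib, ← mul_sum, sum_const, card_range, nsmul_eq_mul]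
    have hs := mul_le_mul_of_nonneg_left (sdevV_sum P k hR1 hw (spinAt R) g q) hK
    have h0 : 0 ≤ (R:ℝ) * (2 * (t ^ 2 * lse g / U)) := by positivity
    have h4 : K * (R * E0) ≤ 4 * K * (R * E0) := by nlinarith [mul_nonneg hK (mul_nonneg hR'.le hE0)]
    have h5 : 2 * (K * (R * (adV P R S β h u k g + adKV P R S β h u k g))) ≤
        4 * K * (R * (adV P R S β h u k g + adKV P R S β h u k g)) := by
      nlinarith [mul_nonneg hK (mul_nonneg hR'.le (add_nonneg hP hKd))]
    rw [hEeq]
    simp only [adV, adKV, wV_eq_pw, ← hqdef] at hs h5 ⊢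
    linarith
  constructor
  · rw [integral_finsetSum]
    · exact hsum hQ
    · intro l hl
      exact hic (((continuous_qV (P := P) (κ := k) (R := R) (S := S) (β := β) (h := h) (u := u) l).sub continuous_const).abs)
        (b := 2) fun G => by
        have a := (qV_prof (P := P) (κ := k) (h := h) (u := u) (S := S) (β := β) (R := R) G).upper (mem_range.1 hl).le
        have b := hq.upper (mem_range.1 hl).le
        simp only [Pi.sub_apply, abs_abs]
        rw [abs_le]; constructor <;> linarith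
  · refine hsum fun l hl => (hO l hl).trans (add_le_add ?_ le_rfl)
    exact div_le_div_of_nonneg_right (by linarith) hN1.le

end Vale.Agent.P166.Hopf
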