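import Vale.Agent.P166.Hopf.LowerCross
import Vale.Agent.P157.Full.SelfCons

/-! Self-consistency of the overlaps of the perturbed system at fixed labels. -/

open MeasureTheory ProbabilityTheory Real Finset Filter
open scoped Topology
open Vale.Agent.P150 (gauss)
open Vale.Agent.P168.MP (lin Batch pw spinAt avg allBatch BIdx gu)
open Vale.Agent.P157.Par
open Vale.Agent.P157.Full (qh exists_small lse integral_lse continuous_addC)

namespace Vale.Agent.P166.Hopf

open Par.Multi

set_option linter.unusedSectionVars false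

variable {s : ℕ} [NeZero s]

section sys
variable {P : Fam s} {ι : Type} [Fintype ι] [DecidableEq ι] {β : ι → Batch} {R S N M : ℕ} [NeZero N] {h u : ι → ℝ} {k : Fin M → Fin s}

/-- a continuous Lipschitz family of profile functionals, level by level -/
lemma continuous_qmapV {α : ℝ} (hα : 0 ≤ α) (hR : 1 ≤ R) {l : ℕ} (hl : l < R) :
    Continuous fun G : Fin M → Fin N → ℝ => qmapV P k α R (qV P R S β h u k G) l := by
  obtain ⟨K, hK, hlip⟩ := qmapV_lip P α
  have hR' : (0:ℝ) < R := by exact_mod_cast hR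
  refine (cont_functional (X := Fin M → Fin N → ℝ) hR (F := fun q => qmapV P k α R q l) (K := R * K)
    (by positivity) (fun q q' hq hq' => ?_) (fun g => qV_prof g) fun l => continuous_qV l).1
  have h1 := (hlip k α R q hα le_rfl hR hq).1 q' hq'
  have h2 : |qmapV P k α R q l - qmapV P k α R q' l| ≤ R * dist1 R (qmapV P k α R q) (qmapV P k α R q') := by
    have := single_le_sum (f := fun j => |qmapV P k α R q j - qmapV P k α R q' j|)
      (fun j _ => abs_nonneg _) (mem_range.2 hl)
    refine this.trans ?_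
    rw [dist1, mul_add, mul_div_cancel₀ _ hR'.ne']
    exact le_add_of_nonneg_right (by positivity)
  rw [mul_assoc]
  exact h2.trans (mul_le_mul_of_nonneg_left h1 hR'.le)

/-- at the top both profiles are one -/
lemma dist1_qmapV (α : ℝ) (g : Fin M → Fin N → ℝ) :
    dist1 R (qV P R S β h u k g) (qmapV P k α R (qV P R S β h u k g)) =
      (∑ l ∈ range R, |qV P R S β h u k g l - qmapV P k α R (qV P R S β h u k g) l|) / R := by
  have h1 : qV P R S β h u k g R = 1 := qV_top g
  simp [dist1, h1, qmapV, qh]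

lemma integrable_dist1_qmapV {α : ℝ} (hα : 0 ≤ α) (hR : 1 ≤ R) :
    Integrable (fun g : Fin M → Fin N → ℝ =>
      dist1 R (qV P R S β h u k g) (qmapV P k α R (qV P R S β h u k g))) (pats N M) := by
  simp only [dist1_qmapV]
  refine (integrable_finsetSum _ fun l hl => ?_).div_const _
  have hl' := mem_range.1 hl
  refine Integrable.of_bound (((continuous_qV l).sub
    (continuous_qmapV hα hR hl')).abs).aestronglyMeasurable 1 (Eventually.of_forall fun g => ?_)
  have a := (qV_prof (P := P) (κ := k) (h := h) (u := u) (S := S) (β := β) (R := R) g).upper hl'.le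
  have b := qmapV_mem P k hα hR (qV_prof (P := P) (κ := k) (h := h) (u := u) (S := S) (β := β) (R := R) g) hl'.le
  simp only [Real.norm_eq_abs, abs_abs]
  rw [abs_le]; constructor <;> linarith

end sys

/-- **Self-consistency at fixed perturbation parameters** -/
theorem self_boundV (P : Fam s) {α : ℝ} (hα : 0 ≤ α) : ∃ L K₂ : ℝ, 0 ≤ L ∧ 0 ≤ K₂ ∧
    ∀ {U : ℝ}, 0 < U → ∃ K : ℝ, 0 ≤ K ∧ ∀ {ι : Type} [Fintype ι] [DecidableEq ι] (β : ι → Batch) (R S : ℕ), 2 ≤ R →
      ∃ C : ℝ, 0 ≤ C ∧ ∀ {h u : ι → ℝ}, (∀ j, |h j| ≤ 1) → (∀ j, |u j| ≤ 1) →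
      ∀ {N M : ℕ} [NeZero N] (k : Fin M → Fin s), 2 ≤ M → (M : ℝ) * (1 / √((N:ℝ) + 1)) ^ 2 ≤ α →
      ∀ {θ θ' : ℝ}, 0 < θ → 0 < θ' →
        ∫ G : Fin M → Fin (N + 1) → ℝ, dist1 R (qV P R S β h u k G) (qmapV P k α R (qV P R S β h u k G))
            ∂pats (N + 1) M ≤
          θ + L / (4 * θ) * (2 * (1 + 2 * α) / U + (2 * C + 2) / ((N:ℝ) + 1) +
            K * (ADV P R S β h u N k + (2 * θ' + K₂ / θ' * (ADV P R S β h u N k + 1 / M)) +
              |(M:ℝ) * (1 / √((N:ℝ) + 1)) ^ 2 - α| + (2 * α + 1) * (1 / √((N:ℝ) + 1)))) := by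
  obtain ⟨LQ, hLQ, hlip⟩ := qmapV_lip P α
  obtain ⟨K₂, hK₂, hqc⟩ := qconc_sumV P
  refine ⟨3 + 3 * LQ, K₂, by positivity, hK₂, fun {U} hU => ?_⟩
  obtain ⟨K, hK, hc0⟩ := crossV P hα hU
  refine ⟨K, hK, ?_⟩
  intro ι _ _ β R S hR
  obtain ⟨C, hC, hcross⟩ := hc0 β R S hR
  refine ⟨C, hC, ?_⟩
  intro h u hh hu N M _ k hM hMt θ θ' hθ hθ'
  have hR1 : 1 ≤ R := by omega
  have hR' : (0:ℝ) < R := by exact_mod_cast hR1
  set t := 1 / √((N:ℝ) + 1) with htdef
  have ht0 : 0 ≤ t := by positivity
  have ht2 : t ^ 2 = 1 / ((N:ℝ) + 1) := by rw [htdef, div_pow, one_pow, Real.sq_sqrt (by positivity)]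
  set Err := fun g : Fin M → Fin N → ℝ => stepErrV P R S β h u k α U K C g
  set μ := (pats N M).prod (gauss (Fin M))
  set qq := fun G : Fin M → Fin (N + 1) → ℝ => qV P R S β h u k G
  set X := fun (l : ℕ) (G : Fin M → Fin (N + 1) → ℝ) => qq G l - qmapV P k α R (qq G) l
  have hqc' : ∀ G l, l < R → (0 ≤ qq G l ∧ qq G l ≤ 1) ∧
      (0 ≤ qmapV P k α R (qq G) l ∧ qmapV P k α R (qq G) l ≤ 1) := fun G l hl =>
    ⟨(qV_prof G).upper hl.le, qmapV_mem P k hα hR1 (qV_prof G) hl.le⟩
  have hXc : ∀ l < R, Continuous (X l) := fun l hl =>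
    (continuous_qV l).sub (continuous_qmapV hα hR1 hl)
  have hX1 : ∀ G, ∀ l < R, |X l G| ≤ 1 := fun G l hl => by
    obtain ⟨a, b⟩ := hqc' G l hl
    rw [abs_le]; simp only [X]; constructor <;> linarith
  set O := fun (l : ℕ) (G : Fin M → Fin (N + 1) → ℝ) => pairV P R S β h u k l G (Fin.last N)
  set Qm := fun (l : ℕ) (G : Fin M → Fin (N + 1) → ℝ) => qmapV P k α R (qq G) l
  have hib : ∀ {H : (Fin M → Fin (N + 1) → ℝ) → ℝ}, Continuous H → ∀ {b : ℝ}, (∀ G, |H G| ≤ b) →
      Integrable H (pats (N + 1) M) := fun {H} hH {b} hb =>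
    Integrable.of_bound hH.aestronglyMeasurable b
      (Eventually.of_forall fun G => (Real.norm_eq_abs _).trans_le (hb G))
  -- the symmetry of the sites
  have hsq : ∀ l < R, ∫ G, X l G ^ 2 ∂pats (N + 1) M = ∫ G, X l G * (O l G - Qm l G) ∂pats (N + 1) M := by
    intro l hl
    have hsym := site_symV (P := P) (k := k) (β := β) (S := S) (M := M) (N := N) (h := h) (u := u) hR1
      (F := fun q => q l - qmapV P k α R q l) (C := 1) (hXc l hl) (fun G => hX1 G l hl) hl.le
    have i1 : Integrable (fun G => X l G * qq G l) (pats (N + 1) M) :=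
      hib ((hXc l hl).mul (continuous_qV l)) (b := 1) fun G => by
        obtain ⟨a, -⟩ := hqc' G l hl
        simp only [abs_mul]
        exact mul_le_one₀ (hX1 G l hl) (abs_nonneg _) (abs_le.2 ⟨by linarith, a.2⟩)
    have i2 : Integrable (fun G => X l G * Qm l G) (pats (N + 1) M) :=
      hib ((hXc l hl).mul (continuous_qmapV hα hR1 hl)) (b := 1) fun G => by
        obtain ⟨-, a⟩ := hqc' G l hl
        simp only [abs_mul]
        exact mul_le_one₀ (hX1 G l hl) (abs_nonneg _) (abs_le.2 ⟨by linarith, a.2⟩)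
    have i3 : Integrable (fun G => X l G * O l G) (pats (N + 1) M) :=
      hib ((hXc l hl).mul (continuous_pairV l (Fin.last N))) (b := 1) fun G => by
        simp only [abs_mul]
        exact mul_le_one₀ (hX1 G l hl) (abs_nonneg _) (abs_pairV_le l G (Fin.last N))
    calc ∫ G, X l G ^ 2 ∂pats (N + 1) M = ∫ G, (X l G * qq G l - X l G * Qm l G) ∂pats (N + 1) M :=
          integral_congr_ae (Eventually.of_forall fun G => by simp only [X, Qm]; ring)
      _ = (∫ G, X l G * O l G ∂pats (N + 1) M) - ∫ G, X l G * Qm l G ∂pats (N + 1) M := by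
          rw [integral_sub i1 i2]
          exact congrArg (· - _) hsym
      _ = _ := by
          rw [← integral_sub i3 i2]
          exact integral_congr_ae (Eventually.of_forall fun G => by ring)
  -- the cross terms at fixed base patterns
  set Y := fun G => ∑ l ∈ range R, X l G * (O l G - Qm l G)
  have hY1 : ∀ G, |Y G| ≤ R * 2 := fun G => by
    refine (abs_sum_le_sum_abs _ _).trans ((sum_le_sum (g := fun _ => (2:ℝ)) fun l hl => ?_).trans_eq (by simp))
    obtain ⟨-, a⟩ := hqc' G l (mem_range.1 hl)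
    rw [abs_mul]
    refine (mul_le_of_le_one_left (abs_nonneg _) (hX1 G l (mem_range.1 hl))).trans ((abs_sub _ _).trans ?_)
    have := abs_pairV_le (P := P) (k := k) (h := h) (u := u) (S := S) (β := β) (R := R) l G (Fin.last N)
    simp only [O, Qm]
    rw [abs_of_nonneg a.1]
    linarith [a.2]
  have hYc : Continuous Y := continuous_finsetSum _ fun l hl =>
    (hXc l (mem_range.1 hl)).mul ((continuous_pairV l (Fin.last N)).sub (continuous_qmapV hα hR1 (mem_range.1 hl)))
  have hYi : Integrable Y (pats (N + 1) M) := hib hYc hY1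
  have hYp : Integrable (fun p : (Fin M → Fin N → ℝ) × (Fin M → ℝ) => Y (addC p.1 p.2)) μ :=
    measurePreserving_addC.integrable_comp_of_integrable hYi
  have hpt : ∀ g, ∫ z, Y (addC g z) ∂gauss (Fin M) ≤ (3 + 3 * LQ) * (R * Err g) := by
    intro g
    obtain ⟨h1, h2⟩ := hcross hh hu hMt k g
    set q := qV P R S β h u k g
    have hq : Prof R q 1 := qV_prof g
    set Z := fun z => ∑ l ∈ range R, |qq (addC g z) l - q l|
    set W := fun (l : ℕ) z => O l (addC g z) - qmapV P k α R q l
    have hiz : ∀ {H : (Fin M → Fin (N + 1) → ℝ) → ℝ}, Continuous H → ∀ {b : ℝ}, (∀ G, |H G| ≤ b) →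
        Integrable (fun z => H (addC g z)) (gauss (Fin M)) := fun {H} hH {b} hb =>
      Integrable.of_bound (hH.comp (continuous_addC g)).aestronglyMeasurable b
        (Eventually.of_forall fun z => (Real.norm_eq_abs _).trans_le (hb _))
    have hpt : ∀ z, Y (addC g z) ≤ (2 + 3 * LQ) * Z z + ∑ l ∈ range R, (q l - qmapV P k α R q l) * W l z := by
      intro z
      set G := addC g z
      have hd : ∑ l ∈ range R, |Qm l G - qmapV P k α R q l| ≤ LQ * Z z := by
        have hl := (hlip k α R (qq G) hα le_rfl hR1 (qV_prof G)).1 q hq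
        have e1 : qq G R = 1 := qV_top G
        have e2 : q R = 1 := qV_top g
        unfold dist1 at hl
        rw [e1, e2, sub_self, abs_zero, add_zero, ← mul_div_assoc] at hl
        have := (le_add_of_nonneg_right (abs_nonneg _)).trans hl
        exact (div_le_div_iff_of_pos_right hR').1 this
      have hl : ∀ l ∈ range R, X l G * (O l G - Qm l G) ≤ 2 * |qq G l - q l| +
          3 * |Qm l G - qmapV P k α R q l| + (q l - qmapV P k α R q l) * W l z := fun l hl => by
        have hl' := mem_range.1 hl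
        obtain ⟨-, b⟩ := hqc' G l hl'
        have c := hq.upper hl'.le
        have d := qmapV_mem P k hα hR1 hq hl'.le
        have o := abs_pairV_le (P := P) (k := k) (h := h) (u := u) (S := S) (β := β) (R := R) l G (Fin.last N)
        rw [show X l G * (O l G - Qm l G) = ((qq G l - q l) - (Qm l G - qmapV P k α R q l)) * (O l G - Qm l G) +
          (q l - qmapV P k α R q l) * -(Qm l G - qmapV P k α R q l) + (q l - qmapV P k α R q l) * W l z by
            simp only [X, W, Qm]; ring]
        refine add_le_add ?_ le_rfl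
        refine ((le_abs_self _).trans (abs_add_le _ _)).trans ?_
        rw [abs_mul, abs_mul, abs_neg]
        have e1 : |O l G - Qm l G| ≤ 2 := (abs_sub _ _).trans (by
          simp only [O, Qm]; rw [abs_of_nonneg b.1]; linarith [b.2])
        have e2 : |q l - qmapV P k α R q l| ≤ 1 := abs_le.2 ⟨by linarith, by linarith⟩
        have e3 := mul_le_mul (abs_sub (qq G l - q l) (Qm l G - qmapV P k α R q l)) e1 (abs_nonneg _)
          (add_nonneg (abs_nonneg _) (abs_nonneg _))
        have e4 := mul_le_of_le_one_left (abs_nonneg (Qm l G - qmapV P k α R q l)) e2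
        linarith
      refine (sum_le_sum hl).trans ?_
      simp only [sum_add_distrib, ← mul_sum, Z]
      linarith
    have iZ : Integrable Z (gauss (Fin M)) := integrable_finsetSum _ fun l hl =>
      hiz (((continuous_qV l).sub continuous_const).abs) (b := 1) fun G => by
        have a := (hqc' G l (mem_range.1 hl)).1
        have c := hq.upper (mem_range.1 hl).le
        simp only [Pi.sub_apply, abs_abs]
        rw [abs_le]; constructor <;> linarith
    have iW : ∀ l ∈ range R, Integrable (fun z => (q l - qmapV P k α R q l) * W l z) (gauss (Fin M)) :=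
      fun l _ => ((hiz (continuous_pairV l (Fin.last N)) fun G => abs_pairV_le l G (Fin.last N)).sub (integrable_const _)).const_mul _
    have iY : Integrable (fun z => Y (addC g z)) (gauss (Fin M)) := hiz hYc hY1
    refine (integral_mono iY ((iZ.const_mul _).add (integrable_finsetSum _ iW)) hpt).trans ?_
    simp only [Pi.add_apply]
    rw [integral_add (iZ.const_mul _) (integrable_finsetSum _ iW), integral_const_mul, integral_finsetSum _ iW]
    have a1 := mul_le_mul_of_nonneg_left h1 (show 0 ≤ 2 + 3 * LQ by positivity)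
    have a2 : ∑ l ∈ range R, ∫ z, (q l - qmapV P k α R q l) * W l z ∂gauss (Fin M) ≤ R * Err g := by
      refine le_trans (sum_le_sum fun l hl => ?_) h2
      rw [integral_const_mul]
      refine (le_abs_self _).trans ?_
      rw [abs_mul]
      have c := hq.upper (mem_range.1 hl).le
      have d := qmapV_mem P k hα hR1 hq (mem_range.1 hl).le
      refine (mul_le_of_le_one_left (abs_nonneg _) (abs_le.2 ⟨by linarith, by linarith⟩)).trans_eq ?_
      simp only [W, O]
      rw [integral_sub (hiz (continuous_pairV l (Fin.last N)) fun G => abs_pairV_le l G (Fin.last N)) (integrable_const _),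
        integral_const, probReal_univ, one_smul]
    simp only [Z, qq, Err] at *
    linarith
  -- integrate over the base patterns
  obtain ⟨hli, hle⟩ := integral_lse (N := N) (M := M)
  obtain ⟨hgi, hge⟩ := integral_gsum_le (M := M) (N := N)
  have hPi := integrable_adV (P := P) (κ := k) (N := N) (S := S) (β := β) (h := h) (u := u) hR1
  have hKi := adKV_props (P := P) (k := k) (N := N) (M := M) (S := S) (β := β) (h := h) (u := u) hR1
  set E0 := |(M:ℝ) * t ^ 2 - α|
  have eErr : Err = fun g => 2 * (t ^ 2 * lse g / U) + (2 * C + 2) / ((N:ℝ) + 1) +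
      K * (adV P R S β h u k g + adKV P R S β h u k g + (E0 + t) + t ^ 2 * t ^ 2 * gsum g) := by
    funext g; simp only [Err, stepErrV, E0, ← htdef]; ring
  have j1 : Integrable (fun g : Fin M → Fin N → ℝ => 2 * (t ^ 2 * lse g / U) + (2 * C + 2) / ((N:ℝ) + 1))
      (pats N M) := (((hli.const_mul _).div_const U).const_mul 2).add (integrable_const _)
  have j2a : Integrable (fun g => adV P R S β h u k g + adKV P R S β h u k g) (pats N M) := hPi.add hKi
  have j2b : Integrable (fun g => adV P R S β h u k g + adKV P R S β h u k g + (E0 + t)) (pats N M) :=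
    j2a.add (integrable_const _)
  have j2 : Integrable (fun g => adV P R S β h u k g + adKV P R S β h u k g + (E0 + t) + t ^ 2 * t ^ 2 * gsum g)
      (pats N M) := j2b.add (hgi.const_mul _)
  have hErr : Integrable Err (pats N M) := by rw [eErr]; exact j1.add (j2.const_mul K)
  have hKK : ∫ g, adKV P R S β h u k g ∂pats N M ≤ 2 * θ' + K₂ / θ' * (ADV P R S β h u N k + 1 / M) := by
    have := hqc (R := R) hR1 hM k (w₀ := gW R S β h u N) (fun _ => exp_pos _) (spinAt R) hθ'
    simp only [adKV, ← wV_eq_pw]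
    exact this
  have ht1 : t ^ 2 * ((N:ℝ) + 2 * M) ≤ 1 + 2 * α := by
    have h1 : t ^ 2 * N ≤ 1 := by
      rw [ht2, one_div_mul_eq_div, div_le_one (by positivity)]; linarith
    linarith
  have hgs : t ^ 2 * t ^ 2 * ∫ g : Fin M → Fin N → ℝ, gsum g ∂pats N M ≤ t * (2 * α) := by
    have hs : t * √(N : ℝ) ≤ 1 := by
      rw [htdef, one_div_mul_eq_div, div_le_one (by positivity)]
      exact Real.sqrt_le_sqrt (by linarith)
    calc t ^ 2 * t ^ 2 * ∫ g : Fin M → Fin N → ℝ, gsum g ∂pats N M ≤ t ^ 2 * t ^ 2 * (2 * (M * √(N : ℝ))) :=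
          mul_le_mul_of_nonneg_left hge (by positivity)
      _ = t * (t * √(N : ℝ)) * (2 * ((M:ℝ) * t ^ 2)) := by ring
      _ ≤ t * 1 * (2 * α) := by gcongr
      _ = _ := by ring
  set Bnd := 2 * (1 + 2 * α) / U + (2 * C + 2) / ((N:ℝ) + 1) +
    K * (ADV P R S β h u N k + (2 * θ' + K₂ / θ' * (ADV P R S β h u N k + 1 / M)) + E0 + (2 * α + 1) * t)
  have hE : ∫ g, Err g ∂pats N M ≤ Bnd := by
    rw [eErr, integral_add j1 (j2.const_mul K),
      integral_add (((hli.const_mul _).div_const U).const_mul 2) (integrable_const _), integral_const_mul,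
      integral_div, integral_const_mul, integral_const_mul, integral_add j2b (hgi.const_mul _),
      integral_add j2a (integrable_const _), integral_add hPi hKi, integral_const_mul]
    simp only [integral_const, probReal_univ, one_smul]
    have a1 : 2 * (t ^ 2 * (∫ g : Fin M → Fin N → ℝ, lse g ∂pats N M) / U) ≤ 2 * (1 + 2 * α) / U := by
      rw [← mul_div_assoc]
      exact div_le_div_of_nonneg_right (mul_le_mul_of_nonneg_left
        ((mul_le_mul_of_nonneg_left hle (sq_nonneg t)).trans ht1) two_pos.le) hU.le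
    refine add_le_add (add_le_add a1 le_rfl) (mul_le_mul_of_nonneg_left ?_ hK)
    have hAD : ∫ g, adV P R S β h u k g ∂pats N M = ADV P R S β h u N k := rfl
    rw [hAD]
    linarith
  have hYI : ∫ G, Y G ∂pats (N + 1) M ≤ (3 + 3 * LQ) * (R * Bnd) := by
    rw [← measurePreserving_addC.map_eq, integral_map measurePreserving_addC.measurable.aemeasurable
      hYc.aestronglyMeasurable, integral_prod _ hYp]
    refine (integral_mono hYp.integral_prod_left ((hErr.const_mul _).const_mul _) hpt).trans ?_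
    rw [integral_const_mul, integral_const_mul]
    gcongr
  -- from squares to absolute values
  have hi2 : ∀ l ∈ range R, Integrable (fun G => X l G ^ 2) (pats (N + 1) M) := fun l hl =>
    hib ((hXc l (mem_range.1 hl)).pow 2) (b := 1) fun G => by
      simp only [abs_pow]
      exact pow_le_one₀ (abs_nonneg _) (hX1 G l (mem_range.1 hl))
  have hsum : ∫ G, (∑ l ∈ range R, X l G ^ 2) ∂pats (N + 1) M ≤ (3 + 3 * LQ) * (R * Bnd) := by
    refine le_trans (le_of_eq ?_) hYI
    rw [integral_finsetSum _ hi2, integral_finsetSum]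
    · exact sum_congr rfl fun l hl => hsq l (mem_range.1 hl)
    · intro l hl
      refine hib ((hXc l (mem_range.1 hl)).mul ((continuous_pairV l (Fin.last N)).sub
        (continuous_qmapV hα hR1 (mem_range.1 hl)))) (b := 2) fun G => ?_
      obtain ⟨-, a⟩ := hqc' G l (mem_range.1 hl)
      simp only [abs_mul]
      refine (mul_le_of_le_one_left (abs_nonneg _) (hX1 G l (mem_range.1 hl))).trans ((abs_sub _ _).trans ?_)
      have o := abs_pairV_le (P := P) (k := k) (h := h) (u := u) (S := S) (β := β) (R := R) l G (Fin.last N)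
      rw [abs_of_nonneg a.1]
      linarith [a.2]
  have iS : Integrable (fun G => (∑ l ∈ range R, X l G ^ 2) / R * (1 / (4 * θ))) (pats (N + 1) M) :=
    ((integrable_finsetSum _ hi2).div_const _).mul_const _
  refine (integral_mono (integrable_dist1_qmapV (N := N + 1) hα hR1) ((integrable_const θ).add iS)
    fun G => ?_).trans ?_
  · rw [dist1_qmapV]
    simp only [Pi.add_apply]
    rw [div_le_iff₀ hR', add_mul, mul_right_comm, div_mul_cancel₀ _ hR'.ne', sum_mul]
    refine (sum_le_sum fun l _ => abs_le_sq (x := X l G) hθ).trans_eq ?_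
    rw [sum_add_distrib, sum_const, card_range, nsmul_eq_mul, mul_comm]
    exact congrArg (_ + ·) (sum_congr rfl fun l _ => by ring)
  · simp only [Pi.add_apply]
    rw [integral_add (integrable_const θ) iS, integral_mul_const, integral_div, integral_const, probReal_univ,
      one_smul]
    refine add_le_add le_rfl ?_
    rw [div_mul_eq_mul_div, ← mul_div_assoc, mul_one]
    calc (∫ G, (∑ l ∈ range R, X l G ^ 2) ∂pats (N + 1) M) / (4 * θ) / R
        ≤ (3 + 3 * LQ) * (R * Bnd) / (4 * θ) / R := by gcongr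
      _ = (3 + 3 * LQ) / (4 * θ) * Bnd := by field_simp

/-- **Self-consistency**: if the perturbation makes the overlaps pure, they solve the equation of the
site in the mean -/
theorem self_consistentV (P : Fam s) {α : ℝ} (hα : 0 < α) :
    ∀ ε > 0, ∃ δ : ℝ, 0 < δ ∧ ∀ {R S K : ℕ} [NeZero K] {hp ub : ℝ}, 2 ≤ R → 0 < hp → hp ≤ 1 →
      0 < ub → ub ≤ 1 →
      (∀ (N : ℕ) [NeZero N] (W : (Fin N → Bool) → ℝ), (∀ σ, 0 < W σ) →
        avg (fun g : BIdx R 2 → Fin K =>
          adev R (pw (S := S) (β := allBatch R 2) R W (fun _ => hp) (gu ub K g))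
            (ovK (spinAt R))
            (qlev R (pw (S := S) (β := allBatch R 2) R W (fun _ => hp) (gu ub K g)) (spinAt R))) ≤ δ) →
      ∀ᶠ n : ℕ in atTop, ∀ k : Fin ⌊α * ((n + 1 : ℕ) : ℝ)⌋₊ → Fin s, avg (fun u : BIdx R 2 → Fin K =>
        ∫ g, dist1 R (qV (N := n + 1) P R S (allBatch R 2) (fun _ => hp) (gu ub K u) k g)
          (qmapV P k α R (qV (N := n + 1) P R S (allBatch R 2) (fun _ => hp) (gu ub K u) k g))
          ∂pats (n + 1) ⌊α * ((n + 1 : ℕ) : ℝ)⌋₊) ≤ ε := by
  intro ε hε
  obtain ⟨L, K₂, hL, hK₂, hmain⟩ := self_boundV P hα.le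
  set θ := ε / 2 with hθdef
  have hθ : 0 < θ := by positivity
  set c := L / (4 * θ)
  have hc : 0 ≤ c := by positivity
  set b := ε / 2 / (c + 1)
  have hb : 0 < b := by positivity
  -- the bad fields, then the correlations, then the overlaps
  obtain ⟨x, hx, hx'⟩ := exists_small (show 0 ≤ 2 * (1 + 2 * α) by positivity) (show 0 < b / 4 by positivity)
  obtain ⟨K, hK, hR⟩ := hmain (inv_pos.2 hx)
  obtain ⟨θ', hθ', hθ''⟩ := exists_small (show 0 ≤ 2 * K by positivity) (show 0 < b / 4 by positivity)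
  obtain ⟨δ, hδ, hδ'⟩ := exists_small (show 0 ≤ K * (1 + K₂ / θ') by positivity) (show 0 < b / 4 by positivity)
  refine ⟨δ, hδ, ?_⟩
  intro R S Kg _ hp ub hR2 hp0 hp1 hub hub1 hgrid
  obtain ⟨C, hC, hbd⟩ := hR (allBatch R 2) R S hR2
  have hh : ∀ _j : BIdx R 2, |hp| ≤ 1 := fun _ => by rw [abs_of_pos hp0]; exact hp1
  have hu : ∀ (g : BIdx R 2 → Fin Kg) j, |gu ub Kg g j| ≤ 1 := fun g j => by
    obtain ⟨a, b⟩ := Vale.Agent.P168.MP.gu_mem hub g j
    rw [abs_of_pos a]; exact b.trans hub1
  -- the error that vanishes with the dimension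
  set t : ℕ → ℝ := fun n => 1 / √((n:ℝ) + 1)
  set M : ℕ → ℕ := fun n => ⌊α * ((n + 1 : ℕ) : ℝ)⌋₊
  set tail : ℕ → ℝ := fun n => (2 * C + 2) / ((n:ℝ) + 1) +
    K * (K₂ / θ' * (2 / α / ((n:ℝ) + 1)) + 1 / ((n:ℝ) + 1) + (2 * α + 1) * t n)
  have htail : Tendsto tail atTop (𝓝 0) := by
    have t0 : ∀ a : ℝ, Tendsto (fun n : ℕ => a / ((n:ℝ) + 1)) atTop (𝓝 0) := fun a =>
      tendsto_const_nhds.div_atTop (tendsto_atTop_add_const_right _ _ tendsto_natCast_atTop_atTop)
    have t1 : Tendsto t atTop (𝓝 0) :=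
      tendsto_const_nhds.div_atTop (Real.tendsto_sqrt_atTop.comp
        (tendsto_atTop_add_const_right _ _ tendsto_natCast_atTop_atTop))
    have h := (t0 (2 * C + 2)).add (((((t0 (2 / α)).const_mul (K₂ / θ')).add (t0 1)).add
      (t1.const_mul (2 * α + 1))).const_mul K)
    simp only [mul_zero, add_zero] at h
    exact h
  filter_upwards [htail.eventually_le_const (show 0 < b / 4 by positivity), eventually_ge_atTop 1,
    ((tendsto_natCast_atTop_atTop (R := ℝ)).const_mul_atTop hα).eventually_ge_atTop 2] with n hn hn1 hn2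
  have : NeZero n := ⟨by omega⟩
  intro k
  have hn0 : (0:ℝ) < (n:ℝ) + 1 := by positivity
  have hM1 : α * ((n:ℝ) + 1) - 1 ≤ M n ∧ (M n : ℝ) ≤ α * ((n:ℝ) + 1) := by
    have a := Nat.floor_le (show 0 ≤ α * ((n + 1 : ℕ) : ℝ) by positivity)
    have a' := Nat.lt_floor_add_one (α * ((n + 1 : ℕ) : ℝ))
    simp only [M]
    push_cast at a a' ⊢
    exact ⟨by linarith, a⟩
  have hM2 : 2 ≤ M n := Nat.le_floor (by push_cast; linarith)
  have ht2 : (1 / √((n:ℝ) + 1)) ^ 2 = 1 / ((n:ℝ) + 1) := by
    rw [div_pow, one_pow, Real.sq_sqrt (by positivity)]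
  have hMt : (M n : ℝ) * (1 / √((n:ℝ) + 1)) ^ 2 ≤ α := by
    rw [ht2, mul_one_div, div_le_iff₀ hn0]; exact hM1.2
  have hdl : |(M n : ℝ) * (1 / √((n:ℝ) + 1)) ^ 2 - α| ≤ 1 / ((n:ℝ) + 1) := by
    rw [ht2, mul_one_div, div_sub' hn0.ne', abs_div, abs_of_pos hn0]
    refine div_le_div_of_nonneg_right (abs_le.2 ⟨?_, ?_⟩) hn0.le <;> linarith [hM1.1, hM1.2]
  have hinvM : 1 / (M n : ℝ) ≤ 2 / α / ((n:ℝ) + 1) := by
    rw [div_div]
    refine le_trans ?_ (le_of_eq (show 1 / (α * ((n:ℝ) + 1) / 2) = 2 / (α * ((n:ℝ) + 1)) by rw [one_div_div]))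
    exact one_div_le_one_div_of_le (by positivity) (by linarith [hM1.1])
  set AA := fun u : BIdx R 2 → Fin Kg => ADV P R S (allBatch R 2) (fun _ => hp) (gu ub Kg u) n k
  set rest := c * (2 * (1 + 2 * α) * x + (2 * C + 2) / ((n:ℝ) + 1) +
    K * (2 * θ' + K₂ / θ' * (2 / α / ((n:ℝ) + 1)) + 1 / ((n:ℝ) + 1) + (2 * α + 1) * t n))
  have hbound : ∀ u : BIdx R 2 → Fin Kg,
      ∫ g, dist1 R (qV (N := n + 1) P R S (allBatch R 2) (fun _ => hp) (gu ub Kg u) k g)
        (qmapV P k α R (qV (N := n + 1) P R S (allBatch R 2) (fun _ => hp) (gu ub Kg u) k g))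
        ∂pats (n + 1) (M n) ≤ (θ + rest) + c * (K * (1 + K₂ / θ')) * AA u := by
    intro u
    refine (hbd hh (hu u) k hM2 hMt hθ hθ').trans ?_
    rw [div_inv_eq_mul, add_assoc θ, add_le_add_iff_left]
    have a := mul_le_mul_of_nonneg_left (add_le_add hdl (mul_le_mul_of_nonneg_left hinvM
      (show 0 ≤ K₂ / θ' by positivity))) (mul_nonneg hc hK)
    simp only [rest, AA, t, c] at a ⊢
    linarith
  have hAA : avg AA ≤ δ := by
    simp only [AA, avg, ADV]
    have hint := fun g : BIdx R 2 → Fin Kg => integrable_adV (P := P) (N := n) (κ := k) (S := S) (β := allBatch R 2)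
      (h := fun _ => hp) (u := gu ub Kg g) (show 1 ≤ R by omega)
    rw [← integral_finsetSum _ fun g _ => hint g, ← integral_div]
    refine (integral_mono ((integrable_finsetSum _ fun g _ => hint g).div_const _)
      (integrable_const δ) fun G => ?_).trans_eq (by simp)
    simp only [adV, qV, qbV, ← wV.eq_def, wV_eq_pw]
    exact hgrid n (hamV P k G) fun σ => hamV_pos P k G σ
  refine (Vale.Agent.P168.MP.avg_le_avg hbound).trans ?_
  have e : avg (fun u => (θ + rest) + c * (K * (1 + K₂ / θ')) * AA u) =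
      (θ + rest) + c * (K * (1 + K₂ / θ')) * avg AA := by
    have hcard := Vale.Agent.P168.MP.card_pos_real (Ω := BIdx R 2 → Fin Kg)
    simp only [avg, sum_add_distrib, sum_const, card_univ, nsmul_eq_mul, ← mul_sum]
    field_simp
  rw [e]
  have a1 := mul_le_mul_of_nonneg_left hAA (show 0 ≤ c * (K * (1 + K₂ / θ')) by positivity)
  have a2 := mul_le_mul_of_nonneg_left
    (add_le_add (add_le_add hx' hn) (add_le_add hθ'' hδ')) hc
  have a3 : c * b ≤ ε / 2 := by
    simp only [b]; rw [← mul_div_assoc, div_le_iff₀ (by positivity)]; linarith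
  simp only [rest, tail] at a1 a2 ⊢
  linarith

end Vale.Agent.P166.Hopf
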