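import Vale.Agent.P166.Hopf.Defs
import Vale.Agent.P166.Par.Multi.Site
import Vale.Agent.P157.Full.SiteSpin

/-! The new spin given the base system at fixed labels: its pair overlaps are those generated by the field
`α GbV(q)`, and it moves the old overlaps little. -/

open MeasureTheory ProbabilityTheory Real Finset
open Vale.Agent.P150 (gauss dot)
open Vale.Agent.P168 (sg)
open Vale.Agent.P168.MP (lin ET avg)
open Vale.Agent.P157.Par
open Vale.Agent.P157.Full (qh sg_sq abs_sg_one avg_exp_sg spinMean spinMean_const spinMean_sg wbar c6 c6_nonneg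
  integral_cube_sq kapS noise_cmp prodW prodW_pos spinPr ET_prodW_pair)

namespace Vale.Agent.P166.Hopf

open Par.Multi

set_option linter.unusedSectionVars false

variable {s : ℕ} [NeZero s]

/-- deviations of the overlap and of the correlation of the derivatives from a profile -/
noncomputable def sdevV {Ω : Type} [Fintype Ω] {N M : ℕ} (P : Fam s) (k : Fin M → Fin s) (R : ℕ) (w : List Ω → ℝ)
    (rd : List Ω → Fin N → Bool) (g : Fin M → Fin N → ℝ) (q : ℕ → ℝ) (l : ℕ) : ℝ :=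
  devOf R w (ovK rd) q l + adev R w (ovK rd) q +
    (devOf R w (qKV P k rd g) (GbV P k R q) l + adev R w (qKV P k rd g) (GbV P k R q))

section kernel
variable {Ω : Type} [Fintype Ω] [Nonempty Ω] {R N M : ℕ}

lemma devOf_avecV (P : Fam s) (k : Fin M → Fin s) {w : List Ω → ℝ} (hw : ∀ p, 0 < w p)
    (rd : List Ω → Fin N → Bool) (g : Fin M → Fin N → ℝ)
    {c t : ℝ} (hc : 0 ≤ c) (hct : c ^ 2 + t ^ 2 = 1) {α : ℝ} (hα : 0 ≤ α) (G : ℕ → ℝ) (l : ℕ) :
    devOf R w (cv (avecV P k c t rd g)) (fun l => α * G l) l ≤ α * devOf R w (qKV P k rd g) G l +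
      (|(M : ℝ) * t ^ 2 - α| * P.D ^ 2 + t ^ 2 * t ^ 2 * (2 * P.D ^ 2) * gsum g) := by
  refine (Vale.Agent.P168.MP.ET_mono hw fun ps =>
    abs_cv_avecV P k rd g hc hct (ps.getD 0 []) (ps.getD 1 []) (G := G l) hα).trans_eq ?_
  rw [Vale.Agent.P168.MP.ET_add, Vale.Agent.P168.MP.ET_const_mul, Vale.Agent.P168.MP.ET_const hw]
  rfl

end kernel

section steps
variable {Ω : Type} [Fintype Ω] [Nonempty Ω] {R N M : ℕ}

/-- the exponent of the shrunk base -/
noncomputable def psiV (P : Fam s) (k : Fin M → Fin s) (c t : ℝ) (rd : List Ω → Fin N → Bool) (g : Fin M → Fin N → ℝ)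
    (p : List Ω) : ℝ :=
  ∑ i, (P.f (k i) (c * uat rd g p i) - P.f (k i) (uat rd g p i) + t ^ 2 / 2 * P.f2 (k i) (c * uat rd g p i))

/-- the second order remainder -/
noncomputable def remV (P : Fam s) (k : Fin M → Fin s) (c t : ℝ) (rd : List Ω → Fin N → Bool) (g : Fin M → Fin N → ℝ)
    (z : Fin M → ℝ) (p : List Ω) : ℝ :=
  ∑ i, t ^ 2 / 2 * P.f2 (k i) (c * uat rd g p i) * (z i ^ 2 - 1)

omit [Fintype Ω] [Nonempty Ω] in
lemma abs_psiV_le (P : Fam s) (k : Fin M → Fin s) (rd : List Ω → Fin N → Bool) (g : Fin M → Fin N → ℝ) {c t A U : ℝ}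
    (hc : 0 ≤ c) (hct : c ^ 2 + t ^ 2 = 1) (hMt : (M : ℝ) * t ^ 2 ≤ A) {p : List Ω}
    (hU : t ^ 2 * ∑ a, |uat rd g p a| ≤ U) : |psiV P k c t rd g p| ≤ P.D * (U + A) := by
  have hD := P.nn
  refine (abs_sum_le_sum_abs _ _).trans ((sum_le_sum
    (g := fun i => P.D * t ^ 2 * |uat rd g p i| + t ^ 2 / 2 * P.D) fun i _ => ?_).trans ?_)
  · refine (abs_add_le _ _).trans (add_le_add ?_ ?_)
    · refine (lip_of_deriv (P.sm _).d0 (P.sm _).b1 _ _).trans ?_
      rw [show c * uat rd g p i - uat rd g p i = (c - 1) * uat rd g p i by ring, abs_mul, mul_assoc]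
      exact mul_le_mul_of_nonneg_left (mul_le_mul_of_nonneg_right (shrink hc hct).1 (abs_nonneg _)) hD
    · rw [abs_mul, abs_of_nonneg (show (0:ℝ) ≤ t ^ 2 / 2 by positivity)]
      exact mul_le_mul_of_nonneg_left ((P.sm _).b2 _) (by positivity)
  · rw [sum_add_distrib, ← mul_sum, sum_const, card_univ, Fintype.card_fin, nsmul_eq_mul, mul_assoc P.D, mul_add]
    have h2 := mul_le_mul_of_nonneg_right hMt hD
    have h0 : 0 ≤ (M : ℝ) * t ^ 2 * P.D := by positivity
    exact add_le_add (mul_le_mul_of_nonneg_left hU hD) (by linarith)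

omit [Fintype Ω] [Nonempty Ω] in
lemma siteFV_eq (P : Fam s) (k : Fin M → Fin s) (rd : List Ω → Fin N → Bool) (g : Fin M → Fin N → ℝ) (c : ℝ) {t : ℝ}
    (ht : 0 < t) (z : Fin M → ℝ) (p : List Ω) (s : Bool) :
    ∃ e : ℝ, |e| ≤ |remV P k c t rd g z p| + kapS P.D t z ∧
      siteFV P k c t g z (rd p) s = exp (psiV P k c t rd g p + sg s * dot (avecV P k c t rd g p) z + e) := by
  refine ⟨remV P k c t rd g z p + ∑ i, (P.f (k i) (c * uat rd g p i + t * sg s * z i) - P.f (k i) (c * uat rd g p i) -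
    t * sg s * z i * P.f1 (k i) (c * uat rd g p i) - (t * sg s * z i) ^ 2 / 2 * P.f2 (k i) (c * uat rd g p i)),
    (abs_add_le _ _).trans (add_le_add le_rfl ((abs_sum_le_sum_abs _ _).trans ?_)), ?_⟩
  · simp only [kapS, mul_sum]
    refine sum_le_sum fun i _ => ((P.sm _).taylor_two _ _).trans_eq ?_
    rw [abs_mul, abs_mul, abs_sg_one, mul_one, abs_of_pos ht]; ring
  · rw [siteFV]
    congr 1
    simp only [psiV, remV, avecV, dot, mul_sum, ← sum_add_distrib, uat]
    refine sum_congr rfl fun i _ => ?_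
    rw [show (t * sg s * z i) ^ 2 = t ^ 2 * sg s ^ 2 * z i ^ 2 by ring, sg_sq]
    ring

omit [Fintype Ω] [Nonempty Ω] in
lemma abs_remV_le (P : Fam s) (k : Fin M → Fin s) (rd : List Ω → Fin N → Bool) (g : Fin M → Fin N → ℝ) (c t : ℝ)
    (z : Fin M → ℝ) (p : List Ω) :
    |remV P k c t rd g z p| ≤ P.D / 2 * ((∑ i, t ^ 2 * (z i ^ 2 - 1)) + 2 * ((M : ℝ) * t ^ 2)) := by
  have hD := P.nn
  refine (abs_sum_le_sum_abs _ _).trans ((sum_le_sum
    (g := fun i => P.D / 2 * (t ^ 2 * (z i ^ 2 - 1) + 2 * t ^ 2)) fun i _ => ?_).trans_eq ?_)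
  · rw [abs_mul, abs_mul, abs_of_nonneg (show (0:ℝ) ≤ t ^ 2 / 2 by positivity),
      show t ^ 2 * (z i ^ 2 - 1) + 2 * t ^ 2 = t ^ 2 * (z i ^ 2 + 1) by ring]
    have h1 : |z i ^ 2 - 1| ≤ z i ^ 2 + 1 := abs_le.2 ⟨by linarith [sq_nonneg (z i)], by linarith⟩
    calc t ^ 2 / 2 * |P.f2 (k i) (c * uat rd g p i)| * |z i ^ 2 - 1| ≤ t ^ 2 / 2 * P.D * (z i ^ 2 + 1) :=
          mul_le_mul (mul_le_mul_of_nonneg_left ((P.sm _).b2 _) (by positivity)) h1 (abs_nonneg _) (by positivity)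
      _ = _ := by ring
  · rw [← mul_sum, sum_add_distrib, sum_const, card_univ, Fintype.card_fin, nsmul_eq_mul]
    ring

omit [Fintype Ω] [Nonempty Ω] in
/-- the mean of the remainder -/
lemma integral_remV_le (P : Fam s) (k : Fin M → Fin s) (rd : List Ω → Fin N → Bool) (g : Fin M → Fin N → ℝ) (c : ℝ)
    {t A V : ℝ} (ht : 0 < t) (hMt : (M : ℝ) * t ^ 2 ≤ A) (p : List Ω)
    (hV : cv (avecV P k c t rd g) p p ≤ V) :
    Integrable (fun z => (|remV P k c t rd g z p| + kapS P.D t z) * cosh (dot (avecV P k c t rd g p) z))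
        (gauss (Fin M)) ∧
      ∫ z, (|remV P k c t rd g z p| + kapS P.D t z) * cosh (dot (avecV P k c t rd g p) z) ∂gauss (Fin M) ≤
        t * (A * c4 * P.D ^ 2 + exp (2 * V) + (P.D ^ 2 * c6 * A ^ 2 + exp (2 * V))) := by
  have hD := P.nn
  have hc6 := c6_nonneg
  set a := avecV P k c t rd g p
  obtain ⟨h1, h2⟩ := integral_centred_le (P.sm 0) (fun i => P.f2 (k i) (c * uat rd g p i)) (fun i => (P.sm _).b2 _) a ht hMt hV
  obtain ⟨h3, h4⟩ := integral_cube_sq (ι := Fin M)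
  obtain ⟨h5, h6⟩ := integrable_cosh_sq a
  have hk0 : ∀ z : Fin M → ℝ, 0 ≤ kapS P.D t z := fun z =>
    mul_nonneg (by positivity) (sum_nonneg fun _ _ => by positivity)
  have hle : ∀ z, kapS P.D t z * cosh (dot a z) ≤ (P.D * t ^ 3) ^ 2 / t * (∑ i, |z i| ^ 3) ^ 2 +
      t * cosh (dot a z) ^ 2 := fun z => by
    rw [div_mul_eq_mul_div, ← mul_pow, div_add' _ _ _ ht.ne', le_div_iff₀ ht]
    have hh := hk0 z
    simp only [kapS] at hh ⊢
    nlinarith [two_mul_le_add_sq (P.D * t ^ 3 * ∑ i, |z i| ^ 3) (t * cosh (dot a z)),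
      mul_nonneg (mul_nonneg hh ht.le) (cosh_pos (dot a z)).le]
  have hrhs : Integrable (fun z => (P.D * t ^ 3) ^ 2 / t * (∑ i, |z i| ^ 3) ^ 2 + t * cosh (dot a z) ^ 2)
      (gauss (Fin M)) := (h3.const_mul _).add (h5.const_mul t)
  have hik : Integrable (fun z => kapS P.D t z * cosh (dot a z)) (gauss (Fin M)) := by
    refine hrhs.mono' ?_ (Filter.Eventually.of_forall fun z => ?_)
    · exact ((show Continuous fun z : Fin M → ℝ => kapS P.D t z by unfold kapS; fun_prop).mul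
        (continuous_cosh.comp (continuous_dot_left _))).aestronglyMeasurable
    · rw [Real.norm_eq_abs, abs_of_nonneg (mul_nonneg (hk0 z) (cosh_pos _).le)]
      exact hle z
  have h1' : Integrable (fun z => |remV P k c t rd g z p| * cosh (dot a z)) (gauss (Fin M)) := h1
  rw [show (fun z => (|remV P k c t rd g z p| + kapS P.D t z) * cosh (dot a z)) =
    fun z => |remV P k c t rd g z p| * cosh (dot a z) + kapS P.D t z * cosh (dot a z) from funext fun z => add_mul _ _ _]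
  refine ⟨h1'.add hik, ?_⟩
  rw [integral_add h1' hik, mul_add]
  refine add_le_add h2 ((integral_mono hik hrhs hle).trans ?_)
  rw [integral_add (h3.const_mul _) (h5.const_mul t), integral_const_mul, integral_const_mul, mul_add]
  refine add_le_add ?_ (mul_le_mul_of_nonneg_left (h6.trans (exp_le_exp.2 ?_)) ht.le)
  · rw [Fintype.card_fin] at h4
    calc (P.D * t ^ 3) ^ 2 / t * _ ≤ (P.D * t ^ 3) ^ 2 / t * ((M:ℝ) * ((M:ℝ) * c6)) :=
          mul_le_mul_of_nonneg_left h4 (by positivity)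
      _ = t * (P.D ^ 2 * c6 * ((M:ℝ) * t ^ 2) ^ 2) := by field_simp
      _ ≤ _ := by gcongr
  · exact mul_le_mul_of_nonneg_left hV (by norm_num)

/-- averaged over the noise, the exact factor is the exponential of the field up to `O(t)` -/
lemma noise_meanV (P : Fam s) (k : Fin M → Fin s) (hR : 1 ≤ R) {w : List Ω → ℝ} (hw : ∀ p, 0 < w p)
    (rd : List Ω → Fin N → Bool) (g : Fin M → Fin N → ℝ) {c t A V : ℝ} (ht : 0 < t) (ht1 : t ≤ 1)
    (hMt : (M : ℝ) * t ^ 2 ≤ A) (hV : ∀ p, cv (avecV P k c t rd g) p p ≤ V) {T : List (ℕ × ℕ)}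
    (hT : Vale.Agent.P168.MP.Valid R T) {F : List (List (Ω × Bool)) → ℝ} {C : ℝ} (hF : ∀ ps, |F ps| ≤ C) :
    |(∫ z, ET R (lin R) (prodW R w fun p s => siteFV P k c t g z (rd p) s) T F ∂gauss (Fin M)) -
      ∫ z, ET R (lin R) (prodW R (fun p => w p * exp (psiV P k c t rd g p))
        fun p s => exp (sg s * dot (avecV P k c t rd g p) z)) T F ∂gauss (Fin M)| ≤
      C * (exp (2 * (P.D / 2 * (1 + 2 * A) + 1)) * (3 * T.length) *
          (A * c4 * P.D ^ 2 + exp (2 * V) + (P.D ^ 2 * c6 * A ^ 2 + exp (2 * V))) +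
        2 * (c4 * A + A * P.D * c3)) * t := by
  have hD := P.nn
  have hc4 := c4_nonneg
  have hC : 0 ≤ C := (abs_nonneg _).trans (hF [])
  have hf0 := fun j => (P.sm j).cont0
  set Ψ := psiV P k c t rd g
  set w' := fun p => w p * exp (Ψ p) with hw'def
  have hw' : ∀ p, 0 < w' p := fun p => mul_pos (hw p) (exp_pos _)
  set KH := A * c4 * P.D ^ 2 + exp (2 * V) + (P.D ^ 2 * c6 * A ^ 2 + exp (2 * V))
  set K0 := exp (2 * (P.D / 2 * (1 + 2 * A) + 1)) * (3 * (T.length : ℝ))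
  set bad : (Fin M → ℝ) → ℝ := fun z => (∑ i, t ^ 2 * (z i ^ 2 - 1)) ^ 2 + kapS P.D t z with hbad
  set Hb : (Fin M → ℝ) → ℝ := fun z => ET R (lin R) w' [(0, 0)] fun ps =>
    (|remV P k c t rd g z (ps.getD 0 [])| + kapS P.D t z) * cosh (dot (avecV P k c t rd g (ps.getD 0 [])) z) with hHb
  have hk0 : ∀ z : Fin M → ℝ, 0 ≤ kapS P.D t z := fun z =>
    mul_nonneg (by positivity) (sum_nonneg fun _ _ => by positivity)
  have hb0 : ∀ z, 0 ≤ bad z := fun z => add_nonneg (sq_nonneg _) (hk0 z)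
  have hWp : ∀ z p, 0 < prodW R w (fun p s => siteFV P k c t g z (rd p) s) p := fun z p =>
    prodW_pos hw (fun p s => exp_pos _) p
  have hW0p : ∀ z p, 0 < prodW R w' (fun p s => exp (sg s * dot (avecV P k c t rd g p) z)) p := fun z p =>
    prodW_pos hw' (fun p s => exp_pos _) p
  have i1 : Integrable (fun z => ET R (lin R) (prodW R w fun p s => siteFV P k c t g z (rd p) s) T F)
      (gauss (Fin M)) :=
    Integrable.of_bound (continuous_ET (m := lin R) (fun p => by simp only [prodW, siteFV]; fun_prop)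
      hWp R T (F := fun _ => F) fun _ => continuous_const).aestronglyMeasurable C
      (Filter.Eventually.of_forall fun z => Vale.Agent.P168.MP.ET_bound (hWp z) hF)
  have i2 : Integrable (fun z => ET R (lin R)
      (prodW R w' fun p s => exp (sg s * dot (avecV P k c t rd g p) z)) T F) (gauss (Fin M)) :=
    Integrable.of_bound (continuous_ET (m := lin R) (fun p => by
        simp only [prodW]
        exact continuous_const.mul (continuous_exp.comp (continuous_const.mul (continuous_dot_left _))))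
      hW0p R T (F := fun _ => F) fun _ => continuous_const).aestronglyMeasurable C
      (Filter.Eventually.of_forall fun z => Vale.Agent.P168.MP.ET_bound (hW0p z) hF)
  have hcmp : ∀ z, |ET R (lin R) (prodW R w fun p s => siteFV P k c t g z (rd p) s) T F -
      ET R (lin R) (prodW R w' fun p s => exp (sg s * dot (avecV P k c t rd g p) z)) T F| ≤
      C * K0 * Hb z + 2 * C * bad z := fun z => by
    refine noise_cmp hR hw (H := fun p => |remV P k c t rd g z p| + kapS P.D t z) (fun p s => exp_pos _)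
      (fun p s => siteFV_eq P k rd g c ht z p s) (hb0 z) (fun hb p => ?_) hT hF
    have h1 : ∑ i, t ^ 2 * (z i ^ 2 - 1) ≤ 1 := by
      have hsq : (∑ i, t ^ 2 * (z i ^ 2 - 1)) ^ 2 < 1 := by simp only [hbad] at hb; linarith [hk0 z]
      nlinarith
    have h2 : kapS P.D t z ≤ 1 := by
      simp only [hbad] at hb; linarith [sq_nonneg (∑ i, t ^ 2 * (z i ^ 2 - 1))]
    refine add_le_add ((abs_remV_le P k rd g c t z p).trans ?_) h2
    exact mul_le_mul_of_nonneg_left (by linarith) (by positivity)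
  obtain ⟨hiX, heX⟩ := integral_sq_sum (ι := Fin M) fun _ => t ^ 2
  obtain ⟨hiK, heK⟩ := integral_abs_cube (ι := Fin M)
  have hkc : Integrable (fun z : Fin M → ℝ => kapS P.D t z) (gauss (Fin M)) := hiK.const_mul _
  have hib : Integrable bad (gauss (Fin M)) := hiX.add hkc
  have hbadi : ∫ z, bad z ∂gauss (Fin M) ≤ t * (c4 * A + A * P.D * c3) := by
    simp only [hbad]
    rw [integral_add hiX hkc, mul_add]
    refine add_le_add (heX.trans_le ?_) ?_
    · rw [sum_const, card_univ, Fintype.card_fin, nsmul_eq_mul]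
      calc c4 * ((M : ℝ) * (t ^ 2) ^ 2) = t ^ 2 * (c4 * ((M : ℝ) * t ^ 2)) := by ring
        _ ≤ t * (c4 * A) := mul_le_mul (by nlinarith) (mul_le_mul_of_nonneg_left hMt hc4)
            (by positivity) ht.le
    · simp only [kapS]
      rw [integral_const_mul, heK, Fintype.card_fin]
      have := c3_nonneg
      calc P.D * t ^ 3 * (c3 * M) = t * ((M:ℝ) * t ^ 2 * P.D * c3) := by ring
        _ ≤ _ := by gcongr
  obtain ⟨hiH, heH⟩ := integral_ET_one (R := R) (m := lin R) (w := w') (μ := gauss (Fin M))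
    (fun z p => (|remV P k c t rd g z p| + kapS P.D t z) * cosh (dot (avecV P k c t rd g p) z))
    fun p => (integral_remV_le P k rd g c ht hMt p (hV p)).1
  have hHi : ∫ z, Hb z ∂gauss (Fin M) ≤ t * KH := by
    simp only [hHb]
    rw [heH]
    refine (Vale.Agent.P168.MP.ET_mono hw' fun ps => (integral_remV_le P k rd g c ht hMt _ (hV _)).2).trans_eq ?_
    rw [Vale.Agent.P168.MP.ET_const hw']
  rw [← integral_sub i1 i2]
  refine abs_integral_le_integral_abs.trans ((integral_mono (i1.sub i2).abs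
    ((hiH.const_mul (C * K0)).add (hib.const_mul (2 * C))) hcmp).trans ?_)
  rw [integral_add' (hiH.const_mul _) (hib.const_mul _), integral_const_mul, integral_const_mul]
  have h1 := mul_le_mul_of_nonneg_left hHi (show 0 ≤ C * K0 by positivity)
  have h2 := mul_le_mul_of_nonneg_left hbadi (show 0 ≤ 2 * C by positivity)
  linarith

/-- the covariance of the new field against `α Γ(q)` under the tilted base -/
lemma dev_tiltV (P : Fam s) (k : Fin M → Fin s) [NeZero N] (hR : 1 ≤ R) {w : List Ω → ℝ} (hw : ∀ p, 0 < w p)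
    {Y : List Ω → ℝ} {b : ℝ} (hY : ∀ p, exp (-b) ≤ Y p ∧ Y p ≤ exp b) (rd : List Ω → Fin N → Bool)
    (g : Fin M → Fin N → ℝ) {c t α A : ℝ} (hc : 0 ≤ c) (ht : 0 < t) (hct : c ^ 2 + t ^ 2 = 1) (hα : 0 ≤ α)
    (hαA : α ≤ A) (q : ℕ → ℝ) {l : ℕ} (hl : l ≤ R) :
    0 ≤ sdevV P k R w rd g q l + |(M : ℝ) * t ^ 2 - α| + t ^ 2 * t ^ 2 * gsum g + t ∧
    t ≤ sdevV P k R w rd g q l + |(M : ℝ) * t ^ 2 - α| + t ^ 2 * t ^ 2 * gsum g + t ∧
    devOf R (fun p => w p * Y p) (cv (avecV P k c t rd g)) (fun j => α * GbV P k R q j) l +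
        adev R (fun p => w p * Y p) (cv (avecV P k c t rd g)) (fun j => α * GbV P k R q j) ≤
      exp (4 * b) * (A + 6 * P.D ^ 2 + 1) *
        (sdevV P k R w rd g q l + |(M : ℝ) * t ^ 2 - α| + t ^ 2 * t ^ 2 * gsum g + t) ∧
    devOf R (fun p => w p * Y p) (ovK rd) q l ≤ exp (4 * b) * (A + 6 * P.D ^ 2 + 1) *
        (sdevV P k R w rd g q l + |(M : ℝ) * t ^ 2 - α| + t ^ 2 * t ^ 2 * gsum g + t) := by
  have hA : 0 ≤ A := hα.trans hαA
  set S := sdevV P k R w rd g q l + |(M : ℝ) * t ^ 2 - α| + t ^ 2 * t ^ 2 * gsum g + t with hSd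
  have hdl := abs_nonneg ((M : ℝ) * t ^ 2 - α)
  have hG0 : 0 ≤ t ^ 2 * t ^ 2 * gsum g :=
    mul_nonneg (by positivity) (sum_nonneg fun _ _ => sum_nonneg fun _ _ => by positivity)
  have h1 := devOf_nn (R := R) (C := ovK rd) (q := q) hw l
  have h2 := adev_nn (R := R) (C := ovK rd) (q := q) hw
  have h3 := devOf_nn (R := R) (C := qKV P k rd g) (q := GbV P k R q) hw l
  have h4 := adev_nn (R := R) (C := qKV P k rd g) (q := GbV P k R q) hw
  have hs : 0 ≤ S ∧ devOf R w (qKV P k rd g) (GbV P k R q) l +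
      adev R w (qKV P k rd g) (GbV P k R q) ≤ S ∧ devOf R w (ovK rd) q l ≤ S ∧
      |(M : ℝ) * t ^ 2 - α| + t ^ 2 * t ^ 2 * gsum g ≤ S ∧ t ≤ S := by
    simp only [hSd, sdevV]
    refine ⟨?_, ?_, ?_, ?_, ?_⟩ <;> linarith
  have htilt : ∀ (C : List Ω → List Ω → ℝ) (p : ℕ → ℝ) {j : ℕ}, j ≤ R →
      devOf R (fun p => w p * Y p) C p j ≤ exp (4 * b) * devOf R w C p j := fun C p j hj =>
    (rep_tilt hR hw hY rd C p hj).1
  refine ⟨hs.1, hs.2.2.2.2, ?_, ?_⟩
  · set a := avecV P k c t rd g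
    set q' := fun j => α * GbV P k R q j
    have hR' : (0:ℝ) < R := by exact_mod_cast hR
    have hsum : adev R (fun p => w p * Y p) (cv a) q' ≤ exp (4 * b) * adev R w (cv a) q' := by
      rw [adev, adev, mul_add, ← mul_div_assoc, mul_sum]
      exact add_le_add (div_le_div_of_nonneg_right (sum_le_sum fun j hj => htilt _ _ (mem_range.1 hj).le) hR'.le)
        (htilt _ _ le_rfl)
    refine (add_le_add (htilt _ _ hl) hsum).trans ?_
    rw [← mul_add, mul_assoc (exp (4 * b))]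
    refine mul_le_mul_of_nonneg_left ((add_le_add (devOf_avecV (R := R) P k hw rd g hc hct hα (GbV P k R q) l)
      (adev_avecV P k hR hw rd g hc hct hα (GbV P k R q))).trans ?_) (exp_pos _).le
    have e1 : α * devOf R w (qKV P k rd g) (GbV P k R q) l +
        α * adev R w (qKV P k rd g) (GbV P k R q) ≤ A * S := by
      rw [← mul_add]; exact mul_le_mul hαA hs.2.1 (add_nonneg h3 h4) hA
    have e2 := mul_le_mul_of_nonneg_left hs.2.2.2.1 (show 0 ≤ 6 * P.D ^ 2 by positivity)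
    nlinarith [mul_nonneg (sq_nonneg P.D) hdl, mul_nonneg (sq_nonneg P.D) hG0, hs.1]
  · refine (htilt _ _ hl).trans ?_
    rw [mul_assoc (exp (4 * b))]
    exact mul_le_mul_of_nonneg_left (hs.2.2.1.trans (le_mul_of_one_le_left hs.1
      (by nlinarith [sq_nonneg P.D]))) (exp_pos _).le

end steps

/-- **The new spin is self-consistent.** -/
theorem site_spin (P : Fam s) (A U : ℝ) : ∃ K : ℝ, 0 ≤ K ∧
    ∀ {Ω : Type} [Fintype Ω] [Nonempty Ω] {R N M : ℕ} [NeZero N], 1 ≤ R →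
      ∀ (k : Fin M → Fin s) (rd : List Ω → Fin N → Bool) {w : List Ω → ℝ}, (∀ p, 0 < w p) →
      ∀ (g : Fin M → Fin N → ℝ) {c t α : ℝ}, 0 ≤ c → 0 < t → c ^ 2 + t ^ 2 = 1 →
      (M : ℝ) * t ^ 2 ≤ A → 0 ≤ α → α ≤ A → (∀ p, t ^ 2 * ∑ a, |uat rd g p a| ≤ U) →
      ∀ {q : ℕ → ℝ}, Prof R q 1 → ∀ {l : ℕ}, l < R →
      |(∫ z, ET R (lin R) (prodW R w fun p s => siteFV P k c t g z (rd p) s) [(0, l), (0, 0)] (spinPr R)
          ∂gauss (Fin M)) - qh R (fun j => α * GbV P k R q j) l| ≤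
        K * (sdevV P k R w rd g q l + |(M : ℝ) * t ^ 2 - α| + t ^ 2 * t ^ 2 * gsum g + t) ∧
      ∫ z, ET R (lin R) (prodW R w fun p s => siteFV P k c t g z (rd p) s) [(0, l), (0, 0)]
          (fun ps => |ov (rd ((ps.getD 0 []).map Prod.fst)) (rd ((ps.getD 1 []).map Prod.fst)) - q l|)
          ∂gauss (Fin M) ≤
        K * (sdevV P k R w rd g q l + |(M : ℝ) * t ^ 2 - α| + t ^ 2 * t ^ 2 * gsum g + t) := by
  have hD := P.nn
  have hc3 := c3_nonneg
  have hc4 := c4_nonneg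
  have hc6 := c6_nonneg
  set A' := |A|
  set V := A' * P.D ^ 2 with hV
  obtain ⟨Kp, hKp, hpair⟩ := pair_close sm_logcosh V
  set Kn := exp (2 * (P.D / 2 * (1 + 2 * A') + 1)) * (3 * 2) *
      (A' * c4 * P.D ^ 2 + exp (2 * V) + (P.D ^ 2 * c6 * A' ^ 2 + exp (2 * V))) +
    2 * (c4 * A' + A' * P.D * c3)
  set L := exp (4 * (P.D * (|U| + A'))) * (A' + 6 * P.D ^ 2 + 1)
  have hKn0 : 0 ≤ Kn := by positivity
  have hL0 : 0 ≤ L := by positivity
  refine ⟨2 * Kn + (2 * Kp + 1) * L, by positivity, ?_⟩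
  intro Ω _ _ R N M _ hR k rd w hw g c t α hc ht hct hMt hα hαA hU q hq l hl
  have hA : α ≤ A' := hαA.trans (le_abs_self A)
  have hMt' : (M : ℝ) * t ^ 2 ≤ A' := hMt.trans (le_abs_self A)
  have ht1 : t ≤ 1 := by nlinarith [sq_nonneg c]
  set a := avecV P k c t rd g with ha
  have haa : ∀ p, cv a p p ≤ V := fun p => by
    have : cv a p p = t ^ 2 * ∑ i, P.f1 (k i) (c * uat rd g p i) ^ 2 := by
      simp only [a, cv, dot, avecV, mul_sum]; exact sum_congr rfl fun i _ => by ring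
    rw [this]
    refine (mul_le_mul_of_nonneg_left (sum_le_sum (g := fun _ => P.D ^ 2) fun i _ => ?_) (sq_nonneg t)).trans ?_
    · rw [← sq_abs (P.f1 (k i) _)]; exact pow_le_pow_left₀ (abs_nonneg _) ((P.sm _).b1 _) 2
    · rw [sum_const, card_univ, Fintype.card_fin, nsmul_eq_mul, hV, ← mul_assoc, mul_comm (t ^ 2)]
      exact mul_le_mul_of_nonneg_right hMt' (sq_nonneg P.D)
  set Ψ := psiV P k c t rd g
  set w' := fun p => w p * exp (Ψ p)
  have hw' : ∀ p, 0 < w' p := fun p => mul_pos (hw p) (exp_pos _)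
  have hY : ∀ p, exp (-(P.D * (|U| + A'))) ≤ exp (Ψ p) ∧ exp (Ψ p) ≤ exp (P.D * (|U| + A')) := fun p => by
    have h := abs_le.1 (abs_psiV_le P k rd g hc hct hMt' ((hU p).trans (le_abs_self U)))
    exact ⟨exp_le_exp.2 h.1, exp_le_exp.2 h.2⟩
  set q' := fun j => α * GbV P k R q j
  have hq' : Prof R q' V :=
    ((gbV_prof P k hR hq).scale hα).weaken (mul_le_mul_of_nonneg_right hA (sq_nonneg P.D))
  obtain ⟨hS0, htS, hdev, hdov⟩ := dev_tiltV P k hR hw hY rd g hc ht hct hα hA q hl.le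
  set S := sdevV P k R w rd g q l + |(M : ℝ) * t ^ 2 - α| + t ^ 2 * t ^ 2 * gsum g + t
  have hcz : ∀ {F : List (List (Ω × Bool)) → ℝ} {C : ℝ}, (∀ ps, |F ps| ≤ C) →
      |(∫ z, ET R (lin R) (prodW R w fun p s => siteFV P k c t g z (rd p) s) [(0, l), (0, 0)] F ∂gauss (Fin M)) -
        ∫ z, ET R (lin R) (prodW R w' fun p s => exp (sg s * dot (a p) z)) [(0, l), (0, 0)] F ∂gauss (Fin M)| ≤
      C * Kn * t := fun {F C} hF => by
    refine (noise_meanV P k hR hw rd g ht ht1 hMt' haa (valid_pair hl.le) hF).trans_eq ?_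
    norm_num [Kn]
  have ew : ∀ z, wbar w' (fun p s => exp (sg s * dot (a p) z)) =
      fun p => w' p * fac (fun x => log (cosh x)) a z p := fun z => funext fun p => by
    rw [wbar, avg_exp_sg, fac, exp_log (cosh_pos _)]
  have hPS := mul_le_mul_of_nonneg_left htS hKn0
  have hKL := mul_nonneg (mul_nonneg hKp hL0) hS0
  constructor
  · have h0 := hcz (F := spinPr R) (C := 1) fun ps => by
      rw [spinPr, abs_mul, abs_sg_one, abs_sg_one, one_mul]
    have e : ∀ z, ET R (lin R) (prodW R w' fun p s => exp (sg s * dot (a p) z)) [(0, l), (0, 0)] (spinPr R) =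
        ET R (lin R) (fun p => w' p * fac (fun x => log (cosh x)) a z p) [(0, l), (0, 0)] fun ps =>
          (fun _ _ => (1:ℝ)) (ps.getD 0 []) (ps.getD 1 []) *
            ((fun x => sinh x / cosh x) (dot (a (ps.getD 0 [])) z) *
              (fun x => sinh x / cosh x) (dot (a (ps.getD 1 [])) z)) := fun z => by
      rw [← ew z]
      refine (ET_prodW_pair (w := w') hl hw' (fun p s => exp_pos _) fun _ s _ s' => sg s * sg s').trans ?_
      congr 1; funext ps
      simp only [spinMean_sg]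
      rw [show (fun (p : List Ω) s => sg s * (sinh (dot (a (ps.getD 1 [])) z) / cosh (dot (a (ps.getD 1 [])) z))) =
        fun _ s => (sinh (dot (a (ps.getD 1 [])) z) / cosh (dot (a (ps.getD 1 [])) z)) * sg s from
          funext fun p => funext fun s => mul_comm _ _]
      rw [spinMean_sg fun p => dot (a p) z]; ring
    have hp := (hpair (w := w') hR hw' haa hq' hl.le (Ψ := fun _ _ => 1) (C := 1) fun _ _ => by simp).1
    rw [Vale.Agent.P168.MP.ET_const hw', mul_one, mul_one, cosh_eq_exp] at hp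
    simp only [← e] at hp
    rw [qh, if_pos hl, show tanh = fun x => sinh x / cosh x from funext tanh_eq_sinh_div_cosh]
    refine (abs_sub_le _ _ _).trans ((add_le_add h0 (hp.trans (mul_le_mul_of_nonneg_left hdev hKp))).trans ?_)
    nlinarith [mul_nonneg hL0 hS0, mul_nonneg hKn0 hS0]
  · set Φ : List Ω → List Ω → ℝ := fun p p' => |ovK rd p p' - q l| with hΦ
    have hΦb : ∀ p p', |Φ p p'| ≤ 2 := fun p p' => by
      rw [hΦ, abs_abs]
      refine (abs_sub _ _).trans ?_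
      have := hq.bd hl.le
      rw [abs_of_nonneg this.1]
      have h2 : |ovK rd p p'| ≤ 1 := abs_ov_le _ _
      linarith [this.2]
    have h0 := hcz (F := fun ps => Φ ((ps.getD 0 []).map Prod.fst) ((ps.getD 1 []).map Prod.fst))
      fun ps => hΦb _ _
    have e : ∀ z, ET R (lin R) (prodW R w' fun p s => exp (sg s * dot (a p) z)) [(0, l), (0, 0)]
          (fun ps => Φ ((ps.getD 0 []).map Prod.fst) ((ps.getD 1 []).map Prod.fst)) =
        ET R (lin R) (fun p => w' p * fac (fun x => log (cosh x)) a z p) [(0, l), (0, 0)] fun ps =>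
          Φ (ps.getD 0 []) (ps.getD 1 []) := fun z => by
      rw [← ew z]
      refine (ET_prodW_pair (w := w') hl hw' (fun p s => exp_pos _) fun p _ p' _ => Φ p p').trans ?_
      congr 1; funext ps
      simp only [spinMean_const (Y := fun p s => exp (sg s * dot (a p) z)) (fun p s => exp_pos _)]
    have hp := (abs_le.1 (hpair (w := w') hR hw' haa hq' hl.le (Ψ := Φ) (C := 2) hΦb).2).2
    simp only [← e] at hp
    have hd : ET R (lin R) w' [(0, l), (0, 0)] (fun ps => Φ (ps.getD 0 []) (ps.getD 1 [])) ≤ L * S := hdov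
    have h5 := mul_le_mul_of_nonneg_left hdev (show 0 ≤ Kp * 2 by positivity)
    change ∫ z, ET R (lin R) (prodW R w fun p s => siteFV P k c t g z (rd p) s) [(0, l), (0, 0)]
      (fun ps => Φ ((ps.getD 0 []).map Prod.fst) ((ps.getD 1 []).map Prod.fst)) ∂gauss (Fin M) ≤ _
    linarith [(abs_le.1 h0).2, mul_le_mul_of_nonneg_left hPS (show (0:ℝ) ≤ 2 by norm_num)]

end Vale.Agent.P166.Hopf
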