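import Vale.Agent.P166.Hopf.General

/-!
# P166: the formula for every free infinitely divisible law at every temperature, from the modules
-/

open MeasureTheory Filter Finset
open scoped Topology

noncomputable section

namespace Vale.Agent.P166.Hopf

open Pattern.Signed (Carried CoreAt jn alf Lb alf_pos core_of stage_of law_mono near_mono)
open Pattern.Multi (Law cauchy Rk)

variable {ρ : Measure ℝ} {A β γ : ℝ}

/-- the pressure along some spectra near a law with the kernel -/
theorem core_hopf (hl : StmtLower) (hu : StmtUpper) (hc : StmtCut) (hcc : StmtConc) (hf : StmtFunctional)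
    (hρ : Carried ρ A) (hβ : 0 ≤ β) (γ : ℝ) : CoreAt γ ρ A β (sInf (hValues β γ ρ)) :=
  core_of hρ γ hβ one_pos
    (P := fun n => sInf (qHValues (alf ρ A 1 n) fun j => β * jn ρ A 1 n j) +
      β * Pattern.Signed.shift γ ρ A 1 n / 2)
    (fun n ν hν => stage_of hρ one_pos le_rfl γ n
      (fun ν' hν' => good_functional_conc hcc (alf_pos one_pos)
        (species_limit hl hu hc hf n.succ_pos (alf_pos one_pos)) ν' hν') ν hν)
    strictMono_id (by simpa using disc_tendsto hf hρ hβ one_pos γ)

lemma law_compact {μ : Measure ℝ} (hp : IsProbabilityMeasure μ) (hc : IsCompact μ.support) {L : ℝ}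
    (hL : |sInf μ.support| + |sSup μ.support| ≤ L) : Law μ (-L) L :=
  Par.Multi.law_of_compact hp hc hL

/-- **the formula**: for every law with the kernel `γ + ∫ y/(1-ty) dρ`, every admissible spectra and
every `β ≥ 0`, the pressure tends in probability to the infimum over the paths -/
theorem formula_all (hl : StmtLower) (hu : StmtUpper) (hc : StmtCut) (hcc : StmtConc) (hf : StmtFunctional)
    (hρ : Carried ρ A) (γ : ℝ) {μ : Measure ℝ} (hp : IsProbabilityMeasure μ) (hμc : IsCompact μ.support)
    (heq : ∀ᶠ w in atTop, w = 1 / cauchy μ w + Rk γ ρ (cauchy μ w))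
    (hβ : 0 ≤ β) {lam : ∀ N : ℕ, Fin N → ℝ} (hlam : Admissible μ lam)
    {ν : ∀ N : ℕ, Measure (Mat N)} (hν : ∀ N, IsHaarOrthogonal (ν N)) {ε : ℝ} (hε : 0 < ε) :
    Tendsto (fun N : ℕ => (ν N).real {U | ε ≤ |pressure β (lam N) U - sInf (hValues β γ ρ)|})
      atTop (𝓝 0) := by
  set p := sInf (hValues β γ ρ)
  obtain ⟨μ', X, hμ', -, heq', hX, hS⟩ := core_hopf hl hu hc hcc hf hρ hβ γ ν hν
  set L0 := max (Lb γ ρ A) (|sInf μ.support| + |sSup μ.support|)
  have h1' : Law μ' (-L0) L0 := law_mono (le_max_left _ _) hμ'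
  have h2' : Law μ (-L0) L0 := law_compact hp hμc (le_max_right _ _)
  have := h1'.prob
  have he : μ' = μ := ext_of_forall_integral_eq_of_IsFiniteMeasure fun g =>
    Pattern.Multi.integral_unique h1' h2'
      (Pattern.Signed.cauchy_unique hρ γ h1' h2' (heq'.mono fun _ hw => hw.2) heq) g
  subst he
  set L := max (Lb γ ρ A) (|sSup μ'.support| + |sInf μ'.support| + 1)
  have hbL : |sSup μ'.support| ≤ L :=
    le_trans (by linarith [abs_nonneg (sInf μ'.support)]) (le_max_right _ _)
  set φ := fun x : ℝ => min |x - p| 1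
  have hφ : Continuous φ := by fun_prop
  have h1 : Tendsto (fun N : ℕ => ∫ U, φ (pressure β (lam N) U) ∂ν N) atTop (𝓝 0) := by
    simpa [φ, p] using (near_phi_diff hμc hbL (near_mono (le_max_left _ _) hX)
      (near_mono (le_max_right _ _) (hlam.near hμc)) hβ hν hφ).add hS
  have hmin : 0 < min ε 1 := lt_min hε one_pos
  refine squeeze_zero' (Eventually.of_forall fun N => measureReal_nonneg) ?_
    (by simpa using h1.div_const (min ε 1))
  filter_upwards [eventually_gt_atTop 0] with N hN
  have := (hν N).1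
  rw [le_div_iff₀ hmin, mul_comm]
  refine le_trans ?_ (mul_meas_ge_le_integral_of_nonneg
    (.of_forall fun U => le_min (abs_nonneg _) zero_le_one)
    (integrable_of_continuous (hν N) hN hβ (lam N) hφ) (min ε 1))
  exact mul_le_mul_of_nonneg_left
    (measureReal_mono fun U (hU : ε ≤ |pressure β (lam N) U - p|) => min_le_min hU le_rfl) hmin.le

end Vale.Agent.P166.Hopf
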