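import Vale.Agent.P166.Hopf.Defs

/-!
# P166: the limit of the pattern pressure for finitely many quadratic potentials of any strength
-/

open MeasureTheory Filter Finset
open scoped Topology
open Vale.Agent.P157.Par (Prof)

noncomputable section

namespace Vale.Agent.P166.Hopf

open Par.Multi (Wts pressBar)
open Pattern.Signed (fC)
open Pattern.Multi (Ks)

variable {r : ℕ} {α c : Fin r → ℝ}

/-- the pattern pressure tends to the infimum over the paths -/
theorem species_limit (hl : StmtLower) (hu : StmtUpper) (hc : StmtCut) (hf : StmtFunctional)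
    (hr : 0 < r) (hα : ∀ j, 0 < α j) :
    Tendsto (fun N : ℕ => fC c N (Ks α N) / N) atTop (𝓝 (sInf (qHValues α c))) := by
  have : Nonempty (Fin r) := ⟨⟨0, hr⟩⟩
  set A := ∑ j, α j with hAdef
  have hA : 0 < A := sum_pos (fun j _ => hα j) univ_nonempty
  set p := fun j => α j / A
  have hp : Wts p :=
    ⟨fun j => div_nonneg (hα j).le hA.le, by simp only [p, ← sum_div]; exact div_self hA.ne'⟩
  obtain ⟨hne, -, hlow, hup⟩ := hf r α c hα A hAdef
  rw [Metric.tendsto_nhds]
  intro ε hε
  obtain ⟨v, ⟨R, h, V, hR, hh, hdom, rfl⟩, hv⟩ := exists_lt_of_csInf_lt hne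
    (show sInf (qHValues α c) < sInf (qHValues α c) + ε / 5 by linarith)
  have hε5 : 0 < ε / 5 := by linarith
  obtain ⟨L, hlowL, hupL, hcutL, hL⟩ := ((hlow _ hε5).and ((hup R h V hR hh hdom _ hε5).and
    ((hc r α c hα A hAdef _ hε5).and (eventually_ge_atTop (1 : ℝ))))).exists
  filter_upwards [hl r (cutF c L hL) p hp A hA (sInf (qHValues α c) - ε / 5)
      (fun R' h' V' hR' hh' => hlowL hL R' h' V' hR' hh') _ hε5,
    hu r (cutF c L hL) p hp A hA R h V hR hh _ hε5, hcutL hL] with N h1 h2 h3
  have h4 := hupL hL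
  rw [abs_le] at h3
  rw [Real.dist_eq, abs_lt]
  constructor <;> linarith [h3.1, h3.2]

end Vale.Agent.P166.Hopf
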