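import Vale.Agent.P157.Full.EnvGlue
import Vale.Agent.P166.Hopf.Up.Average
import Vale.Agent.P166.Hopf.Up.FieldLink
import Vale.Agent.P166.Hopf.Up.StepLink

/-! T2: the upper bound by every path. -/

open MeasureTheory ProbabilityTheory Real Finset Filter
open Vale.Agent.P168.MP (lin)

namespace Vale.Agent.P166.Hopf

open Up
open Vale.Agent.P157
open Vale.Agent.P166.Par.Multi (Fam exists_uniform)

/-- **T2: the upper bound by every path** -/
theorem upper_hopf : StmtUpper := by
  refine upper_hopf_of P157.Full.glue_grid fun s P => ?_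
  obtain ⟨KV, hKV, hV⟩ := exists_uniform (C := fun j K => P157.Par.ValueClose (P.f j) K)
    (fun j => P157.Par.value_close (P.sm j) 1)
    fun j K K' hKK hK' => by
      intro Ω K'' _ _ _ R hR w hw a ha q hq
      exact (hK' hR hw ha hq).trans (mul_le_mul_of_nonneg_right hKK (P157.Par.adev_nonneg hw _ _))
  obtain ⟨KL, hKL, hL⟩ := exists_uniform (C := fun j K => P157.Par.PhiLip (P.f j) K)
    (fun j => P157.Par.phiLip_of (P.sm j))
    fun j K K' hKK hK' R q q' hR hq hq' =>
      (hK' R q q' hR hq hq').trans (mul_le_mul_of_nonneg_right hKK (P157.Par.dist1_nonneg _ _ _))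
  refine ⟨KV + KL * exp (4 * P.B), by positivity, fun κ => ?_⟩
  have hS : ∀ a, P157.Par.Sm (P.f (κ a)) (P.f1 (κ a)) (P.f2 (κ a)) (P.f3 (κ a)) P.B P.D := fun a => P.sm (κ a)
  have hf : ∀ a, Continuous (P.f (κ a)) := fun a => (hS a).sd.cont0
  have hb : ∀ a x, |P.f (κ a) x| ≤ P.B := fun a x => abs_le.2 ⟨(hS a).lb x, P.ub (κ a) x⟩
  exact ⟨field_x hS hb, ibp_x hf hb, zero_x, ge_x hf hb,
    step_x hS (fun a x => P.ub (κ a) x) (fun a => hV (κ a)) hKL fun a => hL (κ a)⟩

end Vale.Agent.P166.Hopf
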